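import Vale.Agent.P112.H967.HL

/-!
# P112: directional maximal functions in the plane `ℝ × ℝ`
-/

open MeasureTheory Set Metric
open scoped ENNReal NNReal Topology

namespace Vale.Agent.P112.HL

/-- the constant of the maximal theorem -/
noncomputable def CM (p : ℝ) : ℝ≥0∞ := ENNReal.ofReal (8 * p * 2 ^ (p - 1) / (p - 1))

theorem CM_ne_top (p : ℝ) : CM p ≠ ∞ := ENNReal.ofReal_ne_top

theorem strong_MF' {p : ℝ} (hp : 1 < p) {f : ℝ → ℝ≥0∞} (hf : Measurable f) :
    ∫⁻ x, MF f x ^ p ≤ CM p * ∫⁻ x, f x ^ p := strong_MF hp hf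

/-- averages over open intervals -/
theorem Ioo_avg_le_MF (f : ℝ → ℝ≥0∞) {x a b : ℝ} (h : x ∈ Ioo a b) :
    (∫⁻ y in Ioo a b, f y) / ENNReal.ofReal (b - a) ≤ MF f x := by
  have h1 : Ioo a b = ball ((a + b) / 2) ((b - a) / 2) := Real.Ioo_eq_ball a b
  have h2 : b - a = 2 * ((b - a) / 2) := by ring
  rw [h1]
  nth_rewrite 2 [h2]
  exact avg_le_MF f (by rw [← h1]; exact h)

/-- the maximal function as a supremum over intervals with rational end points -/
theorem MF_eq_rat (f : ℝ → ℝ≥0∞) (x : ℝ) :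
    MF f x = ⨆ (a : ℚ) (b : ℚ) (_ : x ∈ Ioo (a : ℝ) b),
      (∫⁻ y in Ioo (a : ℝ) b, f y) / ENNReal.ofReal (b - a) := by
  apply le_antisymm
  · refine iSup_le fun c => iSup_le fun r => iSup_le fun hx => ?_
    have hr : 0 < r := lt_of_le_of_lt dist_nonneg (mem_ball.1 hx)
    rw [Real.ball_eq_Ioo] at hx ⊢
    have h2 : ENNReal.ofReal (2 * r) ≠ 0 := by
      rw [Ne, ENNReal.ofReal_eq_zero]; linarith
    rw [ENNReal.div_le_iff h2 ENNReal.ofReal_ne_top]
    -- exhaust by rational intervals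
    obtain ⟨u, hanti, hu, hulim⟩ : ∃ u : ℕ → ℝ, StrictAnti u ∧ (∀ n, u n ∈ Ioo (c - r) x) ∧
        Filter.Tendsto u Filter.atTop (𝓝 (c - r)) := by
      obtain ⟨u, h1, h2, h3⟩ := exists_seq_strictAnti_tendsto' hx.1
      exact ⟨u, h1, h2, h3⟩
    obtain ⟨v, hmon, hv, hvlim⟩ : ∃ v : ℕ → ℝ, StrictMono v ∧ (∀ n, v n ∈ Ioo x (c + r)) ∧
        Filter.Tendsto v Filter.atTop (𝓝 (c + r)) := by
      obtain ⟨v, h1, h2, h3⟩ := exists_seq_strictMono_tendsto' hx.2
      exact ⟨v, h1, h2, h3⟩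
    have hU : ∀ n, ∃ a : ℚ, c - r < a ∧ (a : ℝ) < u n := fun n => exists_rat_btwn (hu n).1
    have hV : ∀ n, ∃ b : ℚ, v n < b ∧ (b : ℝ) < c + r := fun n => exists_rat_btwn (hv n).2
    choose a ha ha' using hU
    choose b hb hb' using hV
    have hsub : ∀ n, ∫⁻ y in Ioo (u n) (v n), f y ≤
        (⨆ (a : ℚ) (b : ℚ) (_ : x ∈ Ioo (a : ℝ) b),
          (∫⁻ y in Ioo (a : ℝ) b, f y) / ENNReal.ofReal (b - a)) * ENNReal.ofReal (2 * r) := by
      intro n
      have hxn : x ∈ Ioo (a n : ℝ) (b n) := ⟨(ha' n).trans (hu n).2, (hv n).1.trans (hb n)⟩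
      have hpos : 0 < (b n : ℝ) - a n := by linarith [hxn.1, hxn.2]
      have h3 : ENNReal.ofReal ((b n : ℝ) - a n) ≠ 0 := by
        rw [Ne, ENNReal.ofReal_eq_zero]; linarith
      calc ∫⁻ y in Ioo (u n) (v n), f y ≤ ∫⁻ y in Ioo (a n : ℝ) (b n), f y :=
            lintegral_mono_set (Ioo_subset_Ioo (ha' n).le (hb n).le)
        _ = (∫⁻ y in Ioo (a n : ℝ) (b n), f y) / ENNReal.ofReal (b n - a n) *
              ENNReal.ofReal (b n - a n) := (ENNReal.div_mul_cancel h3 ENNReal.ofReal_ne_top).symm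
        _ ≤ _ := by
            refine mul_le_mul' ?_ (ENNReal.ofReal_le_ofReal (by linarith [ha n, hb' n]))
            exact le_iSup_of_le (a n) (le_iSup_of_le (b n) (le_iSup_of_le hxn le_rfl))
    have hsup : ∫⁻ y in Ioo (c - r) (c + r), f y ≤ ⨆ n : ℕ, ∫⁻ y in Ioo (u n) (v n), f y := by
      have h4 : Ioo (c - r) (c + r) ⊆ ⋃ n, Ioo (u n) (v n) := by
        intro y hy
        have h5 : ∀ᶠ n in Filter.atTop, u n < y := hulim.eventually (gt_mem_nhds hy.1)
        have h6 : ∀ᶠ n in Filter.atTop, y < v n := hvlim.eventually (lt_mem_nhds hy.2)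
        obtain ⟨n, hn⟩ := (h5.and h6).exists
        exact mem_iUnion.2 ⟨n, hn⟩
      have hmono : Monotone fun n => Ioo (u n) (v n) := fun n m hnm =>
        Ioo_subset_Ioo (hanti.antitone hnm) (hmon.monotone hnm)
      calc ∫⁻ y in Ioo (c - r) (c + r), f y ≤ ∫⁻ y in ⋃ n, Ioo (u n) (v n), f y :=
            lintegral_mono_set h4
        _ = ⨆ n, ∫⁻ y in Ioo (u n) (v n), f y := by
            rw [setLIntegral_iUnion_of_directed _ (hmono.directed_le)]
    exact hsup.trans (iSup_le hsub)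
  · refine iSup_le fun a => iSup_le fun b => iSup_le fun h => Ioo_avg_le_MF f h

/-- joint measurability of maximal functions with a parameter -/
theorem measurable_MF_param {α : Type*} [MeasurableSpace α] {G : α → ℝ → ℝ≥0∞}
    (hG : Measurable (fun q : α × ℝ => G q.1 q.2)) :
    Measurable (fun q : α × ℝ => MF (G q.1) q.2) := by
  simp_rw [MF_eq_rat]
  refine Measurable.iSup fun a => Measurable.iSup fun b => ?_
  have h1 : (fun q : α × ℝ => ⨆ (_ : q.2 ∈ Ioo (a : ℝ) b),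
      (∫⁻ y in Ioo (a : ℝ) b, G q.1 y) / ENNReal.ofReal (b - a)) =
      {q : α × ℝ | q.2 ∈ Ioo (a : ℝ) b}.indicator
        (fun q => (∫⁻ y in Ioo (a : ℝ) b, G q.1 y) / ENNReal.ofReal (b - a)) := by
    funext q
    by_cases h : q.2 ∈ Ioo (a : ℝ) b
    · rw [indicator_of_mem (by exact h), iSup_pos h]
    · rw [indicator_of_notMem (by exact h), iSup_neg h]
      rfl
  rw [h1]
  refine Measurable.indicator ?_ (measurable_snd measurableSet_Ioo)
  refine Measurable.div_const ?_ _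
  have h2 : Measurable fun q : α => ∫⁻ y in Ioo (a : ℝ) b, G q y :=
    Measurable.lintegral_prod_right' hG
  exact h2.comp measurable_fst

/-- the maximal function along lines of slope `s` -/
noncomputable def MS (s : ℝ) (f : ℝ × ℝ → ℝ≥0∞) (z : ℝ × ℝ) : ℝ≥0∞ :=
  MF (fun t => f (t, z.2 + s * (t - z.1))) z.1

/-- the vertical maximal function -/
noncomputable def MV (f : ℝ × ℝ → ℝ≥0∞) (z : ℝ × ℝ) : ℝ≥0∞ :=
  MF (fun t => f (z.1, t)) z.2

theorem measurable_MS (s : ℝ) {f : ℝ × ℝ → ℝ≥0∞} (hf : Measurable f) : Measurable (MS s f) := by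
  have h := measurable_MF_param (α := ℝ × ℝ) (G := fun z t => f (t, z.2 + s * (t - z.1)))
    (hf.comp (by fun_prop))
  exact h.comp (f := fun z : ℝ × ℝ => (z, z.1)) (by fun_prop)

theorem measurable_MV {f : ℝ × ℝ → ℝ≥0∞} (hf : Measurable f) : Measurable (MV f) := by
  have h := measurable_MF_param (α := ℝ) (G := fun x t => f (x, t)) (hf.comp (by fun_prop))
  exact h.comp (f := fun z : ℝ × ℝ => (z.1, z.2)) (by fun_prop)

theorem MS_mono {s : ℝ} {f g : ℝ × ℝ → ℝ≥0∞} (h : ∀ y, f y ≤ g y) (z : ℝ × ℝ) :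
    MS s f z ≤ MS s g z := MF_mono (fun _ => h _) _

theorem MV_mono {f g : ℝ × ℝ → ℝ≥0∞} (h : ∀ y, f y ≤ g y) (z : ℝ × ℝ) :
    MV f z ≤ MV g z := MF_mono (fun _ => h _) _

theorem lintegral_iter {f : ℝ × ℝ → ℝ≥0∞} (hf : Measurable f) :
    ∫⁻ z, f z = ∫⁻ x : ℝ, ∫⁻ y : ℝ, f (x, y) := by
  rw [Measure.volume_eq_prod, lintegral_prod _ hf.aemeasurable]

/-- the shear `∫∫ f(x, c + s x) dc dx = ∫∫ f` -/
theorem lintegral_shear (s : ℝ) {f : ℝ × ℝ → ℝ≥0∞} (hf : Measurable f) :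
    ∫⁻ z, f z = ∫⁻ c : ℝ, ∫⁻ x : ℝ, f (x, c + s * x) := by
  rw [lintegral_iter hf, lintegral_lintegral_swap (f := fun (c x : ℝ) => f (x, c + s * x))
    (Measurable.aemeasurable (hf.comp (by fun_prop)))]
  refine lintegral_congr fun x => ?_
  exact (lintegral_add_right_eq_self (μ := volume) (fun y => f (x, y)) (s * x)).symm

theorem strong_MS {p : ℝ} (hp : 1 < p) (s : ℝ) {f : ℝ × ℝ → ℝ≥0∞} (hf : Measurable f) :
    ∫⁻ z, MS s f z ^ p ≤ CM p * ∫⁻ z, f z ^ p := by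
  rw [lintegral_shear s ((measurable_MS s hf).pow_const p), lintegral_shear s (hf.pow_const p),
    ← lintegral_const_mul' _ _ (CM_ne_top p)]
  refine lintegral_mono fun c => ?_
  have h1 : ∀ x : ℝ, MS s f (x, c + s * x) = MF (fun t => f (t, c + s * t)) x := by
    intro x
    simp only [MS]
    congr 1
    funext t
    congr 2
    ring
  simp only [h1]
  exact strong_MF' hp (hf.comp (by fun_prop))

theorem strong_MV {p : ℝ} (hp : 1 < p) {f : ℝ × ℝ → ℝ≥0∞} (hf : Measurable f) :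
    ∫⁻ z, MV f z ^ p ≤ CM p * ∫⁻ z, f z ^ p := by
  have hM : Measurable fun z => MV f z ^ p := (measurable_MV hf).pow_const p
  have hP : Measurable fun z => f z ^ p := hf.pow_const p
  have h1 := lintegral_iter hM
  have h2 := lintegral_iter hP
  have h3 : ∀ x : ℝ, ∫⁻ y : ℝ, MF (fun t => f (x, t)) y ^ p ≤
      CM p * ∫⁻ y : ℝ, f (x, y) ^ p := by
    intro x
    have h4 : Measurable fun y : ℝ => f (x, y) := hf.comp measurable_prodMk_left
    exact strong_MF' hp h4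
  rw [h1, h2, ← lintegral_const_mul' _ _ (CM_ne_top p)]
  exact lintegral_mono h3

/-- averages over tubes: `z = (x, y)` in the tube of centre `(x₀, y₀)`, slope `s`, half length
`L`, half width `w`. -/
theorem tube_avg (s : ℝ) {f : ℝ × ℝ → ℝ≥0∞} (hf : Measurable f) {x y x₀ y₀ L w : ℝ}
    (hx : x ∈ ball x₀ L) (hy : y ∈ ball (y₀ + s * (x - x₀)) w) :
    (∫⁻ t in ball x₀ L, ∫⁻ h in ball (y₀ + s * (t - x₀)) w, f (t, h)) /
      (ENNReal.ofReal (2 * L) * ENNReal.ofReal (2 * w)) ≤ MV (MS s f) (x, y) := by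
  have hL : 0 < L := lt_of_le_of_lt dist_nonneg (mem_ball.1 hx)
  have hw : 0 < w := lt_of_le_of_lt dist_nonneg (mem_ball.1 hy)
  have hL0 : ENNReal.ofReal (2 * L) ≠ 0 := by rw [Ne, ENNReal.ofReal_eq_zero]; linarith
  have hw0 : ENNReal.ofReal (2 * w) ≠ 0 := by rw [Ne, ENNReal.ofReal_eq_zero]; linarith
  -- shift the inner variable to the fibre over `x`
  have h1 : ∀ t : ℝ, ∫⁻ h in ball (y₀ + s * (t - x₀)) w, f (t, h) =
      ∫⁻ h in ball (y₀ + s * (x - x₀)) w, f (t, h + s * (t - x)) := by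
    intro t
    rw [← lintegral_indicator measurableSet_ball, ← lintegral_indicator measurableSet_ball,
      ← lintegral_add_right_eq_self (μ := volume)
        (fun h => (ball (y₀ + s * (t - x₀)) w).indicator (fun h => f (t, h)) h) (s * (t - x))]
    refine lintegral_congr fun h => ?_
    have h2 : h + s * (t - x) ∈ ball (y₀ + s * (t - x₀)) w ↔ h ∈ ball (y₀ + s * (x - x₀)) w := by
      rw [mem_ball, mem_ball, Real.dist_eq, Real.dist_eq]
      rw [show h + s * (t - x) - (y₀ + s * (t - x₀)) = h - (y₀ + s * (x - x₀)) by ring]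
    by_cases h3 : h ∈ ball (y₀ + s * (x - x₀)) w
    · rw [indicator_of_mem h3, indicator_of_mem (h2.2 h3)]
    · rw [indicator_of_notMem h3, indicator_of_notMem (fun h4 => h3 (h2.1 h4))]
  simp only [h1]
  have h2 : ∫⁻ t in ball x₀ L, ∫⁻ h in ball (y₀ + s * (x - x₀)) w, f (t, h + s * (t - x)) =
      ∫⁻ h in ball (y₀ + s * (x - x₀)) w, ∫⁻ t in ball x₀ L, f (t, h + s * (t - x)) := by
    refine lintegral_lintegral_swap (Measurable.aemeasurable ?_)
    exact hf.comp (by fun_prop)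
  rw [h2]
  have h3 : ∀ h : ℝ, ∫⁻ t in ball x₀ L, f (t, h + s * (t - x)) ≤
      ENNReal.ofReal (2 * L) * MS s f (x, h) := by
    intro h
    have h4 := avg_le_MF (fun t => f (t, h + s * (t - x))) hx
    rw [ENNReal.div_le_iff hL0 ENNReal.ofReal_ne_top] at h4
    rw [mul_comm]
    exact h4
  have h5 : ∫⁻ h in ball (y₀ + s * (x - x₀)) w, ∫⁻ t in ball x₀ L, f (t, h + s * (t - x)) ≤
      ENNReal.ofReal (2 * L) * ∫⁻ h in ball (y₀ + s * (x - x₀)) w, MS s f (x, h) := by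
    rw [← lintegral_const_mul' _ _ ENNReal.ofReal_ne_top]
    exact lintegral_mono h3
  have h6 := avg_le_MF (fun h => MS s f (x, h)) hy
  rw [ENNReal.div_le_iff hw0 ENNReal.ofReal_ne_top] at h6
  rw [ENNReal.div_le_iff (mul_ne_zero hL0 hw0)
    (ENNReal.mul_ne_top ENNReal.ofReal_ne_top ENNReal.ofReal_ne_top)]
  calc _ ≤ ENNReal.ofReal (2 * L) * ∫⁻ h in ball (y₀ + s * (x - x₀)) w, MS s f (x, h) := h5
    _ ≤ ENNReal.ofReal (2 * L) * (MF (fun h => MS s f (x, h)) y * ENNReal.ofReal (2 * w)) := by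
        gcongr
    _ = _ := by
        simp only [MV]
        ring

/-- **Strong bound for the tube maximal function** `MV ∘ MS s`, uniformly in the slope. -/
theorem strong_MVS {p : ℝ} (hp : 1 < p) (s : ℝ) {f : ℝ × ℝ → ℝ≥0∞} (hf : Measurable f) :
    ∫⁻ z, MV (MS s f) z ^ p ≤ CM p * CM p * ∫⁻ z, f z ^ p := by
  refine (strong_MV hp (measurable_MS s hf)).trans ?_
  rw [mul_assoc]
  exact mul_le_mul_right (strong_MS hp s hf) _

end Vale.Agent.P112.HL
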