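import Vale.Agent.P112.H967.Mx
import Vale.Agent.P112.H967.Dir

/-!
# P112: `L^p` bounds for maximal truncated singular integrals, on the line and along directions
-/

open MeasureTheory Set Metric Filter
open scoped ENNReal NNReal Topology

namespace Vale.Agent.P112.HL

open Vale.Agent.P112.H158 (cv nsq n1 Kern)

/-- bounded measurable functions with bounded support -/
def BC (f : ℝ → ℝ) : Prop :=
  Measurable f ∧ ∃ R : ℝ, (∀ x, |f x| ≤ R) ∧ ∀ x, R ≤ |x| → f x = 0

theorem BC.memLp {f : ℝ → ℝ} (h : BC f) (p : ℝ≥0∞) : MemLp f p volume := by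
  obtain ⟨hm, R, h1, h2⟩ := h
  have hs : (Function.support f) ⊆ Icc (-R) R := by
    intro x hx
    by_contra hc
    apply hx
    apply h2
    by_contra hc'
    rw [not_le] at hc'
    exact hc (abs_le.1 hc'.le)
  have h3 : MemLp f ∞ (volume.restrict (Icc (-R) R)) :=
    memLp_top_of_bound hm.aestronglyMeasurable R (Eventually.of_forall fun x => h1 x)
  have h4 : MemLp f p (volume.restrict (Icc (-R) R)) := h3.mono_exponent le_top
  have h5 := (memLp_indicator_iff_restrict (f := f) (p := p) (measurableSet_Icc (a := -R) (b := R))).2 h4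
  rwa [indicator_eq_self.2 hs] at h5

theorem BC.integrable {f : ℝ → ℝ} (h : BC f) : Integrable f := memLp_one_iff_integrable.1 (h.memLp 1)

/-- truncation -/
noncomputable def tr (N : ℕ) (f : ℝ → ℝ) (x : ℝ) : ℝ := if |x| < N ∧ |f x| ≤ N then f x else 0

theorem tr_BC {f : ℝ → ℝ} (hf : Measurable f) (N : ℕ) : BC (tr N f) := by
  refine ⟨?_, N, fun x => ?_, fun x hx => ?_⟩
  · unfold tr
    refine Measurable.ite ?_ hf measurable_const
    exact (measurableSet_lt (continuous_abs.measurable) measurable_const).inter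
      (measurableSet_le (continuous_abs.measurable.comp hf) measurable_const)
  · unfold tr
    split_ifs with h
    · exact h.2
    · simp
  · unfold tr
    rw [if_neg]
    exact fun h => absurd h.1 (not_lt.2 hx)

theorem abs_tr_le (N : ℕ) (f : ℝ → ℝ) (x : ℝ) : |tr N f x| ≤ |f x| := by
  unfold tr
  split_ifs
  · exact le_rfl
  · simp

theorem tr_tendsto (f : ℝ → ℝ) (x : ℝ) : Tendsto (fun N => tr N f x) atTop (𝓝 (f x)) := by
  refine tendsto_const_nhds.congr' ?_
  filter_upwards [eventually_gt_atTop ⌈|x|⌉₊, eventually_ge_atTop ⌈|f x|⌉₊] with N h1 h2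
  have h3 : |x| < N := lt_of_le_of_lt (Nat.le_ceil _) (by exact_mod_cast h1)
  have h4 : |f x| ≤ N := (Nat.le_ceil _).trans (by exact_mod_cast h2)
  unfold tr
  rw [if_pos ⟨h3, h4⟩]

variable {K : ℝ → ℝ} {M : ℝ}

/-- pointwise convergence of the convolutions of the truncations -/
theorem cv_tr_tendsto {D : ℝ → ℝ} (hDc : Continuous D) (hDs : HasCompactSupport D) {f : ℝ → ℝ}
    (hf : Measurable f) (hfl : LocallyIntegrable f volume) (x : ℝ) :
    Tendsto (fun N => cv D (tr N f) x) atTop (𝓝 (cv D f x)) := by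
  have hint : Integrable fun y => D (x - y) * f y := by
    have h1 : HasCompactSupport fun y => D (x - y) :=
      hDs.comp_homeomorph (Homeomorph.subLeft x)
    have h2 : Continuous fun y => D (x - y) := by fun_prop
    have := hfl.integrable_smul_left_of_hasCompactSupport h2 h1
    simpa [smul_eq_mul] using this
  refine tendsto_integral_of_dominated_convergence (fun y => ‖D (x - y) * f y‖)
    (fun N => ?_) hint.norm (fun N => Eventually.of_forall fun y => ?_)
    (Eventually.of_forall fun y => (tr_tendsto f y).const_mul _)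
  · exact ((hDc.measurable.comp (by fun_prop)).mul (tr_BC hf N).1).aestronglyMeasurable
  · rw [norm_mul, norm_mul]
    gcongr
    exact abs_tr_le N f y

theorem SK_hcs (h : HK K M) (a b : ℕ) : HasCompactSupport (SK K a b) := by
  refine HasCompactSupport.intro (isCompact_Icc (a := -1) (b := 1)) fun x hx => ?_
  apply SK_supp_one h
  by_contra hc
  rw [not_le] at hc
  exact hx (abs_le.1 hc.le)

theorem locInt_of_lintegral {p : ℝ} (hp : 1 ≤ p) {f : ℝ → ℝ} (hf : Measurable f)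
    (hfin : ∫⁻ x, ‖f x‖ₑ ^ p ≠ ∞) : LocallyIntegrable f volume := by
  have h1 : MemLp f (ENNReal.ofReal p) volume := by
    refine ⟨hf.aestronglyMeasurable, ?_⟩
    rw [eLpNorm_lt_top_iff_lintegral_rpow_enorm_lt_top (by
      rw [Ne, ENNReal.ofReal_eq_zero]; linarith) ENNReal.ofReal_ne_top,
      ENNReal.toReal_ofReal (by linarith)]
    exact lt_top_iff_ne_top.2 hfin
  exact h1.locallyIntegrable (by rw [← ENNReal.ofReal_one]; exact ENNReal.ofReal_le_ofReal hp)

/-- **From uniform `L^p` bounds of the full sums to the maximal operator.** -/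
theorem MK_Lp_of (h : HK K M) {p : ℝ} (hp : 1 < p) {B : ℝ≥0∞}
    (hB : ∀ n g, BC g → ∫⁻ x, ‖cv (SK K 0 n) g x‖ₑ ^ p ≤ B * ∫⁻ x, ‖g x‖ₑ ^ p)
    {f : ℝ → ℝ} (hf : Measurable f) :
    ∫⁻ x, MK K f x ^ p ≤ (2 ^ (p - 1) * (4 ^ p * (CM p * B) +
      ENNReal.ofReal (544 * M + 1) ^ p * CM p)) * ∫⁻ x, ‖f x‖ₑ ^ p := by
  have hM := h.M_nonneg
  have hp0 : 0 < p := by linarith
  set C : ℝ≥0∞ := 2 ^ (p - 1) * (4 ^ p * (CM p * B) + ENNReal.ofReal (544 * M + 1) ^ p * CM p)
    with hC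
  have hCpos : C ≠ 0 := by
    rw [hC]
    refine mul_ne_zero ?_ (ne_of_gt (lt_of_lt_of_le ?_ le_add_self))
    · exact (ENNReal.rpow_pos (by norm_num) (by norm_num)).ne'
    · refine ENNReal.mul_pos ?_ ?_
      · refine (ENNReal.rpow_pos ?_ ENNReal.ofReal_ne_top).ne'
        rw [ENNReal.ofReal_pos]; positivity
      · rw [CM, Ne, ENNReal.ofReal_eq_zero, not_le]
        have : 0 < p - 1 := by linarith
        positivity
  -- bounded functions, n scales
  have step1 : ∀ n g, BC g → ∫⁻ x, MKn K n g x ^ p ≤ C * ∫⁻ x, ‖g x‖ₑ ^ p := by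
    intro n g hg
    have hgm := hg.1
    have hTm : Measurable fun y => ‖cv (SK K 0 n) g y‖ₑ :=
      (H158.measurable_cv (continuous_SK h 0 n).measurable hgm).enorm
    calc ∫⁻ x, MKn K n g x ^ p
        ≤ ∫⁻ x, (4 * MF (fun y => ‖cv (SK K 0 n) g y‖ₑ) x +
            ENNReal.ofReal (544 * M + 1) * MF (fun y => ‖g y‖ₑ) x) ^ p := by
          refine lintegral_mono fun x => ?_
          refine ENNReal.rpow_le_rpow ((MKn_le h n hgm (hg.memLp 2) x).trans ?_) hp0.le
          gcongr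
          linarith
      _ ≤ ∫⁻ x, 2 ^ (p - 1) * (4 ^ p * MF (fun y => ‖cv (SK K 0 n) g y‖ₑ) x ^ p +
            ENNReal.ofReal (544 * M + 1) ^ p * MF (fun y => ‖g y‖ₑ) x ^ p) := by
          refine lintegral_mono fun x => ?_
          refine (ENNReal.rpow_add_le_mul_rpow_add_rpow _ _ hp.le).trans ?_
          rw [ENNReal.mul_rpow_of_nonneg _ _ hp0.le, ENNReal.mul_rpow_of_nonneg _ _ hp0.le]
      _ = 2 ^ (p - 1) * (4 ^ p * (∫⁻ x, MF (fun y => ‖cv (SK K 0 n) g y‖ₑ) x ^ p) +
            ENNReal.ofReal (544 * M + 1) ^ p * ∫⁻ x, MF (fun y => ‖g y‖ₑ) x ^ p) := by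
          rw [lintegral_const_mul' _ _ (by
            exact ENNReal.rpow_ne_top_of_nonneg (by linarith) (by norm_num)),
            lintegral_add_left (((measurable_MF _).pow_const p).const_mul _),
            lintegral_const_mul' _ _ (ENNReal.rpow_ne_top_of_nonneg hp0.le (by norm_num)),
            lintegral_const_mul' _ _ (ENNReal.rpow_ne_top_of_nonneg hp0.le
              ENNReal.ofReal_ne_top)]
      _ ≤ 2 ^ (p - 1) * (4 ^ p * (CM p * (B * ∫⁻ x, ‖g x‖ₑ ^ p)) +
            ENNReal.ofReal (544 * M + 1) ^ p * (CM p * ∫⁻ x, ‖g x‖ₑ ^ p)) := by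
          gcongr
          · exact (strong_MF' hp hTm).trans (by gcongr; exact hB n g hg)
          · exact strong_MF' hp hgm.enorm
      _ = C * ∫⁻ x, ‖g x‖ₑ ^ p := by rw [hC]; ring
  -- bounded functions, all scales
  have step2 : ∀ g, BC g → ∫⁻ x, MK K g x ^ p ≤ C * ∫⁻ x, ‖g x‖ₑ ^ p := by
    intro g hg
    have e : ∀ x, MK K g x ^ p = ⨆ n, MKn K n g x ^ p := by
      intro x
      rw [MK_eq]
      exact (ENNReal.orderIsoRpow p hp0).map_iSup _
    simp only [e]
    rw [lintegral_iSup (fun n => (measurable_MKn h n hg.1).pow_const p)]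
    · exact iSup_le fun n => step1 n g hg
    · intro n m hnm x
      exact ENNReal.rpow_le_rpow (monotone_MKn K g x hnm) hp0.le
  -- general functions
  by_cases hfin : ∫⁻ x, ‖f x‖ₑ ^ p = ∞
  · rw [hfin, ENNReal.mul_top hCpos]
    exact le_top
  have hfl := locInt_of_lintegral hp.le hf hfin
  have hpt : ∀ x, MK K f x ^ p ≤ liminf (fun N => MK K (tr N f) x ^ p) atTop := by
    intro x
    have h1 : ∀ a b : ℕ, ‖cv (SK K a b) f x‖ₑ ^ p ≤
        liminf (fun N => MK K (tr N f) x ^ p) atTop := by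
      intro a b
      have h2 : Tendsto (fun N => ‖cv (SK K a b) (tr N f) x‖ₑ ^ p) atTop
          (𝓝 (‖cv (SK K a b) f x‖ₑ ^ p)) :=
        ((ENNReal.continuous_rpow_const.tendsto _).comp
          (cv_tr_tendsto (continuous_SK h a b) (SK_hcs h a b) hf hfl x).enorm)
      rw [← h2.liminf_eq]
      refine liminf_le_liminf (Eventually.of_forall fun N => ?_)
      refine ENNReal.rpow_le_rpow ?_ hp0.le
      exact le_iSup_of_le a (le_iSup_of_le b le_rfl)
    have h3 : MK K f x ≤ (liminf (fun N => MK K (tr N f) x ^ p) atTop) ^ p⁻¹ := by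
      refine iSup_le fun a => iSup_le fun b => ?_
      rw [ENNReal.le_rpow_inv_iff hp0]
      exact h1 a b
    rwa [ENNReal.le_rpow_inv_iff hp0] at h3
  calc ∫⁻ x, MK K f x ^ p ≤ ∫⁻ x, liminf (fun N => MK K (tr N f) x ^ p) atTop :=
        lintegral_mono hpt
    _ ≤ liminf (fun N => ∫⁻ x, MK K (tr N f) x ^ p) atTop :=
        lintegral_liminf_le fun N => (measurable_MK h (tr_BC hf N).1).pow_const p
    _ ≤ liminf (fun _ : ℕ => C * ∫⁻ x, ‖f x‖ₑ ^ p) atTop := by
        refine liminf_le_liminf (Eventually.of_forall fun N => (step2 _ (tr_BC hf N)).trans ?_)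
        gcongr with x
        rw [← ofReal_norm, ← ofReal_norm]
        exact ENNReal.ofReal_le_ofReal (abs_tr_le N f x)
    _ = C * ∫⁻ x, ‖f x‖ₑ ^ p := liminf_const _

/-- the constant for `p = 2` -/
noncomputable def CH2 (M : ℝ) : ℝ≥0∞ := 2 ^ ((2 : ℝ) - 1) * (4 ^ (2 : ℝ) *
  (CM 2 * ENNReal.ofReal (32 * M) ^ 2) + ENNReal.ofReal (544 * M + 1) ^ (2 : ℝ) * CM 2)

theorem CH2_ne_top (M : ℝ) : CH2 M ≠ ∞ := by
  unfold CH2
  have h1 := CM_ne_top 2
  have h2 : (2 : ℝ≥0∞) ^ ((2 : ℝ) - 1) ≠ ∞ :=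
    ENNReal.rpow_ne_top_of_nonneg (by norm_num) (by norm_num)
  have h3 : (4 : ℝ≥0∞) ^ (2 : ℝ) ≠ ∞ := ENNReal.rpow_ne_top_of_nonneg (by norm_num) (by norm_num)
  have h4 : ENNReal.ofReal (544 * M + 1) ^ (2 : ℝ) ≠ ∞ :=
    ENNReal.rpow_ne_top_of_nonneg (by norm_num) ENNReal.ofReal_ne_top
  have h5 : ENNReal.ofReal (32 * M) ^ 2 ≠ ∞ := ENNReal.pow_ne_top ENNReal.ofReal_ne_top
  exact ENNReal.mul_ne_top h2 (ENNReal.add_ne_top.2
    ⟨ENNReal.mul_ne_top h3 (ENNReal.mul_ne_top h1 h5), ENNReal.mul_ne_top h4 h1⟩)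

/-- **Maximal truncated singular integrals are bounded on `L²(ℝ)`.** -/
theorem MK_L2 (h : HK K M) {f : ℝ → ℝ} (hf : Measurable f) :
    ∫⁻ x, MK K f x ^ 2 ≤ CH2 M * ∫⁻ x, ‖f x‖ₑ ^ 2 := by
  have := MK_Lp_of h (p := 2) (by norm_num) (B := ENNReal.ofReal (32 * M) ^ 2) (fun n g hg => by
    have := nsq_SK_le h 0 n hg.1 hg.integrable (hg.memLp 2)
    simpa only [ENNReal.rpow_two, H158.nsq] using this) hf
  simpa only [ENNReal.rpow_two, CH2] using this

end Vale.Agent.P112.HL
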