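import Vale.Agent.P112.H967.TqA
import Vale.Agent.P112.H646.GainDefs

/-!
# P112, `[GAIN]`, block (5): moments of the trees, `StLq κ`
-/

open MeasureTheory Set
open scoped ENNReal NNReal

set_option linter.dupNamespace false

namespace Vale.Agent.P112.HL

open Vale.Agent.P112.T (Ker Nice Field Un)
open T580 (TreeN)

/-- the constant of `cT` for the exponent `2` -/
theorem cT_two (C0 : ℝ) (hC0 : 0 ≤ C0) {C₁ : ℝ≥0∞} (hC₁ : C₁ ≠ ∞) : ∃ C : ℝ, 0 ≤ C ∧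
    ∀ A : ℝ, 1 ≤ A → T580.cT 2 A C0 C₁ ≤ ENNReal.ofReal (C * A ^ 4) := by
  set D : ℝ := 8 * (C0 + 20 * C0 ^ 2) with hD
  have hD0 : 0 ≤ D := by positivity
  set Z : ℝ≥0∞ := 2 * (CM 2 * (2 ^ ((2 : ℝ) - 1) * (C₁ + CM 2))) with hZ
  have hCM : CM 2 ≠ ∞ := ENNReal.ofReal_ne_top
  have hZt : Z ≠ ∞ := by
    rw [hZ]
    refine ENNReal.mul_ne_top (by norm_num) (ENNReal.mul_ne_top hCM (ENNReal.mul_ne_top ?_ ?_))
    · exact ENNReal.rpow_ne_top_of_nonneg (by norm_num) (by norm_num)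
    · exact ENNReal.add_ne_top.2 ⟨hC₁, hCM⟩
  refine ⟨D ^ 2 * Z.toReal, by positivity, ?_⟩
  intro A hA
  set B : ℝ := (C0 * (1 + 8 * C0) + 12 * (C0 * A) * C0) * (2 * (A + 3)) with hB
  have hB0 : 0 ≤ B := by positivity
  have hBD : B ≤ D * A ^ 2 := by
    have e1 : C0 * (1 + 8 * C0) + 12 * (C0 * A) * C0 ≤ (C0 + 20 * C0 ^ 2) * A := by
      nlinarith [mul_nonneg hC0 (sub_nonneg.2 hA), mul_nonneg (sq_nonneg C0) (sub_nonneg.2 hA)]
    have e2 : 2 * (A + 3) ≤ 8 * A := by linarith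
    calc B ≤ ((C0 + 20 * C0 ^ 2) * A) * (8 * A) := by
          rw [hB]
          apply mul_le_mul e1 e2 (by linarith) (by positivity)
      _ = D * A ^ 2 := by rw [hD]; ring
  have e0 : T580.cT 2 A C0 C₁ = ENNReal.ofReal B ^ (2 : ℝ) * Z := by
    unfold T580.cT
    rw [← hB, hZ]
    ring
  rw [e0]
  calc ENNReal.ofReal B ^ (2 : ℝ) * Z
      ≤ ENNReal.ofReal (D * A ^ 2) ^ (2 : ℝ) * ENNReal.ofReal Z.toReal := by
        rw [ENNReal.ofReal_toReal hZt]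
        gcongr
    _ = ENNReal.ofReal (D ^ 2 * Z.toReal * A ^ 4) := by
        rw [ENNReal.ofReal_rpow_of_nonneg (by positivity) (by norm_num),
          ← ENNReal.ofReal_mul (by positivity), Real.rpow_two]
        congr 1
        ring

/-- the tree function in `L²`, polynomial in the slope tolerance -/
theorem t2A {C0 : ℝ} (hC0 : 0 ≤ C0) : ∃ C : ℝ, 1 ≤ C ∧ ∀ (M : ℕ) (A : ℝ), 1 ≤ A →
    ∀ (N : ℝ) (κ : Ker M), κ.Bd N C0 → ∀ (τ : ℝ) (u : ℝ × ℝ → ℝ), Field u →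
    ∀ (n : ℕ) (E : ℕ → Set (ℝ × ℝ)) (s δ : ℝ), TreeN N A δ τ s u n E →
    ∀ g : ℝ × ℝ → ℝ, Nice g →
      ∫⁻ ζ, ‖κ.FS u g E n ζ‖ₑ ^ (2 : ℝ) ≤
        ENNReal.ofReal (C * A ^ 4 * δ) * ∫⁻ z in Un E n, ‖g z‖ₑ ^ (2 : ℝ) := by
  obtain ⟨C₁, hC₁, hmax⟩ := maxH C0 (p := 2) (by norm_num)
  obtain ⟨C, hC, hcT⟩ := cT_two C0 hC0 hC₁
  refine ⟨C + 1, by linarith, ?_⟩
  intro M A hA N κ hκ τ u hu n E s δ hT g hg
  have hδ := hT.pos
  refine (T580.tq_explicit Real.HolderConjugate.two_two hA hmax hκ hu hT hg).trans ?_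
  gcongr
  have e1 : (2 : ℝ) - 1 = 1 := by norm_num
  rw [e1, ENNReal.rpow_one]
  calc T580.cT 2 A C0 C₁ * ENNReal.ofReal δ ≤ ENNReal.ofReal (C * A ^ 4) * ENNReal.ofReal δ := by
        gcongr
        exact hcT A hA
    _ = ENNReal.ofReal (C * A ^ 4 * δ) := by rw [← ENNReal.ofReal_mul (by positivity)]
    _ ≤ _ := by
        apply ENNReal.ofReal_le_ofReal
        gcongr
        linarith

/-- all exponents `q ≥ 2`, one kernel, no density -/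
theorem tq_all {M : ℕ} (κ : Ker M) : ∃ C : ℝ, 1 ≤ C ∧ ∀ A : ℝ, 1 ≤ A → ∀ q : ℝ, 2 ≤ q →
    ∀ u : ℝ × ℝ → ℝ, Field u → ∀ (n : ℕ) (E : ℕ → Set (ℝ × ℝ)) (s : ℝ),
    (∀ j, MeasurableSet (E j)) → (∀ j < n, ∀ z ∈ E j, |u z - s| ≤ A * 2 ^ j) →
    (∀ z, ∀ i j k : ℕ, i ≤ j → j ≤ k → k < n → z ∈ E i → z ∈ E k → z ∈ E j) →
    ∀ g : ℝ × ℝ → ℝ, Nice g → (∀ z, |g z| ≤ 1) →
      ∫⁻ ζ, ‖κ.FS u g E n ζ‖ₑ ^ q ≤
        ENNReal.ofReal ((C * A ^ 8 * q ^ 3) ^ q) * volume (Un E n) := by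
  obtain ⟨C0, hC0, hκ⟩ : ∃ C0 : ℝ, 0 ≤ C0 ∧ κ.Bd 1 C0 := by
    obtain ⟨C0, h1, h2, -⟩ := T580.three_bd κ
    exact ⟨C0, h1, h2⟩
  obtain ⟨C3, hC3, h3⟩ := tqA hC0
  obtain ⟨C2, hC2, h2⟩ := t2A hC0
  set C : ℝ := 4 * C3 + 4 * C2 with hC
  have hC1 : 1 ≤ C := by linarith
  refine ⟨900 * C ^ 2, by nlinarith, ?_⟩
  intro A hA q hq u hu n E s hE hs hc g hg hg1
  have hT : TreeN 1 A 4 0 s u n E :=
    treeN_four hE (fun j hj z hz => by rw [div_one]; exact hs j hj z hz) hc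
  have hA4 : 1 ≤ A ^ 4 := one_le_pow₀ hA
  have hgl : ∀ r : ℝ, 0 ≤ r → ∫⁻ z in Un E n, ‖g z‖ₑ ^ r ≤ volume (Un E n) := by
    intro r hr
    calc ∫⁻ z in Un E n, ‖g z‖ₑ ^ r ≤ ∫⁻ _ in Un E n, 1 := by
          apply lintegral_mono
          intro z
          have h1 : ‖g z‖ₑ ≤ 1 := by
            rw [← ofReal_norm, Real.norm_eq_abs]
            exact ENNReal.ofReal_le_one.2 (hg1 z)
          calc ‖g z‖ₑ ^ r ≤ 1 ^ r := ENNReal.rpow_le_rpow h1 hr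
            _ = 1 := ENNReal.one_rpow r
      _ = volume (Un E n) := by rw [setLIntegral_one]
  -- exponents at least three
  have big : ∀ r : ℝ, 3 ≤ r → ∫⁻ ζ, ‖κ.FS u g E n ζ‖ₑ ^ r ≤
      ENNReal.ofReal ((C * A ^ 4 * r ^ 3) ^ r) * volume (Un E n) := by
    intro r hr
    refine (h3 M A hA r hr 1 κ hκ 0 u hu n E s 4 hT g hg).trans ?_
    gcongr
    · have hr3 : 1 ≤ r ^ 3 := one_le_pow₀ (by linarith)
      have hb : 1 ≤ C * A ^ 4 * r ^ 3 := by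
        calc (1 : ℝ) = 1 * 1 * 1 := by norm_num
          _ ≤ C * A ^ 4 * r ^ 3 := by gcongr
      calc (C3 * A ^ 4 * r ^ 3 * 4) ^ (r - 1) ≤ (C * A ^ 4 * r ^ 3) ^ (r - 1) := by
            apply Real.rpow_le_rpow (by positivity) _ (by linarith)
            calc C3 * A ^ 4 * r ^ 3 * 4 = (4 * C3) * A ^ 4 * r ^ 3 := by ring
              _ ≤ C * A ^ 4 * r ^ 3 := by gcongr; linarith
        _ ≤ (C * A ^ 4 * r ^ 3) ^ r := Real.rpow_le_rpow_of_exponent_le hb (by linarith)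
    · exact hgl r (by linarith)
  -- the exponent two
  have two : ∫⁻ ζ, ‖κ.FS u g E n ζ‖ₑ ^ (2 : ℝ) ≤
      ENNReal.ofReal (C * A ^ 4) * volume (Un E n) := by
    refine (h2 M A hA 1 κ hκ 0 u hu n E s 4 hT g hg).trans ?_
    have e1 : C2 * A ^ 4 * 4 ≤ C * A ^ 4 := by
      calc C2 * A ^ 4 * 4 = (4 * C2) * A ^ 4 := by ring
        _ ≤ C * A ^ 4 := by gcongr; linarith
    exact mul_le_mul' (ENNReal.ofReal_le_ofReal e1) (hgl 2 (by norm_num))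
  have hCA : 1 ≤ C * A ^ 4 := by
    calc (1 : ℝ) = 1 * 1 := by norm_num
      _ ≤ C * A ^ 4 := by gcongr
  have hq3 : 1 ≤ q ^ 3 := one_le_pow₀ (by linarith)
  have hbase : C * A ^ 4 * q ^ 3 ≤ 900 * C ^ 2 * A ^ 8 * q ^ 3 := by
    have : C * A ^ 4 ≤ 900 * C ^ 2 * A ^ 8 := by
      calc C * A ^ 4 = 1 * (C * A ^ 4) := by ring
        _ ≤ (900 * (C * A ^ 4)) * (C * A ^ 4) := by gcongr; linarith
        _ = 900 * C ^ 2 * A ^ 8 := by ring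
    gcongr
  rcases le_or_gt 3 q with h | h
  · refine (big q h).trans ?_
    gcongr
  · -- `2 ≤ q < 3`
    have hFS : Measurable fun ζ => ‖κ.FS u g E n ζ‖ₑ :=
      (κ.FS_nice hu hg hE n).meas.enorm
    calc ∫⁻ ζ, ‖κ.FS u g E n ζ‖ₑ ^ q
        ≤ ∫⁻ ζ, (‖κ.FS u g E n ζ‖ₑ ^ (2 : ℝ) + ‖κ.FS u g E n ζ‖ₑ ^ (3 : ℝ)) := by
          apply lintegral_mono
          intro ζ
          rcases le_or_gt ‖κ.FS u g E n ζ‖ₑ 1 with h1 | h1
          · exact (ENNReal.rpow_le_rpow_of_exponent_ge h1 hq).trans le_self_add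
          · exact (ENNReal.rpow_le_rpow_of_exponent_le h1.le h.le).trans le_add_self
      _ = (∫⁻ ζ, ‖κ.FS u g E n ζ‖ₑ ^ (2 : ℝ)) + ∫⁻ ζ, ‖κ.FS u g E n ζ‖ₑ ^ (3 : ℝ) := by
          rw [lintegral_add_left (hFS.pow_const _)]
      _ ≤ ENNReal.ofReal (C * A ^ 4) * volume (Un E n) +
          ENNReal.ofReal ((C * A ^ 4 * 3 ^ 3) ^ (3 : ℝ)) * volume (Un E n) := by
          gcongr
          exact big 3 le_rfl
      _ = ENNReal.ofReal (C * A ^ 4 + (C * A ^ 4 * 3 ^ 3) ^ (3 : ℝ)) * volume (Un E n) := by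
          rw [← add_mul, ← ENNReal.ofReal_add (by positivity) (by positivity)]
      _ ≤ _ := by
          gcongr
          set Y : ℝ := C * A ^ 4 with hY
          have e0 : (Y * 3 ^ 3) ^ (3 : ℝ) = (27 * Y) ^ 3 := by
            rw [show (3 : ℝ) = ((3 : ℕ) : ℝ) by norm_num, Real.rpow_natCast]
            norm_num
            ring
          have e1 : Y + (Y * 3 ^ 3) ^ (3 : ℝ) ≤ (900 * Y ^ 2) ^ (2 : ℝ) := by
            rw [e0, Real.rpow_two]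
            have e2 : Y ≤ Y ^ 4 := le_self_pow₀ hCA (by norm_num)
            have e3 : Y ^ 3 ≤ Y ^ 4 := pow_le_pow_right₀ hCA (by norm_num)
            nlinarith
          have e4 : (900 * Y ^ 2 : ℝ) ≤ 900 * C ^ 2 * A ^ 8 * q ^ 3 := by
            calc (900 * Y ^ 2 : ℝ) = 900 * C ^ 2 * A ^ 8 * 1 := by rw [hY]; ring
              _ ≤ 900 * C ^ 2 * A ^ 8 * q ^ 3 := by gcongr
          have e5 : 1 ≤ 900 * Y ^ 2 := by
            have := one_le_pow₀ (n := 2) hCA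
            linarith
          calc Y + (Y * 3 ^ 3) ^ (3 : ℝ) ≤ (900 * Y ^ 2) ^ (2 : ℝ) := e1
            _ ≤ (900 * Y ^ 2) ^ q := Real.rpow_le_rpow_of_exponent_le e5 hq
            _ ≤ _ := Real.rpow_le_rpow (by positivity) e4 (by linarith)

open H646.Gain in
/-- **[LQ]** -/
theorem stLq {M : ℕ} (κ : Ker M) : StLq κ := by
  obtain ⟨C, hC, h⟩ := tq_all κ
  refine ⟨C, 8, hC, ?_⟩
  intro u hu n g hg hg1 S Q hS ι _ s E hT hE q hq
  have h1 : ∀ i, ∫⁻ w, ‖tg κ u g n s E i w‖ₑ ^ q ≤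
      ENNReal.ofReal ((C * S ^ 8 * q ^ 3) ^ q) * volume (Un (E i) n) := by
    intro i
    have hm : Measurable fun ζ => ‖κ.FS u g (E i) n ζ‖ₑ ^ q :=
      (κ.FS_nice hu hg (hT.meas i) n).meas.enorm.pow_const _
    have e1 : ∫⁻ w, ‖tg κ u g n s E i w‖ₑ ^ q = ∫⁻ ζ, ‖κ.FS u g (E i) n ζ‖ₑ ^ q := by
      rw [← H8.Bxs.lint_tilt (-s i) hm]
      apply lintegral_congr
      intro w
      have e2 : (w.1, w.2 - -s i * w.1) = (w.1, w.2 + s i * w.1) := by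
        rw [neg_mul, sub_neg_eq_add]
      rw [e2]
      unfold tg
      rw [← ofReal_norm, ← ofReal_norm, Complex.norm_real]
    rw [e1]
    exact h S hS q hq u hu n (E i) (s i) (hT.meas i) (fun j _ z hz => hT.slope i j z hz)
      (fun z a b c hab hbc _ ha hc' => hT.conv i z a b c hab hbc ha hc') g hg hg1
  have hUm : ∀ i, MeasurableSet (Un (E i) n) := by
    intro i
    have : Un (E i) n = ⋃ j ∈ Finset.range n, E i j := by
      ext z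
      simp [Un]
    rw [this]
    exact Finset.measurableSet_biUnion _ fun j _ => hT.meas i j
  have hdisj : Pairwise (Function.onFun Disjoint fun i => Un (E i) n) := by
    intro i i' hii
    rw [Function.onFun, Set.disjoint_left]
    rintro z ⟨j, _, hz⟩ ⟨j', _, hz'⟩
    exact hii (hT.uniq i i' j j' z hz hz')
  calc ∑ i, ∫⁻ w, ‖tg κ u g n s E i w‖ₑ ^ q
      ≤ ∑ i, ENNReal.ofReal ((C * S ^ 8 * q ^ 3) ^ q) * volume (Un (E i) n) :=
        Finset.sum_le_sum fun i _ => h1 i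
    _ = ENNReal.ofReal ((C * S ^ 8 * q ^ 3) ^ q) * ∑ i, volume (Un (E i) n) := by
        rw [Finset.mul_sum]
    _ = ENNReal.ofReal ((C * S ^ 8 * q ^ 3) ^ q) * volume (⋃ i, Un (E i) n) := by
        rw [measure_iUnion hdisj hUm, tsum_fintype]
    _ ≤ _ := by
        gcongr
        intro z hz
        obtain ⟨i, j, _, hz⟩ := Set.mem_iUnion.1 hz
        exact hE i j hz

end Vale.Agent.P112.HL
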