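import Vale.Agent.P112.H967.HK
import Vale.Agent.P112.H158.LP
import Mathlib.Analysis.Fourier.LpSpace
import Mathlib.Analysis.Fourier.Convolution
import Mathlib.Analysis.Fourier.RiemannLebesgueLemma

/-!
# P112: the uniform `L²` bound for sums of dilates of an odd Lipschitz kernel
-/

open MeasureTheory Set Metric FourierTransform
open scoped ENNReal NNReal Topology

namespace Vale.Agent.P112.HL

open Vale.Agent.P112.H158 (cv nsq n1)

theorem geo2 (X : ℝ) (hX : 0 ≤ X) (s : Finset ℕ) :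
    ∑ j ∈ s.filter (fun j => (2 : ℝ) ^ j < X), (2 : ℝ) ^ j ≤ 2 * X := by
  have key : ∀ m : ℕ, ∑ j ∈ (Finset.range m).filter (fun j => (2 : ℝ) ^ j < X), (2 : ℝ) ^ j ≤
      2 * X := by
    intro m
    induction m with
    | zero => simpa using hX
    | succ m ih =>
      by_cases h : (2 : ℝ) ^ m < X
      · calc ∑ j ∈ (Finset.range (m + 1)).filter (fun j => (2 : ℝ) ^ j < X), (2 : ℝ) ^ j
            ≤ ∑ j ∈ Finset.range (m + 1), (2 : ℝ) ^ j :=
              Finset.sum_le_sum_of_subset_of_nonneg (Finset.filter_subset _ _)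
                fun _ _ _ => by positivity
          _ = (2 : ℝ) ^ (m + 1) - 1 := by
              rw [geom_sum_eq (by norm_num)]; norm_num
          _ ≤ 2 * X := by rw [pow_succ]; linarith
      · rw [Finset.range_add_one, Finset.filter_insert, if_neg h]
        exact ih
  obtain ⟨m, hm⟩ := s.exists_nat_subset_range
  exact (Finset.sum_le_sum_of_subset_of_nonneg (Finset.filter_subset_filter _ hm)
    fun _ _ _ => by positivity).trans (key m)

theorem geo2' (X : ℝ) (hX : 0 < X) (s : Finset ℕ) :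
    ∑ j ∈ s.filter (fun j => ¬ (2 : ℝ) ^ j < X), ((2 : ℝ) ^ j)⁻¹ ≤ 2 / X := by
  have key : ∀ m : ℕ, (X ≤ 2 ^ m → ∑ j ∈ (Finset.range m).filter (fun j => ¬ (2 : ℝ) ^ j < X),
      ((2 : ℝ) ^ j)⁻¹ + 2 * ((2 : ℝ) ^ m)⁻¹ ≤ 2 / X) ∧
      (2 ^ m < X → ∑ j ∈ (Finset.range m).filter (fun j => ¬ (2 : ℝ) ^ j < X),
      ((2 : ℝ) ^ j)⁻¹ = 0) := by
    have h0 : ∀ m : ℕ, 2 ^ m < X * 2 → ∑ j ∈ (Finset.range m).filter
        (fun j => ¬ (2 : ℝ) ^ j < X), ((2 : ℝ) ^ j)⁻¹ = 0 := by
      intro m hm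
      rw [Finset.sum_eq_zero]
      intro j hj
      rw [Finset.mem_filter, Finset.mem_range] at hj
      exfalso
      apply hj.2
      have h1 : (2 : ℝ) ^ (j + 1) ≤ 2 ^ m := pow_le_pow_right₀ (by norm_num) hj.1
      rw [pow_succ] at h1
      linarith
    intro m
    induction m with
    | zero =>
      refine ⟨fun h => ?_, fun h => by simp⟩
      simp only [pow_zero] at h
      simp only [Finset.range_zero, Finset.filter_empty, Finset.sum_empty, pow_zero, inv_one,
        mul_one, zero_add]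
      rw [le_div_iff₀ hX]
      linarith
    | succ m ih =>
      refine ⟨fun h => ?_, fun h => h0 _ (by linarith)⟩
      by_cases hm : (2 : ℝ) ^ m < X
      · rw [h0 (m + 1) (by rw [pow_succ]; linarith), zero_add, ← div_eq_mul_inv]
        exact div_le_div_of_nonneg_left (by norm_num) hX h
      · have h1 := ih.1 (not_lt.1 hm)
        rw [Finset.range_add_one, Finset.filter_insert, if_pos hm, Finset.sum_insert (by simp)]
        have h2 : (2 : ℝ) * (2 ^ (m + 1))⁻¹ = (2 ^ m)⁻¹ := by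
          rw [pow_succ]; field_simp
        rw [h2]
        linarith
  obtain ⟨m, hm⟩ := s.exists_nat_subset_range
  have h1 : ∑ j ∈ s.filter (fun j => ¬ (2 : ℝ) ^ j < X), ((2 : ℝ) ^ j)⁻¹ ≤
      ∑ j ∈ (Finset.range m).filter (fun j => ¬ (2 : ℝ) ^ j < X), ((2 : ℝ) ^ j)⁻¹ :=
    Finset.sum_le_sum_of_subset_of_nonneg (Finset.filter_subset_filter _ hm)
      fun _ _ _ => by positivity
  refine h1.trans ?_
  rcases le_or_gt X (2 ^ m) with h | h
  · have := (key m).1 h
    have h3 : (0 : ℝ) ≤ 2 * ((2 : ℝ) ^ m)⁻¹ := by positivity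
    linarith
  · rw [(key m).2 h]; positivity

variable {K : ℝ → ℝ} {M : ℝ}

theorem HK.kern (h : HK K M) : H158.Kern K 1 M := ⟨h.lip, h.supp⟩

theorem HK.integrable (h : HK K M) : Integrable K := h.kern.integrable

theorem HK.integral_zero (h : HK K M) : ∫ x, K x = 0 := by
  have h1 : ∫ x, K (-x) = ∫ x, K x := integral_neg_eq_self K volume
  simp only [h.odd, integral_neg] at h1
  linarith

/-- low frequencies -/
theorem HK.fourier_low (h : HK K M) (ξ : ℝ) :
    ‖𝓕 (fun t => (K t : ℂ)) ξ‖ ≤ 14 * M * |ξ| := by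
  have hM := h.M_nonneg
  have hKi : Integrable fun t => (K t : ℂ) := h.integrable.ofReal
  have hE : Integrable fun t : ℝ => Complex.exp (↑(-2 * Real.pi * t * ξ) * Complex.I) • (K t : ℂ) := by
    have := (Real.fourierIntegral_convergent_iff (V := ℝ) (μ := volume) (f := fun t => (K t : ℂ)) ξ).2 hKi
    refine this.congr (Filter.Eventually.of_forall fun t => ?_)
    simp only [Circle.smul_def, Real.fourierChar_apply]
    congr 3
    simp
    ring
  have e1 : 𝓕 (fun t => (K t : ℂ)) ξ =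
      ∫ t : ℝ, (Complex.exp (↑(-2 * Real.pi * t * ξ) * Complex.I) - 1) * (K t : ℂ) := by
    rw [Real.fourier_real_eq_integral_exp_smul]
    have e2 : ∫ t : ℝ, (K t : ℂ) = 0 := by
      have := integral_ofReal (𝕜 := ℂ) (μ := volume) (f := K)
      rw [h.integral_zero] at this
      simpa using this
    rw [← sub_zero (∫ v : ℝ, _ • _), ← e2, ← integral_sub hE hKi]
    refine integral_congr_ae (Filter.Eventually.of_forall fun t => ?_)
    simp only [smul_eq_mul]
    ring
  rw [e1]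
  have e3 : ∀ t : ℝ, ‖(Complex.exp (↑(-2 * Real.pi * t * ξ) * Complex.I) - 1) * (K t : ℂ)‖ ≤
      (Icc (-1 : ℝ) 1).indicator (fun _ => 7 * |ξ| * M) t := by
    intro t
    by_cases ht : t ∈ Icc (-1 : ℝ) 1
    · rw [indicator_of_mem ht, norm_mul, Complex.norm_real, Real.norm_eq_abs]
      have h1 : ‖Complex.exp (↑(-2 * Real.pi * t * ξ) * Complex.I) - 1‖ ≤ 7 * |ξ| := by
        have := Real.norm_exp_I_mul_ofReal_sub_one_le (x := -2 * Real.pi * t * ξ)
        rw [mul_comm Complex.I] at this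
        refine this.trans ?_
        rw [Real.norm_eq_abs, abs_mul, abs_mul, abs_mul, abs_neg, abs_two,
          abs_of_pos Real.pi_pos]
        have h2 : |t| ≤ 1 := abs_le.2 ht
        have h3 : Real.pi ≤ 3.5 := by linarith [Real.pi_lt_d2]
        calc 2 * Real.pi * |t| * |ξ| ≤ 2 * 3.5 * 1 * |ξ| := by gcongr
          _ = 7 * |ξ| := by ring
      exact mul_le_mul h1 (h.abs_le_M t) (abs_nonneg _) (by positivity)
    · rw [indicator_of_notMem ht, h.supp, Complex.ofReal_zero, mul_zero, norm_zero]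
      by_contra hc
      rw [not_le] at hc
      exact ht (abs_le.1 hc.le)
  refine (norm_integral_le_integral_norm _).trans ?_
  refine (integral_mono_of_nonneg (Filter.Eventually.of_forall fun t => norm_nonneg _) ?_
    (Filter.Eventually.of_forall e3)).trans (le_of_eq ?_)
  · exact (integrable_indicator_iff measurableSet_Icc).2 (integrableOn_const (by simp))
  · rw [integral_indicator measurableSet_Icc, setIntegral_const]
    simp only [Real.volume_real_Icc, smul_eq_mul]
    norm_num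
    ring

/-- high frequencies -/
theorem HK.fourier_high (h : HK K M) {ξ : ℝ} (hξ : ξ ≠ 0) :
    ‖𝓕 (fun t => (K t : ℂ)) ξ‖ ≤ 2 * M / |ξ| := by
  have hM := h.M_nonneg
  have hξ' : 0 < |ξ| := abs_pos.2 hξ
  have hKi : Integrable fun t => (K t : ℂ) := h.integrable.ofReal
  by_cases hx : |ξ| ≤ 1 / 2
  · -- trivial bound
    have h1 : ‖𝓕 (fun t => (K t : ℂ)) ξ‖ ≤ ∫ t, ‖(K t : ℂ)‖ := by
      rw [Real.fourier_real_eq]
      refine (norm_integral_le_integral_norm _).trans (le_of_eq ?_)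
      refine integral_congr_ae (Filter.Eventually.of_forall fun t => ?_)
      simp only [Circle.norm_smul]
    refine h1.trans ?_
    have e3 : ∀ t : ℝ, ‖(K t : ℂ)‖ ≤ (Icc (-1 : ℝ) 1).indicator (fun _ => M) t := by
      intro t
      rw [Complex.norm_real, Real.norm_eq_abs]
      by_cases ht : t ∈ Icc (-1 : ℝ) 1
      · rw [indicator_of_mem ht]; exact h.abs_le_M t
      · rw [indicator_of_notMem ht, h.supp, abs_zero]
        by_contra hc
        rw [not_le] at hc
        exact ht (abs_le.1 hc.le)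
    refine (integral_mono_of_nonneg (Filter.Eventually.of_forall fun t => norm_nonneg _) ?_
      (Filter.Eventually.of_forall e3)).trans ?_
    · exact (integrable_indicator_iff measurableSet_Icc).2 (integrableOn_const (by simp))
    · rw [integral_indicator measurableSet_Icc, setIntegral_const, le_div_iff₀ hξ']
      simp only [Real.volume_real_Icc, smul_eq_mul]
      norm_num
      nlinarith
  · rw [not_le] at hx
    have h1 : 𝓕 (fun t => (K t : ℂ)) ξ = (1 / (2 : ℂ)) • ∫ v : ℝ, Real.fourierChar (-(v * ξ)) •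
        ((K v : ℂ) - (K (v + 1 / (2 * ξ)) : ℂ)) := by
      have h2 := fourierIntegral_eq_half_sub_half_period_translate (V := ℝ)
        (f := fun t => (K t : ℂ)) hξ hKi
      have h3 : (1 / (2 * ‖ξ‖ ^ 2)) • ξ = 1 / (2 * ξ) := by
        rw [smul_eq_mul, Real.norm_eq_abs, sq_abs]
        field_simp
      simp only [h3] at h2
      rw [Real.fourier_real_eq]
      have h4 : ∀ v : ℝ, inner ℝ v ξ = v * ξ := by
        intro v
        rw [real_inner_eq_re_inner]
        simp [mul_comm]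
      simp only [h4] at h2
      exact h2
    rw [h1, norm_smul]
    set d : ℝ := 1 / (2 * ξ) with hd
    have hd1 : |d| = 1 / (2 * |ξ|) := by
      rw [hd, abs_div, abs_mul, abs_one, abs_two]
    have hd2 : |d| ≤ 1 := by
      rw [hd1, div_le_one (by positivity)]
      linarith
    have e3 : ∀ v : ℝ, ‖Real.fourierChar (-(v * ξ)) • ((K v : ℂ) - (K (v + d) : ℂ))‖ ≤
        (Icc (-2 : ℝ) 2).indicator (fun _ => M * |d|) v := by
      intro v
      rw [Circle.norm_smul, ← Complex.ofReal_sub, Complex.norm_real, Real.norm_eq_abs]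
      by_cases ht : v ∈ Icc (-2 : ℝ) 2
      · rw [indicator_of_mem ht]
        have := h.lip v (v + d)
        rwa [show v - (v + d) = -d by ring, abs_neg] at this
      · have hv : 2 < |v| := by
          by_contra hc
          rw [not_lt] at hc
          exact ht (abs_le.1 hc)
        rw [indicator_of_notMem ht, h.supp v (by linarith), h.supp (v + d), sub_zero, abs_zero]
        have := abs_sub_abs_le_abs_sub v (-d)
        rw [abs_neg, sub_neg_eq_add] at this
        linarith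
    have h5 : ‖∫ v : ℝ, Real.fourierChar (-(v * ξ)) • ((K v : ℂ) - (K (v + d) : ℂ))‖ ≤
        4 * (M * |d|) := by
      refine (norm_integral_le_integral_norm _).trans ?_
      refine (integral_mono_of_nonneg (Filter.Eventually.of_forall fun t => norm_nonneg _) ?_
        (Filter.Eventually.of_forall e3)).trans (le_of_eq ?_)
      · exact (integrable_indicator_iff measurableSet_Icc).2 (integrableOn_const (by simp))
      · rw [integral_indicator measurableSet_Icc, setIntegral_const]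
        simp only [Real.volume_real_Icc, smul_eq_mul]
        norm_num
    have h6 : ‖(1 / (2 : ℂ))‖ = 1 / 2 := by simp
    rw [h6]
    calc (1 / 2 : ℝ) * _ ≤ 1 / 2 * (4 * (M * |d|)) := by gcongr
      _ = M / |ξ| := by rw [hd1]; field_simp; ring
      _ ≤ 2 * M / |ξ| := by gcongr; linarith

/-- dilates -/
theorem fourier_dil (K : ℝ → ℝ) (j : ℕ) (ξ : ℝ) :
    𝓕 (fun t => (((2 : ℝ) ^ j * K (2 ^ j * t) : ℝ) : ℂ)) ξ =
      𝓕 (fun t => (K t : ℂ)) (ξ * ((2 : ℝ) ^ j)⁻¹) := by
  have h2 : (0 : ℝ) < 2 ^ j := by positivity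
  rw [Real.fourier_real_eq, Real.fourier_real_eq]
  have h3 := Measure.integral_comp_mul_left
    (fun v : ℝ => Real.fourierChar (-(v * (ξ * ((2 : ℝ) ^ j)⁻¹))) • (K v : ℂ)) ((2 : ℝ) ^ j)
  rw [abs_of_pos (by positivity)] at h3
  have h4 : ∀ v : ℝ, Real.fourierChar (-(v * ξ)) • (((2 : ℝ) ^ j * K (2 ^ j * v) : ℝ) : ℂ) =
      ((2 : ℝ) ^ j) • (Real.fourierChar (-(2 ^ j * v * (ξ * ((2 : ℝ) ^ j)⁻¹))) •
        (K (2 ^ j * v) : ℂ)) := by
    intro v
    rw [show (2 : ℝ) ^ j * v * (ξ * ((2 : ℝ) ^ j)⁻¹) = v * ξ by field_simp]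
    simp only [Circle.smul_def, smul_eq_mul, Complex.real_smul, Complex.ofReal_mul]
    push_cast
    ring
  simp only [h4]
  rw [integral_smul, h3, smul_smul, mul_inv_cancel₀ h2.ne', one_smul]

theorem fourier_SK_le (h : HK K M) (a b : ℕ) (ξ : ℝ) :
    ‖𝓕 (fun t => (SK K a b t : ℂ)) ξ‖ ≤ 32 * M := by
  have hM := h.M_nonneg
  have hi : ∀ j : ℕ, Integrable fun t : ℝ => (((2 : ℝ) ^ j * K (2 ^ j * t) : ℝ) : ℂ) := by
    intro j
    exact ((h.integrable.comp_mul_left' (by positivity)).const_mul _).ofReal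
  have e1 : 𝓕 (fun t => (SK K a b t : ℂ)) ξ =
      ∑ j ∈ Finset.Ico a b, 𝓕 (fun t => (K t : ℂ)) (ξ * ((2 : ℝ) ^ j)⁻¹) := by
    simp only [← fourier_dil]
    simp only [Real.fourier_real_eq]
    rw [← integral_finset_sum]
    · refine integral_congr_ae (Filter.Eventually.of_forall fun t => ?_)
      simp only [SK, Complex.ofReal_sum, Finset.smul_sum]
    · intro j _
      have := (Real.fourierIntegral_convergent_iff (V := ℝ) (μ := volume)
        (f := fun t => (((2 : ℝ) ^ j * K (2 ^ j * t) : ℝ) : ℂ)) ξ).2 (hi j)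
      refine this.congr (Filter.Eventually.of_forall fun t => ?_)
      simp [mul_comm]
  rw [e1]
  rcases eq_or_ne ξ 0 with rfl | hξ
  · refine (norm_sum_le _ _).trans ?_
    have : ∀ j ∈ Finset.Ico a b, ‖𝓕 (fun t => (K t : ℂ)) (0 * ((2 : ℝ) ^ j)⁻¹)‖ ≤ 0 := by
      intro j _
      refine (h.fourier_low _).trans (le_of_eq ?_)
      simp
    refine (Finset.sum_le_sum this).trans ?_
    simp only [Finset.sum_const_zero]
    positivity
  have hξ' : 0 < |ξ| := abs_pos.2 hξ
  calc ‖∑ j ∈ Finset.Ico a b, 𝓕 (fun t => (K t : ℂ)) (ξ * ((2 : ℝ) ^ j)⁻¹)‖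
      ≤ ∑ j ∈ Finset.Ico a b, ‖𝓕 (fun t => (K t : ℂ)) (ξ * ((2 : ℝ) ^ j)⁻¹)‖ := norm_sum_le _ _
    _ = ∑ j ∈ (Finset.Ico a b).filter (fun j => (2 : ℝ) ^ j < |ξ|),
          ‖𝓕 (fun t => (K t : ℂ)) (ξ * ((2 : ℝ) ^ j)⁻¹)‖ +
        ∑ j ∈ (Finset.Ico a b).filter (fun j => ¬ (2 : ℝ) ^ j < |ξ|),
          ‖𝓕 (fun t => (K t : ℂ)) (ξ * ((2 : ℝ) ^ j)⁻¹)‖ :=
        (Finset.sum_filter_add_sum_filter_not _ _ _).symm
    _ ≤ ∑ j ∈ (Finset.Ico a b).filter (fun j => (2 : ℝ) ^ j < |ξ|), 2 * M / |ξ| * 2 ^ j +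
        ∑ j ∈ (Finset.Ico a b).filter (fun j => ¬ (2 : ℝ) ^ j < |ξ|),
          14 * M * |ξ| * ((2 : ℝ) ^ j)⁻¹ := by
        refine add_le_add (Finset.sum_le_sum fun j _ => ?_) (Finset.sum_le_sum fun j _ => ?_)
        · refine (h.fourier_high (by positivity)).trans (le_of_eq ?_)
          rw [abs_mul, abs_of_pos (by positivity : (0 : ℝ) < ((2 : ℝ) ^ j)⁻¹)]
          field_simp
        · refine (h.fourier_low _).trans (le_of_eq ?_)
          rw [abs_mul, abs_of_pos (by positivity : (0 : ℝ) < ((2 : ℝ) ^ j)⁻¹)]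
          ring
    _ ≤ 2 * M / |ξ| * (2 * |ξ|) + 14 * M * |ξ| * (2 / |ξ|) := by
        rw [← Finset.mul_sum, ← Finset.mul_sum]
        gcongr
        · exact geo2 _ hξ'.le _
        · exact geo2' _ hξ' _
    _ = 32 * M := by field_simp; ring

/-- Plancherel for `L¹ ∩ L²` (copied from `Vale.Agent.P020.H730`). -/
theorem lp_fourier_ae_eq (g : ℝ → ℂ) (h1 : Integrable g) (h2 : MemLp g 2) :
    ∀ᵐ x ∂(volume : Measure ℝ), (𝓕 (h2.toLp g : Lp ℂ 2 (volume : Measure ℝ)) :
      Lp ℂ 2 (volume : Measure ℝ)) x = 𝓕 g x := by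
  have hcont : Continuous (𝓕 g) := by
    have := VectorFourier.fourierIntegral_continuous (𝕜 := ℝ) (V := ℝ) (W := ℝ) (E := ℂ)
      Real.continuous_fourierChar (L := innerₗ ℝ) (μ := volume) (by
        exact continuous_inner) h1
    exact this
  apply ae_eq_of_integral_contDiff_smul_eq
  · exact (Lp.memLp _).locallyIntegrable (by norm_num)
  · exact hcont.locallyIntegrable
  · intro φ φ_smooth φ_cpt
    have hg₁ : HasCompactSupport (Complex.ofRealCLM ∘ φ) := φ_cpt.comp_left rfl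
    have hg₂ : ContDiff ℝ ((⊤ : ℕ∞) : WithTop ℕ∞) (Complex.ofRealCLM ∘ φ) :=
      Complex.ofRealCLM.contDiff.comp φ_smooth
    set ψ : SchwartzMap ℝ ℂ := hg₁.toSchwartzMap hg₂ with hψ
    have key := congrArg (fun T : TemperedDistribution ℝ ℂ => T ψ)
      (MeasureTheory.Lp.fourier_toTemperedDistribution_eq
        (h2.toLp g : Lp ℂ 2 (volume : Measure ℝ)))
    simp only [TemperedDistribution.fourier_apply, Lp.toTemperedDistribution_apply] at key
    have e1 : ∫ x, φ x • (𝓕 (h2.toLp g : Lp ℂ 2 (volume : Measure ℝ)) :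
        Lp ℂ 2 (volume : Measure ℝ)) x =
        ∫ x, ψ x • (𝓕 (h2.toLp g : Lp ℂ 2 (volume : Measure ℝ)) :
        Lp ℂ 2 (volume : Measure ℝ)) x := by
      apply integral_congr_ae
      filter_upwards with x
      simp [hψ]
    rw [e1, ← key]
    have e2 : ∫ x, (𝓕 ψ) x • ((h2.toLp g : Lp ℂ 2 (volume : Measure ℝ)) x) =
        ∫ x, (𝓕 ψ) x • g x := by
      apply integral_congr_ae
      filter_upwards [h2.coeFn_toLp] with x hx
      rw [hx]
    rw [e2]
    have e3 : ∫ x, φ x • 𝓕 g x = ∫ x, ψ x • 𝓕 g x := by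
      apply integral_congr_ae
      filter_upwards with x
      simp only [Complex.real_smul, hψ, HasCompactSupport.toSchwartzMap_toFun,
        Function.comp_apply, Complex.ofRealCLM_apply, smul_eq_mul]
    rw [e3]
    have := VectorFourier.integral_fourierIntegral_smul_eq_flip (𝕜 := ℝ) (V := ℝ) (W := ℝ)
      (F := ℂ) (e := Real.fourierChar) (μ := volume) (ν := volume) (L := innerₗ ℝ)
      (f := fun x => ψ x) (g := g) Real.continuous_fourierChar continuous_inner ψ.integrable h1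
    rw [SchwartzMap.fourier_coe]
    have hflip : (innerₗ ℝ).flip = innerₗ ℝ := by
      ext
      simp only [flip_innerₗ, innerₗ_apply_apply, inner_self_eq_norm_sq_to_K, norm_one,
        Real.ringHom_apply, one_pow]
    rw [hflip] at this
    exact this

theorem lintegral_enorm_sq_fourier (g : ℝ → ℂ) (h1 : Integrable g) (h2 : MemLp g 2) :
    ∫⁻ x, ‖𝓕 g x‖ₑ ^ 2 = ∫⁻ x, ‖g x‖ₑ ^ 2 := by
  have hn : ‖(𝓕 (h2.toLp g : Lp ℂ 2 (volume : Measure ℝ)) : Lp ℂ 2 (volume : Measure ℝ))‖ₑ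
      = ‖(h2.toLp g : Lp ℂ 2 (volume : Measure ℝ))‖ₑ := by
    rw [← ofReal_norm, ← ofReal_norm, Lp.norm_fourier_eq]
  have h3 : eLpNorm (𝓕 g) 2 volume = eLpNorm g 2 volume := by
    rw [Lp.enorm_def, Lp.enorm_def] at hn
    rw [← eLpNorm_congr_ae (lp_fourier_ae_eq g h1 h2), hn]
    exact eLpNorm_congr_ae h2.coeFn_toLp
  have h4 : ∀ f : ℝ → ℂ, eLpNorm f 2 volume ^ 2 = ∫⁻ x, ‖f x‖ₑ ^ 2 := by
    intro f
    rw [eLpNorm_eq_lintegral_rpow_enorm_toReal (by norm_num) (by norm_num)]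
    simp only [ENNReal.toReal_ofNat]
    rw [← ENNReal.rpow_natCast, ← ENNReal.rpow_mul]
    norm_num
  rw [← h4, ← h4, h3]

/-- **`L²` bound from a bounded Fourier transform.** -/
theorem nsq_cv_le_of_fourier {D : ℝ → ℝ} {B : ℝ} (hB : 0 ≤ B) (hD : Measurable D)
    (hDi : Integrable D) (hF : ∀ ξ, ‖𝓕 (fun t => (D t : ℂ)) ξ‖ ≤ B) {g : ℝ → ℝ}
    (hg : Measurable g) (hg1 : Integrable g) (hg2 : MemLp g 2) :
    nsq (cv D g) ≤ ENNReal.ofReal B ^ 2 * nsq g := by
  have hDc : Integrable fun t => (D t : ℂ) := hDi.ofReal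
  have hgc : Integrable fun t => (g t : ℂ) := hg1.ofReal
  have hgc2 : MemLp (fun t => (g t : ℂ)) 2 := hg2.ofReal
  have hn1 : n1 D < ⊤ := hDi.2
  have hcm : Measurable (cv D g) := H158.measurable_cv hD hg
  have hc2 : MemLp (cv D g) 2 volume := H158.memLp_cv hD hg hn1 hg2
  have e0 : ∀ x, ((cv D g x : ℝ) : ℂ) =
      (convolution (fun t => (D t : ℂ)) (fun t => (g t : ℂ)) (ContinuousLinearMap.mul ℂ ℂ)
        volume) x := by
    intro x
    rw [convolution_eq_swap]
    simp only [ContinuousLinearMap.mul_apply']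
    rw [cv, ← integral_complex_ofReal]
    refine integral_congr_ae (Filter.Eventually.of_forall fun t => ?_)
    push_cast
    ring
  have hc1 : Integrable fun x => ((cv D g x : ℝ) : ℂ) := by
    simp only [e0]
    exact hDc.integrable_convolution _ hgc
  have hc2' : MemLp (fun x => ((cv D g x : ℝ) : ℂ)) 2 := hc2.ofReal
  have e1 : ∀ ξ, 𝓕 (fun x => ((cv D g x : ℝ) : ℂ)) ξ =
      𝓕 (fun t => (D t : ℂ)) ξ * 𝓕 (fun t => (g t : ℂ)) ξ := by
    intro ξ
    simp only [e0]
    exact Real.fourier_mul_convolution_eq hDc hgc ξ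
  have e2 : nsq (cv D g) = ∫⁻ x, ‖((cv D g x : ℝ) : ℂ)‖ₑ ^ 2 := by
    unfold H158.nsq
    refine lintegral_congr fun x => ?_
    rw [← ofReal_norm, ← ofReal_norm, Complex.norm_real]
  have e3 : nsq g = ∫⁻ x, ‖(g x : ℂ)‖ₑ ^ 2 := by
    unfold H158.nsq
    refine lintegral_congr fun x => ?_
    rw [← ofReal_norm, ← ofReal_norm, Complex.norm_real]
  rw [e2, e3, ← lintegral_enorm_sq_fourier _ hc1 hc2', ← lintegral_enorm_sq_fourier _ hgc hgc2,
    ← lintegral_const_mul' _ _ (by finiteness)]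
  refine lintegral_mono fun ξ => ?_
  simp only [e1, enorm_mul, mul_pow]
  gcongr
  rw [← ofReal_norm]
  exact ENNReal.ofReal_le_ofReal (hF ξ)

/-- the uniform `L²` bound -/
theorem nsq_SK_le (h : HK K M) (a b : ℕ) {g : ℝ → ℝ}
    (hg : Measurable g) (hg1 : Integrable g) (hg2 : MemLp g 2) :
    nsq (cv (SK K a b) g) ≤ ENNReal.ofReal (32 * M) ^ 2 * nsq g := by
  have hM := h.M_nonneg
  refine nsq_cv_le_of_fourier (by positivity) (continuous_SK h a b).measurable ?_
    (fourier_SK_le h a b) hg hg1 hg2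
  refine (continuous_SK h a b).integrable_of_hasCompactSupport
    (HasCompactSupport.intro (isCompact_Icc (a := -1) (b := 1)) fun x hx => ?_)
  apply SK_supp_one h
  by_contra hc
  rw [not_le] at hc
  exact hx (_root_.abs_le.1 hc.le)

end Vale.Agent.P112.HL
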