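import Vale.Agent.P112.H967.MaxH
import Vale.Agent.P112.H889.Dy

/-!
# P112: Calderón–Zygmund decomposition and the weak type (1,1) bound, uniform in the scales
-/

open MeasureTheory Set Metric Filter
open scoped ENNReal NNReal Topology

namespace Vale.Agent.P112.HL

open Vale.Agent.P112.H158 (cv nsq n1 Kern)
open Vale.Agent.P112.DEC (dix hav cell Lev lev_hav hav_mul integral_hav integrable_hav Bd
  hav_cell hav_of_mem volume_cell tz_mul tzp tz_succ mem_cell dix_eq_iff dix_succ cell_split)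

/-- integrable and bounded -/
structure IB (f : ℝ → ℝ) : Prop where
  meas : Measurable f
  int : Integrable f
  bdd : ∃ R, ∀ x, |f x| ≤ R

theorem BC.IB {f : ℝ → ℝ} (h : BC f) : IB f :=
  ⟨h.1, h.integrable, h.2.imp fun _ hR => hR.1⟩

theorem IB.memLp2 {f : ℝ → ℝ} (h : IB f) : MemLp f 2 volume := by
  obtain ⟨R, hR⟩ := h.bdd
  rw [memLp_two_iff_integrable_sq h.meas.aestronglyMeasurable]
  have := h.int.bdd_mul (c := R) h.meas.aestronglyMeasurable (Eventually.of_forall hR)
  exact this.congr (Eventually.of_forall fun x => by simp only [sq])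

theorem IB.Bd {f : ℝ → ℝ} (h : IB f) : ∃ R, Bd f R := h.bdd.imp fun _ hR => ⟨h.meas, hR⟩

theorem IB.hav {f : ℝ → ℝ} (h : IB f) (k : ℤ) : IB (hav k f) := by
  obtain ⟨R, hR⟩ := h.Bd
  exact ⟨(hR.hav k).meas, integrable_hav h.int k, R, (hR.hav k).bdd⟩

theorem IB.abs {f : ℝ → ℝ} (h : IB f) : IB (fun x => |f x|) :=
  ⟨h.meas.abs, h.int.abs, h.bdd.imp fun _ hR x => by rw [abs_abs]; exact hR x⟩

theorem IB.sub {f g : ℝ → ℝ} (hf : IB f) (hg : IB g) : IB (fun x => f x - g x) := by
  obtain ⟨R, hR⟩ := hf.bdd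
  obtain ⟨S, hS⟩ := hg.bdd
  exact ⟨hf.meas.sub hg.meas, hf.int.sub hg.int, R + S, fun x =>
    (abs_sub _ _).trans (add_le_add (hR x) (hS x))⟩

theorem IB.ind {f : ℝ → ℝ} (h : IB f) {s : Set ℝ} (hs : MeasurableSet s) :
    IB (s.indicator f) := by
  obtain ⟨R, hR⟩ := h.bdd
  refine ⟨h.meas.indicator hs, h.int.indicator hs, R, fun x => ?_⟩
  by_cases hx : x ∈ s
  · rw [indicator_of_mem hx]; exact hR x
  · rw [indicator_of_notMem hx, abs_zero]; exact (abs_nonneg _).trans (hR x)

theorem IB.sum {ι : Type*} {f : ι → ℝ → ℝ} (s : Finset ι) (h : ∀ i ∈ s, IB (f i)) :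
    IB (fun x => ∑ i ∈ s, f i x) := by
  classical
  induction s using Finset.induction_on with
  | empty => simp only [Finset.sum_empty]; exact ⟨measurable_const, integrable_zero _ _ _, 0, by simp⟩
  | insert a s ha ih =>
    have h1 := h a (Finset.mem_insert_self _ _)
    have h2 := ih fun i hi => h i (Finset.mem_insert_of_mem hi)
    simp only [Finset.sum_insert ha]
    obtain ⟨R, hR⟩ := h1.bdd
    obtain ⟨S, hS⟩ := h2.bdd
    exact ⟨h1.meas.add h2.meas, h1.int.add h2.int, R + S, fun x =>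
      (abs_add_le _ _).trans (add_le_add (hR x) (hS x))⟩

theorem abs_hav_le (k : ℤ) (f : ℝ → ℝ) (x : ℝ) : |hav k f x| ≤ hav k (fun y => |f y|) x := by
  rw [hav_cell, hav_cell, abs_mul, abs_of_pos (tzp k)]
  gcongr
  exact DEC.abs_integral_cell_le _ _ _

theorem hav_nonneg {f : ℝ → ℝ} (hf : ∀ x, 0 ≤ f x) (k : ℤ) (x : ℝ) : 0 ≤ hav k f x := by
  rw [hav_cell]
  exact mul_nonneg (tzp k).le (integral_nonneg hf)

theorem hav_le_two {f : ℝ → ℝ} (hf : ∀ x, 0 ≤ f x) (hi : Integrable f) (k : ℤ) (x : ℝ) :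
    hav k f x ≤ 2 * hav (k - 1) f x := by
  rw [hav_cell, hav_cell]
  have h1 : (2 : ℝ) ^ k = 2 * (2 : ℝ) ^ (k - 1) := by
    rw [← zpow_one_add₀ (by norm_num)]; congr 1; ring
  have h2 : cell k (dix k x) ⊆ cell (k - 1) (dix (k - 1) x) := by
    intro y hy
    rw [mem_cell] at hy ⊢
    have := dix_succ (k - 1) y
    rw [sub_add_cancel] at this
    have h3 := dix_succ (k - 1) x
    rw [sub_add_cancel] at h3
    rw [this, h3, hy]
  have h3 : ∫ s in cell k (dix k x), f s ≤ ∫ s in cell (k - 1) (dix (k - 1) x), f s :=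
    setIntegral_mono_set hi.integrableOn (Eventually.of_forall hf) h2.eventuallyLE
  rw [h1, mul_assoc]
  have := tzp (k - 1)
  gcongr

theorem hav_le_int {f : ℝ → ℝ} (hf : ∀ x, 0 ≤ f x) (hi : Integrable f) (k : ℤ) (x : ℝ) :
    hav k f x ≤ 2 ^ k * ∫ y, f y := by
  rw [hav_cell]
  exact mul_le_mul_of_nonneg_left (setIntegral_le_integral hi (Eventually.of_forall hf)) (tzp k).le

theorem hav_eq_of_lev {f : ℝ → ℝ} {k : ℤ} (h : Lev k f) (x : ℝ) : hav k f x = f x := by
  rw [hav_cell, DEC.integral_cell_of_lev h (mem_cell.2 rfl), ← mul_assoc, tz_mul, one_mul]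

/-- `∫ F = ∫ hav k F`, multiplied by a function constant on the cells -/
theorem integral_mul_hav {c F : ℝ → ℝ} {k : ℤ} (hc : Lev k c) (hF : Integrable F)
    {R : ℝ} (hR : ∀ x, |c x| ≤ R) : ∫ y, c y * F y = ∫ y, c y * hav k F y := by
  have h1 : Integrable fun y => c y * F y := by
    exact hF.bdd_mul hc.measurable.aestronglyMeasurable (Eventually.of_forall hR)
  rw [← integral_hav h1 k]
  exact integral_congr_ae (Eventually.of_forall fun y => hav_mul hc F y)

/-- the left endpoint function -/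
theorem lev_dl (k : ℤ) (g : ℝ → ℝ) : Lev k (fun y => g (DEC.dl k y)) := by
  intro y y' h
  simp only [DEC.dl, h]

theorem dl_bounds (k : ℤ) (y : ℝ) : 0 ≤ y - DEC.dl k y ∧ y - DEC.dl k y ≤ (2 : ℝ) ^ (-k) := by
  have h := (dix_eq_iff k y _).1 rfl
  unfold DEC.dl
  constructor
  · linarith [h.1]
  · linarith [h.2]

/-- cancellation -/
theorem cv_sub_hav {D F : ℝ → ℝ} (hD : Continuous D) {L : ℝ} (hL : ∀ x, |D x| ≤ L) (k : ℤ)
    (hF : IB F) (x : ℝ) : cv D (fun y => F y - hav k F y) x =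
      ∫ y, (D (x - y) - D (x - DEC.dl k y)) * (F y - hav k F y) := by
  have h1 := integral_mul_hav (lev_dl k fun u => D (x - u)) hF.int (fun y => hL _)
  have hFi := hF.int
  have hHi := (hF.hav k).int
  have hm1 : AEStronglyMeasurable (fun y => D (x - y)) volume :=
    (hD.comp (by fun_prop)).aestronglyMeasurable
  have hm2 : AEStronglyMeasurable (fun y => D (x - DEC.dl k y)) volume :=
    (lev_dl k fun u => D (x - u)).measurable.aestronglyMeasurable
  have i1 : Integrable fun y => D (x - y) * (F y - hav k F y) :=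
    (hFi.sub hHi).bdd_mul hm1 (Eventually.of_forall fun y => hL _)
  have i2 : Integrable fun y => D (x - DEC.dl k y) * F y :=
    hFi.bdd_mul hm2 (Eventually.of_forall fun y => hL _)
  have i3 : Integrable fun y => D (x - DEC.dl k y) * hav k F y :=
    hHi.bdd_mul hm2 (Eventually.of_forall fun y => hL _)
  have i4 : Integrable fun y => D (x - DEC.dl k y) * (F y - hav k F y) :=
    (hFi.sub hHi).bdd_mul hm2 (Eventually.of_forall fun y => hL _)
  have h2 : ∫ y, D (x - DEC.dl k y) * (F y - hav k F y) = 0 := by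
    simp only [mul_sub]
    rw [integral_sub i2 i3, sub_eq_zero]
    exact h1
  rw [cv]
  simp only [sub_mul]
  rw [integral_sub i1 i4, h2, sub_zero]

variable {K : ℝ → ℝ} {M : ℝ}

theorem po_one {r : ℝ} (hr : 0 < r) (y : ℝ) : ∫⁻ x, ENNReal.ofReal (po r (x - y)) ≤ 16 := by
  have h1 := po_le hr (f := fun _ => 1) measurable_const y
  have h2 : MF (fun _ => 1) y ≤ 1 := by
    refine iSup_le fun c => iSup_le fun s => iSup_le fun hy => ?_
    rw [lintegral_const, one_mul, Measure.restrict_apply_univ, Real.volume_ball]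
    exact ENNReal.div_self_le_one
  have h3 : ∀ x, po r (x - y) = po r (y - x) := by
    intro x
    unfold po
    rw [abs_sub_comm]
  simp only [h3]
  simp only [mul_one] at h1
  calc _ ≤ 16 * MF (fun _ => 1) y := h1
    _ ≤ 16 * 1 := by gcongr
    _ = 16 := mul_one _

/-- far away from `Ω`, the transform of a function with mean zero on the cells is small -/
theorem far_le (h : HK K M) (n : ℕ) (k : ℤ) {F : ℝ → ℝ} (hF : IB F) {x : ℝ}
    (hx : ∀ y, F y - hav k F y ≠ 0 → 2 * (2 : ℝ) ^ (-k) ≤ |x - y|) :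
    ‖cv (SK K 0 n) (fun y => F y - hav k F y) x‖ₑ ≤
      ∫⁻ y, ENNReal.ofReal (16 / 3 * M * po (2 ^ (-k)) (x - y)) * ‖F y - hav k F y‖ₑ := by
  have hM := h.M_nonneg
  rw [cv_sub_hav (continuous_SK h 0 n) (abs_SK_le h 0 n) k hF x]
  refine (enorm_integral_le_lintegral_enorm _).trans (lintegral_mono fun y => ?_)
  rw [enorm_mul]
  by_cases h0 : F y - hav k F y = 0
  · rw [h0]; simp
  · gcongr
    rw [← ofReal_norm, Real.norm_eq_abs]
    apply ENNReal.ofReal_le_ofReal
    have h1 := hx y h0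
    obtain ⟨h2, h3⟩ := dl_bounds k y
    have ht := tzp (-k)
    have hr : 0 < |x - y| / 2 := by linarith
    have h4 : |x - y| / 2 ≤ |x - DEC.dl k y| := by
      have : |x - y| ≤ |x - DEC.dl k y| + (2 : ℝ) ^ (-k) := by
        calc |x - y| = |(x - DEC.dl k y) - (y - DEC.dl k y)| := by congr 1; ring
          _ ≤ |x - DEC.dl k y| + |y - DEC.dl k y| := abs_sub _ _
          _ ≤ _ := by
            gcongr
            rw [abs_of_nonneg h2]; exact h3
      linarith
    have h5 := SK_diff h 0 n hr (s := x - DEC.dl k y) (t := x - y) (Or.inl h4)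
      (Or.inl (by linarith))
    refine h5.trans ?_
    have e1 : |x - y - (x - DEC.dl k y)| ≤ (2 : ℝ) ^ (-k) := by
      rw [show x - y - (x - DEC.dl k y) = -(y - DEC.dl k y) by ring, abs_neg, abs_of_nonneg h2]
      exact h3
    rw [po, max_eq_left (by linarith)]
    calc 4 / 3 * M * |x - y - (x - DEC.dl k y)| / (|x - y| / 2) ^ 2
        ≤ 4 / 3 * M * (2 : ℝ) ^ (-k) / (|x - y| / 2) ^ 2 := by gcongr
      _ = _ := by
        have : |x - y| ≠ 0 := by linarith
        field_simp
        ring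

/-- the stopping sets -/
def Om (φ : ℝ → ℝ) (l : ℝ) (k0 k : ℤ) : Set ℝ :=
  {x | l < hav k φ x ∧ ∀ i, k0 ≤ i → i < k → hav i φ x ≤ l}

theorem Om_lev {φ : ℝ → ℝ} {l : ℝ} {k0 k : ℤ} {x y : ℝ} (h : dix k x = dix k y) :
    x ∈ Om φ l k0 k ↔ y ∈ Om φ l k0 k := by
  have h1 : ∀ i ≤ k, hav i φ x = hav i φ y := fun i hi => (lev_hav i φ).le hi x y h
  unfold Om
  simp only [mem_ofPred_eq, h1 k le_rfl]
  refine and_congr_right fun _ => forall_congr' fun i => imp_congr_right fun _ =>
    ⟨fun h2 h3 => (h1 i h3.le) ▸ h2 h3, fun h2 h3 => (h1 i h3.le).symm ▸ h2 h3⟩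

theorem Om_ind (φ : ℝ → ℝ) (l : ℝ) (k0 k : ℤ) : Lev k ((Om φ l k0 k).indicator fun _ => (1 : ℝ)) := by
  classical
  intro x y h
  simp only [indicator, Om_lev h]

theorem measurableSet_Om (φ : ℝ → ℝ) (l : ℝ) (k0 k : ℤ) : MeasurableSet (Om φ l k0 k) :=
  (measurable_indicator_const_iff (1 : ℝ)).1 (Om_ind φ l k0 k).measurable

theorem Om_disj {φ : ℝ → ℝ} {l : ℝ} {k0 i k : ℤ} (hi : k0 ≤ i) (hik : i < k) {x : ℝ}
    (h1 : x ∈ Om φ l k0 i) : x ∉ Om φ l k0 k := fun h2 => absurd (h2.2 i hi hik) (not_le.2 h1.1)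

/-- averages of a restriction to the stopping set -/
theorem hav_Om (φ f : ℝ → ℝ) (l : ℝ) (k0 k : ℤ) (x : ℝ) :
    hav k ((Om φ l k0 k).indicator f) x = (Om φ l k0 k).indicator (hav k f) x := by
  have h := hav_mul (Om_ind φ l k0 k) f x
  have e1 : (fun s => (Om φ l k0 k).indicator (fun _ => (1 : ℝ)) s * f s) =
      (Om φ l k0 k).indicator f := by
    funext s
    by_cases hs : s ∈ Om φ l k0 k
    · rw [indicator_of_mem hs, indicator_of_mem hs, one_mul]
    · rw [indicator_of_notMem hs, indicator_of_notMem hs, zero_mul]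
  rw [e1] at h
  rw [h]
  by_cases hs : x ∈ Om φ l k0 k
  · rw [indicator_of_mem hs, indicator_of_mem hs, one_mul]
  · rw [indicator_of_notMem hs, indicator_of_notMem hs, zero_mul]

/-- the enlarged set: five translates -/
def Es (s : Set ℝ) (k : ℤ) : Set ℝ :=
  ⋃ i ∈ Finset.Icc (-2 : ℤ) 2, (fun x => x - (i : ℝ) * (2 : ℝ) ^ (-k)) ⁻¹' s

theorem measurableSet_Es {s : Set ℝ} (hs : MeasurableSet s) (k : ℤ) : MeasurableSet (Es s k) :=
  Finset.measurableSet_biUnion _ fun _ _ => (measurable_id.sub_const _) hs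

theorem volume_Es_le {s : Set ℝ} (hs : MeasurableSet s) (k : ℤ) :
    volume (Es s k) ≤ 5 * volume s := by
  unfold Es
  refine (measure_biUnion_finset_le _ _).trans ?_
  have : ∀ i ∈ Finset.Icc (-2 : ℤ) 2,
      volume ((fun x => x - (i : ℝ) * (2 : ℝ) ^ (-k)) ⁻¹' s) = volume s := by
    intro i _
    exact (measurePreserving_sub_right volume _).measure_preimage hs.nullMeasurableSet
  rw [Finset.sum_congr rfl this, Finset.sum_const]
  simp

theorem Es_far {φ : ℝ → ℝ} {l : ℝ} {k0 k : ℤ} {x y : ℝ} (hx : x ∉ Es (Om φ l k0 k) k)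
    (hy : y ∈ Om φ l k0 k) : 2 * (2 : ℝ) ^ (-k) ≤ |x - y| := by
  by_contra hc
  rw [not_le] at hc
  apply hx
  have ht := tzp k
  have h0 : (2 : ℝ) ^ k * |x - y| < 2 := by
    calc (2 : ℝ) ^ k * |x - y| < (2 : ℝ) ^ k * (2 * (2 : ℝ) ^ (-k)) := by gcongr
      _ = 2 * ((2 : ℝ) ^ k * (2 : ℝ) ^ (-k)) := by ring
      _ = 2 := by rw [tz_mul, mul_one]
  rw [← abs_of_pos ht, ← abs_mul, abs_lt] at h0
  obtain ⟨h1, h2⟩ := h0
  have h3 : (dix k x : ℝ) ≤ (2 : ℝ) ^ k * x := Int.floor_le _
  have h4 : (2 : ℝ) ^ k * x < (dix k x : ℝ) + 1 := Int.lt_floor_add_one _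
  have h5 : (dix k y : ℝ) ≤ (2 : ℝ) ^ k * y := Int.floor_le _
  have h6 : (2 : ℝ) ^ k * y < (dix k y : ℝ) + 1 := Int.lt_floor_add_one _
  have h7 : ((dix k x - dix k y : ℤ) : ℝ) < ((3 : ℤ) : ℝ) := by push_cast; nlinarith
  have h8 : ((-3 : ℤ) : ℝ) < ((dix k x - dix k y : ℤ) : ℝ) := by push_cast; nlinarith
  have h7' : dix k x - dix k y < 3 := by exact_mod_cast h7
  have h8' : -3 < dix k x - dix k y := by exact_mod_cast h8
  unfold Es
  simp only [mem_iUnion, mem_preimage]
  refine ⟨dix k x - dix k y, Finset.mem_Icc.2 ⟨by omega, by omega⟩, ?_⟩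
  rw [Om_lev (y := y)]
  · exact hy
  · unfold DEC.dix at *
    rw [mul_sub, mul_comm _ ((2 : ℝ) ^ (-k)), ← mul_assoc, tz_mul, one_mul, Int.floor_sub_intCast]
    ring

/-- mass of the stopping sets -/
theorem Om_mass {φ : ℝ → ℝ} (hφ : ∀ x, 0 ≤ φ x) (hf : IB φ) (l : ℝ) (k0 k : ℤ) :
    ENNReal.ofReal l * volume (Om φ l k0 k) ≤
      ENNReal.ofReal (∫ x, (Om φ l k0 k).indicator φ x) := by
  have hm := measurableSet_Om φ l k0 k
  have e : ∫ x, (Om φ l k0 k).indicator φ x = ∫ x, (Om φ l k0 k).indicator (hav k φ) x := by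
    rw [← integral_hav (hf.ind hm).int k]
    exact integral_congr_ae (Eventually.of_forall fun x => hav_Om φ φ l k0 k x)
  rw [e, ofReal_integral_eq_lintegral_ofReal ((hf.hav k).ind hm).int
    (Eventually.of_forall fun x => indicator_nonneg (fun y _ => hav_nonneg hφ k y) x),
    ← lintegral_indicator_const hm]
  refine lintegral_mono fun x => ?_
  by_cases hx : x ∈ Om φ l k0 k
  · rw [indicator_of_mem hx, indicator_of_mem hx]
    exact ENNReal.ofReal_le_ofReal hx.1.le
  · rw [indicator_of_notMem hx]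
    exact zero_le

/-- disjointness -/
theorem Om_sum {φ : ℝ → ℝ} (hφ : ∀ x, 0 ≤ φ x) (hf : IB φ) (l : ℝ) (k0 J : ℤ) :
    ∑ k ∈ Finset.Ioc k0 J, ∫ x, (Om φ l k0 k).indicator φ x ≤ ∫ x, φ x := by
  rw [← integral_finsetSum _ fun k _ => (hf.ind (measurableSet_Om φ l k0 k)).int]
  refine integral_mono (integrable_finsetSum _ fun k _ =>
    (hf.ind (measurableSet_Om φ l k0 k)).int) hf.int fun x => ?_
  simp only []
  by_cases h : ∃ k ∈ Finset.Ioc k0 J, x ∈ Om φ l k0 k
  · obtain ⟨k, hk, hx⟩ := h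
    rw [Finset.sum_eq_single_of_mem k hk, indicator_of_mem hx]
    intro i hi hik
    apply indicator_of_notMem
    intro hx'
    rw [Finset.mem_Ioc] at hi hk
    rcases lt_or_gt_of_ne hik with h1 | h1
    · exact Om_disj hi.1.le h1 hx' hx
    · exact Om_disj hk.1.le h1 hx hx'
  · rw [Finset.sum_eq_zero]
    · exact hφ x
    · intro k hk
      exact indicator_of_notMem (fun hx => h ⟨k, hk, hx⟩) _

/-- a transform of a sum of integrable functions -/
theorem cv_sub' {D f g : ℝ → ℝ} (hD : Continuous D) {L : ℝ} (hL : ∀ x, |D x| ≤ L) (hf : IB f)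
    (hg : IB g) (x : ℝ) : cv D (fun y => f y - g y) x = cv D f x - cv D g x := by
  have hm1 : AEStronglyMeasurable (fun y => D (x - y)) volume :=
    (hD.comp (by fun_prop)).aestronglyMeasurable
  unfold H158.cv
  simp only [mul_sub]
  exact integral_sub (hf.int.bdd_mul hm1 (Eventually.of_forall fun y => hL _))
    (hg.int.bdd_mul hm1 (Eventually.of_forall fun y => hL _))

theorem cv_sum' {ι : Type*} {D : ℝ → ℝ} {f : ι → ℝ → ℝ} (hD : Continuous D) {L : ℝ}
    (hL : ∀ x, |D x| ≤ L) (s : Finset ι) (hf : ∀ i ∈ s, IB (f i)) (x : ℝ) :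
    cv D (fun y => ∑ i ∈ s, f i y) x = ∑ i ∈ s, cv D (f i) x := by
  have hm1 : AEStronglyMeasurable (fun y => D (x - y)) volume :=
    (hD.comp (by fun_prop)).aestronglyMeasurable
  unfold H158.cv
  simp only [Finset.mul_sum]
  exact integral_finsetSum _ fun i hi =>
    (hf i hi).int.bdd_mul hm1 (Eventually.of_forall fun y => hL _)

/-- the constant of the weak type inequality -/
noncomputable def CW (M : ℝ) : ℝ := 8192 * M ^ 2 + 342 * M + 5

/-- **Weak type (1,1) for step functions.** -/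
theorem weak_lev (h : HK K M) (n : ℕ) {f : ℝ → ℝ} (hf : IB f) {J : ℤ} (hJ : Lev J f) {l : ℝ}
    (hl : 0 < l) : ENNReal.ofReal l * volume {x | ENNReal.ofReal l < ‖cv (SK K 0 n) f x‖ₑ} ≤
      ENNReal.ofReal (CW M) * ∫⁻ x, ‖f x‖ₑ := by
  have hM := h.M_nonneg
  set φ : ℝ → ℝ := fun x => |f x| with hφ
  have hφ0 : ∀ x, 0 ≤ φ x := fun x => abs_nonneg _
  have hφI : IB φ := hf.abs
  set I : ℝ := ∫ x, φ x with hI
  have hI0 : 0 ≤ I := integral_nonneg hφ0
  have hIe : ∫⁻ x, ‖f x‖ₑ = ENNReal.ofReal I := by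
    rw [hI, ofReal_integral_eq_lintegral_ofReal hφI.int (Eventually.of_forall hφ0)]
    refine lintegral_congr fun x => ?_
    rw [← ofReal_norm, Real.norm_eq_abs]
  -- the starting level
  obtain ⟨k0, hk0J, hk0⟩ : ∃ k0 : ℤ, k0 ≤ J ∧ (2 : ℝ) ^ k0 * I ≤ l := by
    obtain ⟨N, hN⟩ := pow_unbounded_of_one_lt (I / l) (by norm_num : (1 : ℝ) < 2)
    refine ⟨min J (-(N : ℤ)), min_le_left _ _, ?_⟩
    calc (2 : ℝ) ^ (min J (-(N : ℤ))) * I ≤ (2 : ℝ) ^ (-(N : ℤ)) * I := by
          gcongr
          · norm_num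
          · exact min_le_right _ _
      _ = I / 2 ^ N := by rw [zpow_neg, zpow_natCast]; field_simp
      _ ≤ l := by
          rw [div_le_iff₀ (by positivity)]
          rw [div_lt_iff₀ hl] at hN
          linarith
  set Ω : ℤ → Set ℝ := fun k => Om φ l k0 k with hΩ
  have hΩm : ∀ k, MeasurableSet (Ω k) := fun k => measurableSet_Om φ l k0 k
  set S := Finset.Ioc k0 J with hS
  set b : ℤ → ℝ → ℝ := fun k y => (Ω k).indicator f y - hav k ((Ω k).indicator f) y with hb
  set β : ℤ → ℝ → ℝ := fun k y => (Ω k).indicator φ y - hav k ((Ω k).indicator φ) y with hβ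
  have hbI : ∀ k, IB (b k) := fun k => (hf.ind (hΩm k)).sub ((hf.ind (hΩm k)).hav k)
  have hβI : ∀ k, IB (β k) := fun k => (hφI.ind (hΩm k)).sub ((hφI.ind (hΩm k)).hav k)
  have hb' : ∀ k y, b k y = (Ω k).indicator (fun y => f y - hav k f y) y := by
    intro k y
    simp only [hb]
    rw [hΩ, hav_Om]
    by_cases hy : y ∈ Om φ l k0 k
    · simp only [indicator_of_mem hy]
    · simp only [indicator_of_notMem hy, sub_zero]
  have hβ' : ∀ k y, β k y = (Ω k).indicator (fun y => φ y - hav k φ y) y := by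
    intro k y
    simp only [hβ]
    rw [hΩ, hav_Om]
    by_cases hy : y ∈ Om φ l k0 k
    · simp only [indicator_of_mem hy]
    · simp only [indicator_of_notMem hy, sub_zero]
  set g : ℝ → ℝ := fun y => f y - ∑ k ∈ S, b k y with hg
  set G : ℝ → ℝ := fun y => φ y - ∑ k ∈ S, β k y with hG
  have hBI : IB (fun y => ∑ k ∈ S, b k y) := IB.sum S fun k _ => hbI k
  have hgI : IB g := hf.sub hBI
  have hGI : IB G := hφI.sub (IB.sum S fun k _ => hβI k)
  -- pointwise bounds
  have hpt : ∀ x, |g x| ≤ G x ∧ G x ≤ 2 * l := by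
    intro x
    by_cases hx : ∃ k ∈ S, x ∈ Ω k
    · obtain ⟨k, hk, hx⟩ := hx
      have hz : ∀ i ∈ S, i ≠ k → x ∉ Ω i := by
        intro i hi hik hx'
        rw [hS, Finset.mem_Ioc] at hi hk
        rcases lt_or_gt_of_ne hik with h1 | h1
        · exact Om_disj hi.1.le h1 hx' hx
        · exact Om_disj hk.1.le h1 hx hx'
      have e1 : g x = hav k f x := by
        simp only [hg]
        rw [Finset.sum_eq_single_of_mem k hk fun i hi hik => by
          rw [hb', indicator_of_notMem (hz i hi hik)], hb', indicator_of_mem hx]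
        ring
      have e2 : G x = hav k φ x := by
        simp only [hG]
        rw [Finset.sum_eq_single_of_mem k hk fun i hi hik => by
          rw [hβ', indicator_of_notMem (hz i hi hik)], hβ', indicator_of_mem hx]
        ring
      rw [e1, e2]
      refine ⟨abs_hav_le k f x, ?_⟩
      rw [hS, Finset.mem_Ioc] at hk
      have h1 := hx.2 (k - 1) (by omega) (by omega)
      have h2 := hav_le_two hφ0 hφI.int k x
      linarith
    · have hz : ∀ i ∈ S, x ∉ Ω i := fun i hi hxi => hx ⟨i, hi, hxi⟩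
      have e1 : g x = f x := by
        simp only [hg]
        rw [Finset.sum_eq_zero fun i hi => by rw [hb', indicator_of_notMem (hz i hi)], sub_zero]
      have e2 : G x = φ x := by
        simp only [hG]
        rw [Finset.sum_eq_zero fun i hi => by rw [hβ', indicator_of_notMem (hz i hi)], sub_zero]
      rw [e1, e2]
      refine ⟨le_rfl, ?_⟩
      -- no stopping up to level J
      have key : ∀ m : ℕ, k0 + m ≤ J → ∀ i, k0 ≤ i → i ≤ k0 + m → hav i φ x ≤ l := by
        intro m
        induction m with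
        | zero =>
          intro _ i h1 h2
          have : i = k0 := by push_cast at h2; omega
          rw [this]
          exact (hav_le_int hφ0 hφI.int k0 x).trans hk0
        | succ m ih =>
          intro hm i h1 h2
          push_cast at hm h2
          rcases le_or_gt i (k0 + m) with h3 | h3
          · exact ih (by omega) i h1 h3
          · have h4 : i = k0 + m + 1 := by omega
            by_contra hc
            rw [not_le] at hc
            refine hz i (Finset.mem_Ioc.2 ⟨by omega, by omega⟩) ⟨hc, fun j hj1 hj2 => ?_⟩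
            exact ih (by omega) j hj1 (by omega)
      obtain ⟨m, hm⟩ := Int.le.dest hk0J
      have h1 := key m hm.le J hk0J hm.ge
      have h2 : Lev J φ := fun y y' hy => by simp only [hφ]; rw [hJ y y' hy]
      rw [hav_eq_of_lev h2] at h1
      linarith
  have hGint : ∫ x, G x = I := by
    simp only [hG]
    rw [integral_sub hφI.int (IB.sum S fun k _ => hβI k).int,
      integral_finsetSum _ fun k _ => (hβI k).int, Finset.sum_eq_zero, sub_zero]
    intro k _
    simp only [hβ]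
    rw [integral_sub (hφI.ind (hΩm k)).int ((hφI.ind (hΩm k)).hav k).int,
      integral_hav (hφI.ind (hΩm k)).int, sub_self]
  have hDc := continuous_SK h 0 n
  have hDb := abs_SK_le h 0 n
  -- the good part
  have hnsq : nsq g ≤ ENNReal.ofReal (2 * l * I) := by
    rw [← hGint, ← integral_const_mul, ofReal_integral_eq_lintegral_ofReal
      (hGI.int.const_mul _) (Eventually.of_forall fun x =>
        mul_nonneg (by positivity) ((abs_nonneg _).trans (hpt x).1))]
    unfold H158.nsq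
    refine lintegral_mono fun x => ?_
    rw [← ofReal_norm, Real.norm_eq_abs, ← ENNReal.ofReal_pow (abs_nonneg _)]
    apply ENNReal.ofReal_le_ofReal
    obtain ⟨h1, h2⟩ := hpt x
    nlinarith [abs_nonneg (g x)]
  have hgood : ENNReal.ofReal l * volume {x | ENNReal.ofReal (l / 2) < ‖cv (SK K 0 n) g x‖ₑ} ≤
      ENNReal.ofReal (8192 * M ^ 2) * ENNReal.ofReal I := by
    have h1 := nsq_SK_le h 0 n hgI.meas hgI.int hgI.memLp2
    have hcm : Measurable fun x => ‖cv (SK K 0 n) g x‖ₑ ^ 2 :=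
      ((H158.measurable_cv hDc.measurable hgI.meas).enorm).pow_const 2
    have h2 := mul_meas_ge_le_lintegral (μ := volume) hcm (ENNReal.ofReal (l / 2) ^ 2)
    have h3 : volume {x | ENNReal.ofReal (l / 2) < ‖cv (SK K 0 n) g x‖ₑ} ≤
        volume {x | ENNReal.ofReal (l / 2) ^ 2 ≤ ‖cv (SK K 0 n) g x‖ₑ ^ 2} := by
      apply measure_mono
      intro x hx
      simp only [mem_ofPred_eq] at hx ⊢
      gcongr
    have h4 : ENNReal.ofReal l = ENNReal.ofReal (4 / l) * ENNReal.ofReal (l / 2) ^ 2 := by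
      rw [← ENNReal.ofReal_pow (by positivity), ← ENNReal.ofReal_mul (by positivity)]
      congr 1
      field_simp
      ring
    calc ENNReal.ofReal l * volume {x | ENNReal.ofReal (l / 2) < ‖cv (SK K 0 n) g x‖ₑ}
        ≤ ENNReal.ofReal l *
            volume {x | ENNReal.ofReal (l / 2) ^ 2 ≤ ‖cv (SK K 0 n) g x‖ₑ ^ 2} := by gcongr
      _ = ENNReal.ofReal (4 / l) * (ENNReal.ofReal (l / 2) ^ 2 *
            volume {x | ENNReal.ofReal (l / 2) ^ 2 ≤ ‖cv (SK K 0 n) g x‖ₑ ^ 2}) := by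
          rw [h4, mul_assoc]
      _ ≤ ENNReal.ofReal (4 / l) * (ENNReal.ofReal (32 * M) ^ 2 * ENNReal.ofReal (2 * l * I)) := by
          refine mul_le_mul_right (h2.trans (h1.trans ?_)) _
          gcongr
      _ = _ := by
          rw [← ENNReal.ofReal_pow (by positivity), ← ENNReal.ofReal_mul (by positivity),
            ← ENNReal.ofReal_mul (by positivity), ← ENNReal.ofReal_mul (by positivity)]
          congr 1
          field_simp
          ring
  -- the exceptional set
  set E : Set ℝ := ⋃ k ∈ S, Es (Ω k) k with hE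
  have hEm : MeasurableSet E := Finset.measurableSet_biUnion _ fun k _ => measurableSet_Es (hΩm k) k
  have hmass : ∑ k ∈ S, ENNReal.ofReal (∫ x, (Ω k).indicator φ x) ≤ ENNReal.ofReal I := by
    rw [← ENNReal.ofReal_sum_of_nonneg fun k _ =>
      integral_nonneg fun x => indicator_nonneg (fun y _ => hφ0 y) x]
    exact ENNReal.ofReal_le_ofReal (Om_sum hφ0 hφI l k0 J)
  have hEv : ENNReal.ofReal l * volume E ≤ ENNReal.ofReal 5 * ENNReal.ofReal I := by
    calc ENNReal.ofReal l * volume E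
        ≤ ENNReal.ofReal l * ∑ k ∈ S, 5 * volume (Ω k) := by
          gcongr
          refine (measure_biUnion_finset_le _ _).trans ?_
          gcongr with k _
          exact volume_Es_le (hΩm k) k
      _ = 5 * ∑ k ∈ S, ENNReal.ofReal l * volume (Ω k) := by
          rw [Finset.mul_sum, Finset.mul_sum]
          refine Finset.sum_congr rfl fun k _ => ?_
          ring
      _ ≤ 5 * ∑ k ∈ S, ENNReal.ofReal (∫ x, (Ω k).indicator φ x) := by
          gcongr with k _
          exact Om_mass hφ0 hφI l k0 k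
      _ ≤ ENNReal.ofReal 5 * ENNReal.ofReal I := by
          rw [show ENNReal.ofReal 5 = 5 by norm_num]
          gcongr
  -- the bad part
  have hb1 : ∀ k, ∫⁻ y, ‖b k y‖ₑ ≤ 2 * ENNReal.ofReal (∫ x, (Ω k).indicator φ x) := by
    intro k
    have i1 := (hφI.ind (hΩm k)).int
    have i2 := ((hφI.ind (hΩm k)).hav k).int
    calc ∫⁻ y, ‖b k y‖ₑ ≤
        ∫⁻ y, ENNReal.ofReal ((Ω k).indicator φ y + hav k ((Ω k).indicator φ) y) := by
          refine lintegral_mono fun y => ?_
          rw [← ofReal_norm, Real.norm_eq_abs]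
          apply ENNReal.ofReal_le_ofReal
          refine (abs_sub _ _).trans (add_le_add ?_ ?_)
          · by_cases hy : y ∈ Ω k
            · rw [indicator_of_mem hy, indicator_of_mem hy]
            · rw [indicator_of_notMem hy, indicator_of_notMem hy, abs_zero]
          · refine (abs_hav_le _ _ _).trans (le_of_eq ?_)
            congr 1
            funext z
            by_cases hz : z ∈ Ω k
            · rw [indicator_of_mem hz, indicator_of_mem hz]
            · rw [indicator_of_notMem hz, indicator_of_notMem hz, abs_zero]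
      _ = ENNReal.ofReal (∫ y, ((Ω k).indicator φ y + hav k ((Ω k).indicator φ) y)) := by
          refine (ofReal_integral_eq_lintegral_ofReal (i1.add i2)
            (Eventually.of_forall fun y => ?_)).symm
          exact add_nonneg (indicator_nonneg (fun y _ => hφ0 y) y)
            (hav_nonneg (fun z => indicator_nonneg (fun y _ => hφ0 y) z) k y)
      _ = 2 * ENNReal.ofReal (∫ x, (Ω k).indicator φ x) := by
          rw [integral_add i1 i2, integral_hav i1, ← two_mul, ENNReal.ofReal_mul (by norm_num)]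
          norm_num
  have hb2 : ∀ k ∈ S, ∫⁻ x in Eᶜ, ‖cv (SK K 0 n) (b k) x‖ₑ ≤
      ENNReal.ofReal (16 / 3 * M) * 16 * ∫⁻ y, ‖b k y‖ₑ := by
    intro k hk
    calc ∫⁻ x in Eᶜ, ‖cv (SK K 0 n) (b k) x‖ₑ
        ≤ ∫⁻ x in Eᶜ, ∫⁻ y, ENNReal.ofReal (16 / 3 * M * po (2 ^ (-k)) (x - y)) * ‖b k y‖ₑ := by
          refine setLIntegral_mono' hEm.compl fun x hx => ?_
          refine far_le h n k (hf.ind (hΩm k)) fun y hy => ?_
          have hy' : y ∈ Ω k := by
            by_contra hc
            have := hb' k y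
            rw [indicator_of_notMem hc] at this
            exact hy this
          refine Es_far (fun hxE => hx ?_) hy'
          exact mem_iUnion₂.2 ⟨k, hk, hxE⟩
      _ ≤ ∫⁻ x, ∫⁻ y, ENNReal.ofReal (16 / 3 * M * po (2 ^ (-k)) (x - y)) * ‖b k y‖ₑ :=
          setLIntegral_le_lintegral _ _
      _ = ∫⁻ y, ∫⁻ x, ENNReal.ofReal (16 / 3 * M * po (2 ^ (-k)) (x - y)) * ‖b k y‖ₑ := by
          refine lintegral_lintegral_swap ?_
          refine Measurable.aemeasurable ?_
          have := (hbI k).meas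
          unfold po
          fun_prop
      _ = ∫⁻ y, ENNReal.ofReal (16 / 3 * M) * (∫⁻ x, ENNReal.ofReal (po (2 ^ (-k)) (x - y))) *
            ‖b k y‖ₑ := by
          refine lintegral_congr fun y => ?_
          rw [lintegral_mul_const' _ _ enorm_ne_top, ← lintegral_const_mul' _ _ ENNReal.ofReal_ne_top]
          congr 1
          refine lintegral_congr fun x => ?_
          rw [ENNReal.ofReal_mul (by positivity)]
      _ ≤ ∫⁻ y, ENNReal.ofReal (16 / 3 * M) * 16 * ‖b k y‖ₑ := by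
          refine lintegral_mono fun y => ?_
          gcongr
          exact po_one (tzp _) y
      _ = _ := lintegral_const_mul' _ _ (ENNReal.mul_ne_top ENNReal.ofReal_ne_top (by norm_num))
  have hbad : ENNReal.ofReal l * volume ({x | ENNReal.ofReal (l / 2) <
      ‖cv (SK K 0 n) (fun y => ∑ k ∈ S, b k y) x‖ₑ} ∩ Eᶜ) ≤
      ENNReal.ofReal (342 * M) * ENNReal.ofReal I := by
    have hcm : Measurable fun x => ‖cv (SK K 0 n) (fun y => ∑ k ∈ S, b k y) x‖ₑ :=
      (H158.measurable_cv hDc.measurable hBI.meas).enorm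
    have h1 : ∫⁻ x in Eᶜ, ‖cv (SK K 0 n) (fun y => ∑ k ∈ S, b k y) x‖ₑ ≤
        ENNReal.ofReal (512 / 3 * M) * ENNReal.ofReal I := by
      calc ∫⁻ x in Eᶜ, ‖cv (SK K 0 n) (fun y => ∑ k ∈ S, b k y) x‖ₑ
          ≤ ∫⁻ x in Eᶜ, ∑ k ∈ S, ‖cv (SK K 0 n) (b k) x‖ₑ := by
            refine lintegral_mono fun x => ?_
            simp only []
            rw [cv_sum' hDc hDb S (fun k _ => hbI k)]
            exact enorm_sum_le _ _
        _ = ∑ k ∈ S, ∫⁻ x in Eᶜ, ‖cv (SK K 0 n) (b k) x‖ₑ :=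
            lintegral_finsetSum _ fun k _ =>
              (H158.measurable_cv hDc.measurable (hbI k).meas).enorm
        _ ≤ ∑ k ∈ S, ENNReal.ofReal (16 / 3 * M) * 16 *
              (2 * ENNReal.ofReal (∫ x, (Ω k).indicator φ x)) := by
            refine Finset.sum_le_sum fun k hk => (hb2 k hk).trans ?_
            gcongr
            exact hb1 k
        _ = ENNReal.ofReal (512 / 3 * M) *
              ∑ k ∈ S, ENNReal.ofReal (∫ x, (Ω k).indicator φ x) := by
            rw [Finset.mul_sum]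
            refine Finset.sum_congr rfl fun k _ => ?_
            have : ENNReal.ofReal (512 / 3 * M) = ENNReal.ofReal (16 / 3 * M) * 32 := by
              rw [show (32 : ℝ≥0∞) = ENNReal.ofReal 32 by norm_num,
                ← ENNReal.ofReal_mul (by positivity)]
              congr 1
              ring
            rw [this]
            ring
        _ ≤ _ := by gcongr
    have h2 := mul_meas_ge_le_lintegral (μ := volume.restrict Eᶜ) hcm (ENNReal.ofReal (l / 2))
    have h3 : volume ({x | ENNReal.ofReal (l / 2) <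
        ‖cv (SK K 0 n) (fun y => ∑ k ∈ S, b k y) x‖ₑ} ∩ Eᶜ) ≤
        (volume.restrict Eᶜ) {x | ENNReal.ofReal (l / 2) ≤
          ‖cv (SK K 0 n) (fun y => ∑ k ∈ S, b k y) x‖ₑ} := by
      rw [Measure.restrict_apply (measurableSet_le measurable_const hcm)]
      apply measure_mono
      intro x hx
      exact ⟨le_of_lt (show ENNReal.ofReal (l / 2) < _ from hx.1), hx.2⟩
    have h4 : ENNReal.ofReal l = 2 * ENNReal.ofReal (l / 2) := by
      rw [show (2 : ℝ≥0∞) = ENNReal.ofReal 2 by norm_num, ← ENNReal.ofReal_mul (by positivity)]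
      congr 1
      ring
    calc _ ≤ ENNReal.ofReal l * (volume.restrict Eᶜ) {x | ENNReal.ofReal (l / 2) ≤
          ‖cv (SK K 0 n) (fun y => ∑ k ∈ S, b k y) x‖ₑ} := by gcongr
      _ = 2 * (ENNReal.ofReal (l / 2) * (volume.restrict Eᶜ) {x | ENNReal.ofReal (l / 2) ≤
          ‖cv (SK K 0 n) (fun y => ∑ k ∈ S, b k y) x‖ₑ}) := by rw [h4, mul_assoc]
      _ ≤ 2 * (ENNReal.ofReal (512 / 3 * M) * ENNReal.ofReal I) :=
          mul_le_mul_right (h2.trans h1) _
      _ = ENNReal.ofReal (1024 / 3 * M) * ENNReal.ofReal I := by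
          rw [← mul_assoc, show (2 : ℝ≥0∞) = ENNReal.ofReal 2 by norm_num,
            ← ENNReal.ofReal_mul (by positivity)]
          congr 2
          ring
      _ ≤ _ := by
          gcongr
          norm_num
  -- conclusion
  have hsub : {x | ENNReal.ofReal l < ‖cv (SK K 0 n) f x‖ₑ} ⊆
      {x | ENNReal.ofReal (l / 2) < ‖cv (SK K 0 n) g x‖ₑ} ∪ (E ∪
      ({x | ENNReal.ofReal (l / 2) < ‖cv (SK K 0 n) (fun y => ∑ k ∈ S, b k y) x‖ₑ} ∩ Eᶜ)) := by
    intro x hx
    simp only [mem_ofPred_eq] at hx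
    by_contra hc
    simp only [mem_union, mem_inter_iff, mem_ofPred_eq, mem_compl_iff, not_or, not_and, not_lt]
      at hc
    obtain ⟨h1, h2, h3⟩ := hc
    have h3 : ‖cv (SK K 0 n) (fun y => ∑ k ∈ S, b k y) x‖ₑ ≤ ENNReal.ofReal (l / 2) := by
      by_contra h4
      exact h3 (not_le.1 h4) h2
    have e : cv (SK K 0 n) f x = cv (SK K 0 n) g x +
        cv (SK K 0 n) (fun y => ∑ k ∈ S, b k y) x := by
      have := cv_sub' hDc hDb hf hBI x
      simp only [hg]
      rw [this]
      ring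
    rw [e] at hx
    have h5 := (enorm_add_le (cv (SK K 0 n) g x)
      (cv (SK K 0 n) (fun y => ∑ k ∈ S, b k y) x)).trans (add_le_add h1 h3)
    rw [← ENNReal.ofReal_add (by positivity) (by positivity), add_halves] at h5
    exact absurd hx (not_lt.2 h5)
  calc ENNReal.ofReal l * volume {x | ENNReal.ofReal l < ‖cv (SK K 0 n) f x‖ₑ}
      ≤ ENNReal.ofReal l * (volume {x | ENNReal.ofReal (l / 2) < ‖cv (SK K 0 n) g x‖ₑ} +
        (volume E + volume ({x | ENNReal.ofReal (l / 2) <
          ‖cv (SK K 0 n) (fun y => ∑ k ∈ S, b k y) x‖ₑ} ∩ Eᶜ))) := by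
        refine mul_le_mul_right ((measure_mono hsub).trans ?_) _
        exact (measure_union_le _ _).trans (by gcongr; exact measure_union_le _ _)
    _ ≤ ENNReal.ofReal (8192 * M ^ 2) * ENNReal.ofReal I + (ENNReal.ofReal 5 * ENNReal.ofReal I +
        ENNReal.ofReal (342 * M) * ENNReal.ofReal I) := by
        rw [mul_add, mul_add]
        exact add_le_add hgood (add_le_add hEv hbad)
    _ = ENNReal.ofReal (CW M) * ∫⁻ x, ‖f x‖ₑ := by
        rw [hIe, ← ENNReal.ofReal_mul (by positivity), ← ENNReal.ofReal_mul (by positivity),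
          ← ENNReal.ofReal_mul (by positivity), ← ENNReal.ofReal_add (by positivity)
            (by positivity), ← ENNReal.ofReal_add (by positivity) (by positivity),
          ← ENNReal.ofReal_mul (by unfold CW; positivity)]
        congr 1
        unfold CW
        ring

/-- Lipschitz bound for the sum of the dilates -/
theorem SK_lip (h : HK K M) (n : ℕ) (s t : ℝ) :
    |SK K 0 n t - SK K 0 n s| ≤ 4 / 3 * M * |t - s| / ((2 ^ n)⁻¹) ^ 2 :=
  SK_diff h 0 n (by positivity) (Or.inr le_rfl) (Or.inr le_rfl)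

/-- **Weak type (1,1), uniform in the number of scales.** -/
theorem weak_SK (h : HK K M) (n : ℕ) {f : ℝ → ℝ} (hf : IB f) {l : ℝ} (hl : 0 < l) :
    ENNReal.ofReal l * volume {x | ENNReal.ofReal l < ‖cv (SK K 0 n) f x‖ₑ} ≤
      ENNReal.ofReal (2 * CW M) * ∫⁻ x, ‖f x‖ₑ := by
  have hM := h.M_nonneg
  have hCW : 0 ≤ CW M := by unfold CW; positivity
  have hDc := continuous_SK h 0 n
  have hDb := abs_SK_le h 0 n
  set I : ℝ := ∫ x, |f x| with hI
  have hI0 : 0 ≤ I := integral_nonneg fun _ => abs_nonneg _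
  set L : ℝ := 4 / 3 * M / ((2 ^ n)⁻¹) ^ 2 with hL
  have hL0 : 0 ≤ L := by positivity
  have hn1 : ∀ k, ∫⁻ x, ‖hav k f x‖ₑ ≤ ∫⁻ x, ‖f x‖ₑ := by
    intro k
    calc ∫⁻ x, ‖hav k f x‖ₑ ≤ ∫⁻ x, ENNReal.ofReal (hav k (fun y => |f y|) x) := by
          refine lintegral_mono fun x => ?_
          rw [← ofReal_norm, Real.norm_eq_abs]
          exact ENNReal.ofReal_le_ofReal (abs_hav_le k f x)
      _ = ENNReal.ofReal (∫ x, hav k (fun y => |f y|) x) :=
          (ofReal_integral_eq_lintegral_ofReal (hf.abs.hav k).int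
            (Eventually.of_forall fun x => hav_nonneg (fun _ => abs_nonneg _) k x)).symm
      _ = ENNReal.ofReal (∫ x, |f x|) := by rw [integral_hav hf.abs.int]
      _ = ∫⁻ x, ‖f x‖ₑ := by
          rw [ofReal_integral_eq_lintegral_ofReal hf.abs.int
            (Eventually.of_forall fun x => abs_nonneg _)]
          refine lintegral_congr fun x => ?_
          rw [← ofReal_norm, Real.norm_eq_abs]
  -- uniform approximation
  obtain ⟨J, hJ⟩ : ∃ J : ℕ, L * (2 : ℝ) ^ (-(J : ℤ)) * (2 * I) ≤ l / 2 := by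
    obtain ⟨N, hN⟩ := pow_unbounded_of_one_lt (L * (2 * I) / (l / 2)) (by norm_num : (1 : ℝ) < 2)
    refine ⟨N, ?_⟩
    rw [div_lt_iff₀ (by positivity)] at hN
    rw [zpow_neg, zpow_natCast]
    calc L * ((2 : ℝ) ^ N)⁻¹ * (2 * I) = (L * (2 * I)) * ((2 : ℝ) ^ N)⁻¹ := by ring
      _ ≤ (2 ^ N * (l / 2)) * ((2 : ℝ) ^ N)⁻¹ := by gcongr
      _ = l / 2 := by field_simp
  have happ : ∀ x, |cv (SK K 0 n) f x - cv (SK K 0 n) (hav J f) x| ≤ l / 2 := by
    intro x
    rw [← cv_sub' hDc hDb hf (hf.hav J), cv_sub_hav hDc hDb J hf x]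
    have i1 := hf.abs.int
    have i2 := (hf.abs.hav J).int
    calc |∫ y, (SK K 0 n (x - y) - SK K 0 n (x - DEC.dl J y)) * (f y - hav J f y)|
        ≤ ∫ y, L * (2 : ℝ) ^ (-(J : ℤ)) * (|f y| + hav J (fun y => |f y|) y) := by
          rw [← Real.norm_eq_abs]
          refine norm_integral_le_of_norm_le ((i1.add i2).const_mul _)
            (Eventually.of_forall fun y => ?_)
          rw [norm_mul, Real.norm_eq_abs, Real.norm_eq_abs]
          obtain ⟨h2, h3⟩ := dl_bounds J y
          refine mul_le_mul ?_ ?_ (abs_nonneg _) (by positivity)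
          · refine (SK_lip h n _ _).trans ?_
            rw [show x - y - (x - DEC.dl J y) = -(y - DEC.dl J y) by ring, abs_neg,
              abs_of_nonneg h2, hL]
            calc 4 / 3 * M * (y - DEC.dl J y) / ((2 ^ n)⁻¹) ^ 2
                ≤ 4 / 3 * M * (2 : ℝ) ^ (-(J : ℤ)) / ((2 ^ n)⁻¹) ^ 2 := by gcongr
              _ = _ := by ring
          · exact (abs_sub _ _).trans (add_le_add le_rfl (abs_hav_le _ _ _))
      _ = L * (2 : ℝ) ^ (-(J : ℤ)) * (2 * I) := by
          rw [integral_const_mul, integral_add i1 i2, integral_hav i1, ← hI]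
          ring
      _ ≤ l / 2 := hJ
  have hsub : {x | ENNReal.ofReal l < ‖cv (SK K 0 n) f x‖ₑ} ⊆
      {x | ENNReal.ofReal (l / 2) < ‖cv (SK K 0 n) (hav J f) x‖ₑ} := by
    intro x hx
    simp only [mem_ofPred_eq] at hx ⊢
    rw [← ofReal_norm, ENNReal.ofReal_lt_ofReal_iff_of_nonneg hl.le, Real.norm_eq_abs] at hx
    rw [← ofReal_norm, ENNReal.ofReal_lt_ofReal_iff_of_nonneg (by positivity), Real.norm_eq_abs]
    have h1 := happ x
    have h2 := abs_sub_abs_le_abs_sub (cv (SK K 0 n) f x) (cv (SK K 0 n) (hav J f) x)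
    linarith
  have hmain := weak_lev h n (hf.hav J) (lev_hav J f) (l := l / 2) (by positivity)
  have h4 : ENNReal.ofReal l = 2 * ENNReal.ofReal (l / 2) := by
    rw [show (2 : ℝ≥0∞) = ENNReal.ofReal 2 by norm_num, ← ENNReal.ofReal_mul (by positivity)]
    congr 1
    ring
  calc ENNReal.ofReal l * volume {x | ENNReal.ofReal l < ‖cv (SK K 0 n) f x‖ₑ}
      ≤ ENNReal.ofReal l * volume {x | ENNReal.ofReal (l / 2) <
          ‖cv (SK K 0 n) (hav J f) x‖ₑ} := by gcongr
    _ = 2 * (ENNReal.ofReal (l / 2) * volume {x | ENNReal.ofReal (l / 2) <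
          ‖cv (SK K 0 n) (hav J f) x‖ₑ}) := by rw [h4, mul_assoc]
    _ ≤ 2 * (ENNReal.ofReal (CW M) * ∫⁻ x, ‖f x‖ₑ) := by
        refine mul_le_mul_right (hmain.trans ?_) _
        gcongr ENNReal.ofReal (CW M) * ?_
        exact hn1 J
    _ = _ := by
        rw [← mul_assoc, show (2 : ℝ≥0∞) = ENNReal.ofReal 2 by norm_num,
          ← ENNReal.ofReal_mul (by positivity)]

end Vale.Agent.P112.HL
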