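import Vale.Agent.P112.H967.MaxH

/-!
# P112: maximal truncated singular integrals along the lines of slope `s`
-/

open MeasureTheory Set Metric Filter
open scoped ENNReal NNReal Topology

namespace Vale.Agent.P112.HL

open Vale.Agent.P112.H158 (cv nsq n1 Kern)

/-- the directional truncated transform `∫ S_{a,b}(t) F(x - t, y - t s) dt` -/
noncomputable def TS (K : ℝ → ℝ) (s : ℝ) (a b : ℕ) (F : ℝ × ℝ → ℝ) (z : ℝ × ℝ) : ℝ :=
  ∫ t, SK K a b t * F (z.1 - t, z.2 - t * s)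

/-- the maximal directional truncated transform -/
noncomputable def MKS (K : ℝ → ℝ) (s : ℝ) (F : ℝ × ℝ → ℝ) (z : ℝ × ℝ) : ℝ≥0∞ :=
  ⨆ (a : ℕ) (b : ℕ), ‖TS K s a b F z‖ₑ

theorem TS_eq (K : ℝ → ℝ) (s : ℝ) (a b : ℕ) (F : ℝ × ℝ → ℝ) (z : ℝ × ℝ) :
    TS K s a b F z = cv (SK K a b) (fun t => F (t, z.2 + s * (t - z.1))) z.1 := by
  rw [TS, cv]
  have h := integral_sub_left_eq_self (μ := volume)
    (fun t => SK K a b t * F (z.1 - t, z.2 - t * s)) z.1
  rw [← h]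
  refine integral_congr_ae (Eventually.of_forall fun t => ?_)
  simp only []
  congr 2
  ext
  · simp
  · simp only []
    ring

theorem MKS_eq (K : ℝ → ℝ) (s : ℝ) (F : ℝ × ℝ → ℝ) (z : ℝ × ℝ) :
    MKS K s F z = MK K (fun t => F (t, z.2 + s * (t - z.1))) z.1 := by
  simp only [MKS, MK, TS_eq]

theorem le_MKS (K : ℝ → ℝ) (s : ℝ) (a b : ℕ) (F : ℝ × ℝ → ℝ) (z : ℝ × ℝ) :
    ‖TS K s a b F z‖ₑ ≤ MKS K s F z := le_iSup_of_le a (le_iSup_of_le b le_rfl)

variable {K : ℝ → ℝ} {M : ℝ}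

theorem measurable_TS (h : HK K M) (s : ℝ) (a b : ℕ) {F : ℝ × ℝ → ℝ} (hF : Measurable F) :
    Measurable (TS K s a b F) := by
  have h1 : StronglyMeasurable fun p : (ℝ × ℝ) × ℝ =>
      SK K a b p.2 * F (p.1.1 - p.2, p.1.2 - p.2 * s) := by
    apply Measurable.stronglyMeasurable
    exact ((continuous_SK h a b).measurable.comp measurable_snd).mul (hF.comp (by fun_prop))
  exact (h1.integral_prod_right' (ν := volume)).measurable

theorem measurable_MKS (h : HK K M) (s : ℝ) {F : ℝ × ℝ → ℝ} (hF : Measurable F) :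
    Measurable (MKS K s F) :=
  Measurable.iSup fun a => Measurable.iSup fun b => (measurable_TS h s a b hF).enorm

/-- transference of one-dimensional bounds to directional ones -/
theorem MKS_Lp_of (h : HK K M) {p : ℝ} {C : ℝ≥0∞} (hC : C ≠ ∞)
    (h1 : ∀ f : ℝ → ℝ, Measurable f → ∫⁻ x, MK K f x ^ p ≤ C * ∫⁻ x, ‖f x‖ₑ ^ p)
    (s : ℝ) {F : ℝ × ℝ → ℝ} (hF : Measurable F) :
    ∫⁻ z, MKS K s F z ^ p ≤ C * ∫⁻ z, ‖F z‖ₑ ^ p := by
  have hm1 : Measurable fun z => MKS K s F z ^ p := (measurable_MKS h s hF).pow_const p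
  have hm2 : Measurable fun z => ‖F z‖ₑ ^ p := hF.enorm.pow_const p
  rw [lintegral_shear s hm1, lintegral_shear s hm2, ← lintegral_const_mul' _ _ hC]
  refine lintegral_mono fun c => ?_
  have h2 : ∀ x : ℝ, MKS K s F (x, c + s * x) = MK K (fun t => F (t, c + s * t)) x := by
    intro x
    rw [MKS_eq]
    congr 1
    funext t
    congr 2
    ring
  simp only [h2]
  exact h1 _ (hF.comp (by fun_prop))

/-- **`L²` bound, uniform in the slope.** -/
theorem MKS_L2 (h : HK K M) (s : ℝ) {F : ℝ × ℝ → ℝ} (hF : Measurable F) :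
    ∫⁻ z, MKS K s F z ^ 2 ≤ CH2 M * ∫⁻ z, ‖F z‖ₑ ^ 2 := by
  have := MKS_Lp_of h (p := 2) (CH2_ne_top M) (fun f hf => by
    simpa only [ENNReal.rpow_two] using MK_L2 h hf) s hF
  simpa only [ENNReal.rpow_two] using this

end Vale.Agent.P112.HL
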