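import Vale.Agent.P112.H967.CZ
import Vale.Agent.P112.H967.MaxDir

/-!
# P112: `L^p` bounds for the sums of dilates and the maximal operator, all `1 < p < ∞`
-/

open MeasureTheory Set Metric Filter
open scoped ENNReal NNReal Topology

namespace Vale.Agent.P112.HL

open Vale.Agent.P112.H158 (cv nsq n1 Kern)

/-- `∫_a^∞ t^(p-3) dt · a^2 ≤ a^p / (2-p)` -/
theorem tail_pow {a : ℝ≥0∞} (ha : a ≠ ∞) {p : ℝ} (hp1 : 0 < p) (hp : p < 2) :
    a ^ 2 * ∫⁻ t in Ioi (0 : ℝ), (if a ≤ ENNReal.ofReal t then ENNReal.ofReal (t ^ (p - 3)) else 0)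
      = ENNReal.ofReal (1 / (2 - p)) * a ^ p := by
  obtain ⟨b, hb, rfl⟩ : ∃ b : ℝ, 0 ≤ b ∧ a = ENNReal.ofReal b :=
    ⟨a.toReal, ENNReal.toReal_nonneg, (ENNReal.ofReal_toReal ha).symm⟩
  rcases hb.eq_or_lt with rfl | hb
  · simp [hp1]
  have e1 : ∫⁻ t in Ioi (0 : ℝ), (if ENNReal.ofReal b ≤ ENNReal.ofReal t then
      ENNReal.ofReal (t ^ (p - 3)) else 0) = ∫⁻ t in Ioi b, ENNReal.ofReal (t ^ (p - 3)) := by
    rw [← lintegral_indicator measurableSet_Ioi, ← lintegral_indicator measurableSet_Ioi]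
    refine lintegral_congr_ae ?_
    have : ∀ᵐ t : ℝ, t ≠ b := by
      have := (measure_singleton (μ := volume) b)
      exact compl_mem_ae_iff.2 this
    filter_upwards [this] with t ht
    by_cases h1 : b < t
    · rw [indicator_of_mem (by exact hb.trans h1), indicator_of_mem (by exact h1), if_pos]
      exact ENNReal.ofReal_le_ofReal h1.le
    · have h2 : t < b := lt_of_le_of_ne (not_lt.1 h1) ht
      rw [indicator_of_notMem (s := Ioi b) (by exact h1)]
      by_cases h3 : 0 < t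
      · rw [indicator_of_mem (by exact h3), if_neg]
        rw [not_le]
        exact (ENNReal.ofReal_lt_ofReal_iff hb).2 h2
      · rw [indicator_of_notMem (by exact h3)]
  have hint : IntegrableOn (fun t : ℝ => t ^ (p - 3)) (Ioi b) :=
    integrableOn_Ioi_rpow_of_lt (by linarith) hb
  rw [e1, ← ofReal_integral_eq_lintegral_ofReal hint, integral_Ioi_rpow_of_lt (by linarith) hb,
    ENNReal.ofReal_rpow_of_pos hb, ← ENNReal.ofReal_pow hb.le,
    ← ENNReal.ofReal_mul (by positivity), ← ENNReal.ofReal_mul (by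
      have : 0 < 2 - p := by linarith
      positivity)]
  · congr 1
    have h2 : p - 3 + 1 ≠ 0 := by linarith
    have h3 : 2 - p ≠ 0 := by linarith
    have h4 : b ^ p = b ^ (p - 3 + 1) * b ^ 2 := by
      rw [← Real.rpow_natCast, ← Real.rpow_add hb]
      congr 1
      push_cast
      ring
    rw [h4]
    field_simp
    ring
  · refine (ae_restrict_iff' measurableSet_Ioi).2 (Eventually.of_forall fun t ht => ?_)
    exact Real.rpow_nonneg (hb.le.trans (le_of_lt ht)) _

variable {K : ℝ → ℝ} {M : ℝ}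

theorem SK_cv_BC (h : HK K M) (a b : ℕ) {f : ℝ → ℝ} (hf : BC f) : BC (cv (SK K a b) f) := by
  obtain ⟨R, hR1, hR2⟩ := hf.2
  have hM := h.M_nonneg
  have hR0 : 0 ≤ R := (abs_nonneg _).trans (hR1 0)
  have hI := hf.integrable
  refine ⟨H158.measurable_cv (continuous_SK h a b).measurable hf.1,
    max (M * 2 ^ b * ∫ y, |f y|) (R + 1), fun x => ?_, fun x hx => ?_⟩
  · refine le_max_of_le_left ?_
    unfold H158.cv
    rw [← integral_const_mul, ← Real.norm_eq_abs]
    refine norm_integral_le_of_norm_le (hI.abs.const_mul _) (Eventually.of_forall fun y => ?_)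
    rw [norm_mul, Real.norm_eq_abs, Real.norm_eq_abs]
    gcongr
    exact abs_SK_le h a b _
  · have h1 : R + 1 ≤ |x| := (le_max_right _ _).trans hx
    unfold H158.cv
    refine integral_eq_zero_of_ae (Eventually.of_forall fun y => ?_)
    by_cases hy : R ≤ |y|
    · simp [hR2 y hy]
    · rw [not_le] at hy
      have h2 : 1 ≤ |x - y| := by
        have := abs_sub_abs_le_abs_sub x y
        linarith
      simp [SK_supp_one h h2]

/-- the constant of the `L^p` bound, `1 < p < 2` -/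
noncomputable def CP (M p : ℝ) : ℝ≥0∞ :=
  ENNReal.ofReal (4 * CW M * p / (p - 1)) + ENNReal.ofReal (4096 * M ^ 2 * p / (2 - p))

/-- **Marcinkiewicz interpolation** between weak (1,1) and `L²` -/
theorem SK_Lp_lt_two (h : HK K M) {p : ℝ} (hp1 : 1 < p) (hp2 : p < 2) (n : ℕ) {f : ℝ → ℝ}
    (hf : BC f) : ∫⁻ x, ‖cv (SK K 0 n) f x‖ₑ ^ p ≤ CP M p * ∫⁻ x, ‖f x‖ₑ ^ p := by
  have hM := h.M_nonneg
  have hCW : 0 ≤ CW M := by unfold CW; positivity
  have hp0 : 0 < p := by linarith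
  have hDc := continuous_SK h 0 n
  have hDb := abs_SK_le h 0 n
  have hfm := hf.1
  have hTm : Measurable fun x => ‖cv (SK K 0 n) f x‖ₑ :=
    (H158.measurable_cv hDc.measurable hfm).enorm
  -- distributional estimate
  have key : ∀ t ∈ Ioi (0 : ℝ), ENNReal.ofReal (p * t ^ (p - 1)) *
      volume {x | ENNReal.ofReal t < ‖cv (SK K 0 n) f x‖ₑ} ≤
      ENNReal.ofReal (4 * CW M * p * t ^ (p - 2)) *
        (∫⁻ y, (if ENNReal.ofReal t < ‖f y‖ₑ then ‖f y‖ₑ else 0)) +
      ENNReal.ofReal (4096 * M ^ 2 * p * t ^ (p - 3)) *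
        ∫⁻ y, (if ‖f y‖ₑ ≤ ENNReal.ofReal t then ‖f y‖ₑ ^ 2 else 0) := by
    intro t ht
    have ht : 0 < t := ht
    set s : Set ℝ := {y | t < |f y|} with hs
    have hsm : MeasurableSet s := measurableSet_lt measurable_const hfm.abs
    set f1 : ℝ → ℝ := s.indicator f with hf1
    set f2 : ℝ → ℝ := sᶜ.indicator f with hf2
    have hf1I : IB f1 := hf.IB.ind hsm
    have hf2I : IB f2 := hf.IB.ind hsm.compl
    have hsplit : ∀ y, f1 y = f y - f2 y := by
      intro y
      by_cases hy : y ∈ s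
      · rw [hf1, hf2, indicator_of_mem hy, indicator_of_notMem (by simpa using hy), sub_zero]
      · rw [hf1, hf2, indicator_of_notMem hy, indicator_of_mem (by simpa using hy), sub_self]
    have hiff : ∀ y, ENNReal.ofReal t < ‖f y‖ₑ ↔ y ∈ s := by
      intro y
      rw [← ofReal_norm, ENNReal.ofReal_lt_ofReal_iff_of_nonneg ht.le, Real.norm_eq_abs]
      rfl
    have e1 : ∫⁻ y, ‖f1 y‖ₑ = ∫⁻ y, (if ENNReal.ofReal t < ‖f y‖ₑ then ‖f y‖ₑ else 0) := by
      refine lintegral_congr fun y => ?_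
      by_cases hy : y ∈ s
      · rw [if_pos ((hiff y).2 hy), hf1, indicator_of_mem hy]
      · rw [if_neg (fun h => hy ((hiff y).1 h)), hf1, indicator_of_notMem hy, enorm_zero]
    have e2 : nsq f2 = ∫⁻ y, (if ‖f y‖ₑ ≤ ENNReal.ofReal t then ‖f y‖ₑ ^ 2 else 0) := by
      unfold H158.nsq
      refine lintegral_congr fun y => ?_
      by_cases hy : y ∈ s
      · rw [if_neg (not_le.2 ((hiff y).2 hy)), hf2, indicator_of_notMem (by simpa using hy)]
        simp
      · rw [if_pos (not_lt.1 (fun h => hy ((hiff y).1 h))), hf2,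
          indicator_of_mem (by simpa using hy)]
    have hsub : {x | ENNReal.ofReal t < ‖cv (SK K 0 n) f x‖ₑ} ⊆
        {x | ENNReal.ofReal (t / 2) < ‖cv (SK K 0 n) f1 x‖ₑ} ∪
        {x | ENNReal.ofReal (t / 2) < ‖cv (SK K 0 n) f2 x‖ₑ} := by
      intro x hx
      by_contra hc
      simp only [mem_union, mem_ofPred_eq, not_or, not_lt] at hx hc
      have e : cv (SK K 0 n) f x = cv (SK K 0 n) f1 x + cv (SK K 0 n) f2 x := by
        have h1 := cv_sub' hDc hDb hf.IB hf2I x
        have h2 : (fun y => f y - f2 y) = f1 := funext fun y => (hsplit y).symm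
        rw [h2] at h1
        rw [h1]
        ring
      rw [e] at hx
      have h5 := (enorm_add_le (cv (SK K 0 n) f1 x) (cv (SK K 0 n) f2 x)).trans
        (add_le_add hc.1 hc.2)
      rw [← ENNReal.ofReal_add (by positivity) (by positivity), add_halves] at h5
      exact absurd hx (not_lt.2 h5)
    have w1 := weak_SK h n hf1I (l := t / 2) (by positivity)
    have w2 : ENNReal.ofReal (t / 2) ^ 2 *
        volume {x | ENNReal.ofReal (t / 2) < ‖cv (SK K 0 n) f2 x‖ₑ} ≤
        ENNReal.ofReal (32 * M) ^ 2 * nsq f2 := by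
      have h1 := nsq_SK_le h 0 n hf2I.meas hf2I.int hf2I.memLp2
      have hcm : Measurable fun x => ‖cv (SK K 0 n) f2 x‖ₑ ^ 2 :=
        ((H158.measurable_cv hDc.measurable hf2I.meas).enorm).pow_const 2
      refine le_trans ?_ ((mul_meas_ge_le_lintegral (μ := volume) hcm
        (ENNReal.ofReal (t / 2) ^ 2)).trans h1)
      refine mul_le_mul_right (measure_mono fun x hx => ?_) _
      simp only [mem_ofPred_eq] at hx ⊢
      gcongr
    have c1 : ENNReal.ofReal (p * t ^ (p - 1)) =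
        ENNReal.ofReal (2 * p * t ^ (p - 2)) * ENNReal.ofReal (t / 2) := by
      rw [← ENNReal.ofReal_mul (by positivity)]
      congr 1
      rw [show p - 1 = (p - 2) + 1 by ring, Real.rpow_add ht, Real.rpow_one]
      ring
    have c2 : ENNReal.ofReal (p * t ^ (p - 1)) =
        ENNReal.ofReal (4 * p * t ^ (p - 3)) * ENNReal.ofReal (t / 2) ^ 2 := by
      rw [← ENNReal.ofReal_pow (by positivity), ← ENNReal.ofReal_mul (by positivity)]
      congr 1
      rw [show p - 1 = (p - 3) + 2 by ring, Real.rpow_add ht, Real.rpow_two]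
      ring
    calc ENNReal.ofReal (p * t ^ (p - 1)) *
          volume {x | ENNReal.ofReal t < ‖cv (SK K 0 n) f x‖ₑ}
        ≤ ENNReal.ofReal (p * t ^ (p - 1)) *
            volume {x | ENNReal.ofReal (t / 2) < ‖cv (SK K 0 n) f1 x‖ₑ} +
          ENNReal.ofReal (p * t ^ (p - 1)) *
            volume {x | ENNReal.ofReal (t / 2) < ‖cv (SK K 0 n) f2 x‖ₑ} := by
          rw [← mul_add]
          exact mul_le_mul_right ((measure_mono hsub).trans (measure_union_le _ _)) _
      _ ≤ ENNReal.ofReal (2 * p * t ^ (p - 2)) *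
            (ENNReal.ofReal (2 * CW M) * ∫⁻ x, ‖f1 x‖ₑ) +
          ENNReal.ofReal (4 * p * t ^ (p - 3)) * (ENNReal.ofReal (32 * M) ^ 2 * nsq f2) := by
          refine add_le_add ?_ ?_
          · rw [c1, mul_assoc]
            exact mul_le_mul_right w1 _
          · rw [c2, mul_assoc]
            exact mul_le_mul_right w2 _
      _ = _ := by
          rw [← mul_assoc, ← mul_assoc, e1, e2, ← ENNReal.ofReal_pow (by positivity),
            ← ENNReal.ofReal_mul (by positivity), ← ENNReal.ofReal_mul (by positivity)]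
          congr 3
          · ring
          · ring
  -- measurability
  have m1 : Measurable fun q : ℝ × ℝ => (if ENNReal.ofReal q.1 < ‖f q.2‖ₑ then ‖f q.2‖ₑ else 0) := by
    refine Measurable.ite ?_ (by fun_prop) measurable_const
    exact measurableSet_lt (by fun_prop) (by fun_prop)
  have m2 : Measurable fun q : ℝ × ℝ =>
      (if ‖f q.2‖ₑ ≤ ENNReal.ofReal q.1 then ‖f q.2‖ₑ ^ 2 else 0) := by
    refine Measurable.ite ?_ (by fun_prop) measurable_const
    exact measurableSet_le (by fun_prop) (by fun_prop)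
  have p1 : 0 < p - 1 := by linarith
  have p2 : 0 < 2 - p := by linarith
  rw [layer volume hTm hp0]
  calc ∫⁻ t in Ioi (0 : ℝ), ENNReal.ofReal (p * t ^ (p - 1)) *
        volume {x | ENNReal.ofReal t < ‖cv (SK K 0 n) f x‖ₑ}
      ≤ ∫⁻ t in Ioi (0 : ℝ), (ENNReal.ofReal (4 * CW M * p * t ^ (p - 2)) *
        (∫⁻ y, (if ENNReal.ofReal t < ‖f y‖ₑ then ‖f y‖ₑ else 0)) +
        ENNReal.ofReal (4096 * M ^ 2 * p * t ^ (p - 3)) *
        ∫⁻ y, (if ‖f y‖ₑ ≤ ENNReal.ofReal t then ‖f y‖ₑ ^ 2 else 0)) :=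
        setLIntegral_mono' measurableSet_Ioi key
    _ = (∫⁻ t in Ioi (0 : ℝ), ∫⁻ y, ENNReal.ofReal (4 * CW M * p * t ^ (p - 2)) *
          (if ENNReal.ofReal t < ‖f y‖ₑ then ‖f y‖ₑ else 0)) +
        ∫⁻ t in Ioi (0 : ℝ), ∫⁻ y, ENNReal.ofReal (4096 * M ^ 2 * p * t ^ (p - 3)) *
          (if ‖f y‖ₑ ≤ ENNReal.ofReal t then ‖f y‖ₑ ^ 2 else 0) := by
        rw [← lintegral_add_left]
        · refine lintegral_congr fun t => ?_
          rw [lintegral_const_mul' _ _ ENNReal.ofReal_ne_top,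
            lintegral_const_mul' _ _ ENNReal.ofReal_ne_top]
        · refine Measurable.lintegral_prod_right' (f := fun q : ℝ × ℝ =>
            ENNReal.ofReal (4 * CW M * p * q.1 ^ (p - 2)) *
            (if ENNReal.ofReal q.1 < ‖f q.2‖ₑ then ‖f q.2‖ₑ else 0)) ?_
          exact Measurable.mul (by fun_prop) m1
    _ = (∫⁻ y, ∫⁻ t in Ioi (0 : ℝ), ENNReal.ofReal (4 * CW M * p * t ^ (p - 2)) *
          (if ENNReal.ofReal t < ‖f y‖ₑ then ‖f y‖ₑ else 0)) +
        ∫⁻ y, ∫⁻ t in Ioi (0 : ℝ), ENNReal.ofReal (4096 * M ^ 2 * p * t ^ (p - 3)) *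
          (if ‖f y‖ₑ ≤ ENNReal.ofReal t then ‖f y‖ₑ ^ 2 else 0) := by
        congr 1
        · exact lintegral_lintegral_swap (Measurable.mul (by fun_prop) m1).aemeasurable
        · exact lintegral_lintegral_swap (Measurable.mul (by fun_prop) m2).aemeasurable
    _ = (∫⁻ y, ENNReal.ofReal (4 * CW M * p / (p - 1)) * ‖f y‖ₑ ^ p) +
        ∫⁻ y, ENNReal.ofReal (4096 * M ^ 2 * p / (2 - p)) * ‖f y‖ₑ ^ p := by
        congr 1
        · refine lintegral_congr fun y => ?_
          have h7 : ∀ t : ℝ, ENNReal.ofReal (4 * CW M * p * t ^ (p - 2)) *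
              (if ENNReal.ofReal t < ‖f y‖ₑ then ‖f y‖ₑ else 0) =
              (ENNReal.ofReal (4 * CW M * p / (p - 1)) * ‖f y‖ₑ) *
              (if ENNReal.ofReal t < ‖f y‖ₑ then
                ENNReal.ofReal ((p - 1) * t ^ (p - 1 - 1)) else 0) := by
            intro t
            split_ifs with h
            · have h10 : ENNReal.ofReal (4 * CW M * p * t ^ (p - 2)) =
                  ENNReal.ofReal (4 * CW M * p / (p - 1)) *
                  ENNReal.ofReal ((p - 1) * t ^ (p - 1 - 1)) := by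
                rw [← ENNReal.ofReal_mul (by positivity)]
                congr 1
                rw [show p - 1 - 1 = p - 2 by ring]
                field_simp
              rw [h10]
              ring
            · simp
          rw [lintegral_congr h7, lintegral_const_mul'' _ ?_, lin_pow _ p1]
          · have h9 : ‖f y‖ₑ * ‖f y‖ₑ ^ (p - 1) = ‖f y‖ₑ ^ p := by
              nth_rewrite 1 [← ENNReal.rpow_one ‖f y‖ₑ]
              rw [← ENNReal.rpow_add_of_nonneg _ _ zero_le_one p1.le]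
              congr 1
              ring
            rw [mul_assoc, h9]
          · refine Measurable.aemeasurable ?_
            refine Measurable.ite ?_ (by fun_prop) measurable_const
            exact measurableSet_lt (by fun_prop) (by fun_prop)
        · refine lintegral_congr fun y => ?_
          have h7 : ∀ t : ℝ, ENNReal.ofReal (4096 * M ^ 2 * p * t ^ (p - 3)) *
              (if ‖f y‖ₑ ≤ ENNReal.ofReal t then ‖f y‖ₑ ^ 2 else 0) =
              ENNReal.ofReal (4096 * M ^ 2 * p) * (‖f y‖ₑ ^ 2 *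
              (if ‖f y‖ₑ ≤ ENNReal.ofReal t then ENNReal.ofReal (t ^ (p - 3)) else 0)) := by
            intro t
            split_ifs with h
            · rw [ENNReal.ofReal_mul (by positivity)]
              ring
            · simp
          rw [lintegral_congr h7, lintegral_const_mul' _ _ ENNReal.ofReal_ne_top,
            lintegral_const_mul' _ _ (ENNReal.pow_ne_top enorm_ne_top),
            tail_pow enorm_ne_top hp0 hp2, ← mul_assoc, ← ENNReal.ofReal_mul (by positivity)]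
          congr 2
          ring
    _ = _ := by
        rw [lintegral_const_mul' _ _ ENNReal.ofReal_ne_top,
          lintegral_const_mul' _ _ ENNReal.ofReal_ne_top, ← add_mul]
        rfl

theorem CP_ne_top (M p : ℝ) : CP M p ≠ ∞ :=
  ENNReal.add_ne_top.2 ⟨ENNReal.ofReal_ne_top, ENNReal.ofReal_ne_top⟩

/-- antisymmetry -/
theorem integral_mul_SK (h : HK K M) (n : ℕ) {f g : ℝ → ℝ} (hf : BC f) (hg : BC g) :
    ∫ x, g x * cv (SK K 0 n) f x = - ∫ x, f x * cv (SK K 0 n) g x := by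
  have h1 := H158.integral_mul_cv (continuous_SK h 0 n).measurable hg.1 hf.1
    (SK_integrable h 0 n).2 (hg.memLp 2) (hf.memLp 2)
  rw [h1, ← integral_neg]
  refine integral_congr_ae (Eventually.of_forall fun x => ?_)
  simp only []
  rw [← mul_neg]
  congr 1
  unfold H158.cv H158.rf
  rw [← integral_neg]
  refine integral_congr_ae (Eventually.of_forall fun y => ?_)
  simp only [SK_neg h]
  ring

/-- the constant of the `L^p` bound, `2 < p` -/
noncomputable def CQ (M p : ℝ) : ℝ≥0∞ := CP M (p / (p - 1)) ^ (p - 1)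

/-- duality -/
theorem SK_Lp_gt_two (h : HK K M) {p : ℝ} (hp : 2 < p) (n : ℕ) {f : ℝ → ℝ}
    (hf : BC f) : ∫⁻ x, ‖cv (SK K 0 n) f x‖ₑ ^ p ≤ CQ M p * ∫⁻ x, ‖f x‖ₑ ^ p := by
  have hp0 : 0 < p := by linarith
  have hp1 : 0 < p - 1 := by linarith
  set q : ℝ := p / (p - 1) with hq
  have hpq : p.HolderConjugate q := Real.HolderConjugate.conjExponent (by linarith)
  have hq1 : 1 < q := hpq.symm.lt
  have hq2 : q < 2 := by
    rw [hq, div_lt_iff₀ hp1]; linarith
  set u : ℝ → ℝ := cv (SK K 0 n) f with hu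
  have huB : BC u := SK_cv_BC h 0 n hf
  set g : ℝ → ℝ := fun x => if 0 ≤ u x then |u x| ^ (p - 1) else -|u x| ^ (p - 1) with hg
  have hga : ∀ x, |g x| = |u x| ^ (p - 1) := by
    intro x
    simp only [hg]
    split_ifs
    · exact abs_of_nonneg (Real.rpow_nonneg (abs_nonneg _) _)
    · rw [abs_neg]
      exact abs_of_nonneg (Real.rpow_nonneg (abs_nonneg _) _)
  have hgB : BC g := by
    obtain ⟨hm, R, h1, h2⟩ := huB
    refine ⟨?_, max (R ^ (p - 1)) R, fun x => ?_, fun x hx => ?_⟩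
    · exact Measurable.ite (measurableSet_le measurable_const hm) (hm.abs.pow_const _)
        (hm.abs.pow_const _).neg
    · refine le_max_of_le_left ?_
      rw [hga]
      exact Real.rpow_le_rpow (abs_nonneg _) (h1 x) hp1.le
    · simp only [hg]
      rw [h2 x ((le_max_right _ _).trans hx), abs_zero, Real.zero_rpow hp1.ne']
      simp
  have hgu : ∀ x, g x * u x = |u x| ^ p := by
    intro x
    rcases eq_or_ne (u x) 0 with h4 | h4
    · rw [h4, mul_zero, abs_zero, Real.zero_rpow hp0.ne']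
    · have h5 : 0 < |u x| := abs_pos.2 h4
      have h6 : |u x| ^ p = |u x| ^ (p - 1) * |u x| := by
        nth_rewrite 3 [← Real.rpow_one |u x|]
        rw [← Real.rpow_add h5]
        congr 1
        ring
      rw [h6]
      simp only [hg]
      split_ifs with h7
      · rw [abs_of_nonneg h7]
      · rw [abs_of_neg (not_le.1 h7)]
        ring
  have hgq : ∀ x, ‖g x‖ₑ ^ q = ‖u x‖ₑ ^ p := by
    intro x
    have h1 : ‖g x‖ₑ = ‖u x‖ₑ ^ (p - 1) := by
      rw [← ofReal_norm, ← ofReal_norm, Real.norm_eq_abs, Real.norm_eq_abs, hga,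
        ENNReal.ofReal_rpow_of_nonneg (abs_nonneg _) hp1.le]
    rw [h1, ← ENNReal.rpow_mul]
    congr 1
    rw [hq]
    field_simp
  have hup : ∀ x, ‖u x‖ₑ ^ p = ENNReal.ofReal (|u x| ^ p) := by
    intro x
    rw [← ofReal_norm, Real.norm_eq_abs, ENNReal.ofReal_rpow_of_nonneg (abs_nonneg _) hp0.le]
  have hui : Integrable fun x => |u x| ^ p := by
    have h1 : Integrable fun x => g x * u x := (hgB.memLp 2).integrable_mul (huB.memLp 2)
    exact h1.congr (Eventually.of_forall hgu)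
  set A : ℝ≥0∞ := ∫⁻ x, ‖u x‖ₑ ^ p with hA
  have hA1 : A = ENNReal.ofReal (∫ x, |u x| ^ p) := by
    rw [ofReal_integral_eq_lintegral_ofReal hui (Eventually.of_forall fun x =>
      Real.rpow_nonneg (abs_nonneg _) _)]
    exact lintegral_congr hup
  have hAtop : A ≠ ∞ := by rw [hA1]; exact ENNReal.ofReal_ne_top
  have hfg : A ≤ ∫⁻ x, ‖f x‖ₑ * ‖cv (SK K 0 n) g x‖ₑ := by
    have h1 : ∫ x, |u x| ^ p = - ∫ x, f x * cv (SK K 0 n) g x := by
      rw [← integral_mul_SK h n hf hgB]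
      exact integral_congr_ae (Eventually.of_forall fun x => (hgu x).symm)
    rw [hA1]
    calc ENNReal.ofReal (∫ x, |u x| ^ p) ≤ ENNReal.ofReal |∫ x, f x * cv (SK K 0 n) g x| := by
          apply ENNReal.ofReal_le_ofReal
          rw [h1]
          exact neg_le_abs _
      _ = ‖∫ x, f x * cv (SK K 0 n) g x‖ₑ := by rw [← ofReal_norm, Real.norm_eq_abs]
      _ ≤ ∫⁻ x, ‖f x * cv (SK K 0 n) g x‖ₑ := enorm_integral_le_lintegral_enorm _
      _ = _ := lintegral_congr fun x => enorm_mul _ _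
  have hfm := hf.1
  have hgm := hgB.1
  have hTm : Measurable fun x => ‖cv (SK K 0 n) g x‖ₑ :=
    (H158.measurable_cv (continuous_SK h 0 n).measurable hgm).enorm
  have hH := ENNReal.lintegral_mul_le_Lp_mul_Lq volume hpq (f := fun x => ‖f x‖ₑ)
    (g := fun x => ‖cv (SK K 0 n) g x‖ₑ) hfm.enorm.aemeasurable hTm.aemeasurable
  simp only [Pi.mul_apply] at hH
  have hTg := SK_Lp_lt_two h hq1 hq2 n hgB
  simp only [hgq] at hTg
  -- A ≤ F^(1/p) (C A)^(1/q)
  set F : ℝ≥0∞ := ∫⁻ x, ‖f x‖ₑ ^ p with hF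
  have h1 : A ≤ F ^ (1 / p) * (CP M q * A) ^ (1 / q) :=
    hfg.trans (hH.trans (by gcongr))
  rcases eq_or_ne A 0 with h0 | h0
  · rw [h0]; exact zero_le
  have hq0 : 0 < q := by linarith
  have e2 : A ^ (1 / p) * A ^ (1 / q) = A := by
    rw [← ENNReal.rpow_add _ _ h0 hAtop, one_div, one_div, hpq.inv_add_inv_eq_one,
      ENNReal.rpow_one]
  rw [ENNReal.mul_rpow_of_nonneg _ _ (one_div_nonneg.2 hq0.le), ← mul_assoc] at h1
  have h2 : A ^ (1 / p) * A ^ (1 / q) ≤ F ^ (1 / p) * CP M q ^ (1 / q) * A ^ (1 / q) := by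
    rwa [e2]
  have hAq : A ^ (1 / q) ≠ 0 := by
    rw [Ne, ENNReal.rpow_eq_zero_iff]
    rintro (h3 | h3)
    · exact h0 h3.1
    · exact hAtop h3.1
  have hAq' : A ^ (1 / q) ≠ ∞ := ENNReal.rpow_ne_top_of_nonneg (one_div_nonneg.2 hq0.le) hAtop
  have h3 : A ^ (1 / p) ≤ F ^ (1 / p) * CP M q ^ (1 / q) :=
    (ENNReal.mul_le_mul_iff_left hAq hAq').1 h2
  have h4 := ENNReal.rpow_le_rpow h3 hp0.le
  rw [ENNReal.mul_rpow_of_nonneg _ _ hp0.le, ← ENNReal.rpow_mul, ← ENNReal.rpow_mul,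
    ← ENNReal.rpow_mul, one_div_mul_cancel hp0.ne', ENNReal.rpow_one, ENNReal.rpow_one,
    mul_comm] at h4
  have e3 : 1 / q * p = p - 1 := by
    rw [hq]
    field_simp
  rw [e3] at h4
  exact h4

/-- uniform `L^p` bounds for the sums of dilates, all `1 < p < ∞` -/
theorem SK_Lp (M : ℝ) {p : ℝ} (hp : 1 < p) : ∃ B : ℝ≥0∞, B ≠ ∞ ∧ ∀ K : ℝ → ℝ, HK K M →
    ∀ n g, BC g → ∫⁻ x, ‖cv (SK K 0 n) g x‖ₑ ^ p ≤ B * ∫⁻ x, ‖g x‖ₑ ^ p := by
  rcases lt_trichotomy p 2 with h2 | h2 | h2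
  · exact ⟨CP M p, CP_ne_top M p, fun K h n g hg => SK_Lp_lt_two h hp h2 n hg⟩
  · refine ⟨ENNReal.ofReal (32 * M) ^ 2, ENNReal.pow_ne_top ENNReal.ofReal_ne_top,
      fun K h n g hg => ?_⟩
    subst h2
    have := nsq_SK_le h 0 n hg.1 hg.integrable (hg.memLp 2)
    simpa only [ENNReal.rpow_two, H158.nsq] using this
  · exact ⟨CQ M p, ENNReal.rpow_ne_top_of_nonneg (by linarith) (CP_ne_top _ _),
      fun K h n g hg => SK_Lp_gt_two h h2 n hg⟩

/-- **Maximal truncated singular integrals are bounded on `L^p(ℝ)`**, `1 < p < ∞`, with a constant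
which only depends on `p` and the Lipschitz constant. -/
theorem MK_Lp (M : ℝ) {p : ℝ} (hp : 1 < p) : ∃ C : ℝ≥0∞, C ≠ ∞ ∧ ∀ K : ℝ → ℝ, HK K M →
    ∀ f : ℝ → ℝ, Measurable f → ∫⁻ x, MK K f x ^ p ≤ C * ∫⁻ x, ‖f x‖ₑ ^ p := by
  obtain ⟨B, hB, h1⟩ := SK_Lp M hp
  refine ⟨2 ^ (p - 1) * (4 ^ p * (CM p * B) + ENNReal.ofReal (544 * M + 1) ^ p * CM p), ?_,
    fun K h f hf => MK_Lp_of h hp (h1 K h) hf⟩
  have hp0 : 0 ≤ p := by linarith
  have h1 := CM_ne_top p
  have h2 : (2 : ℝ≥0∞) ^ (p - 1) ≠ ∞ :=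
    ENNReal.rpow_ne_top_of_nonneg (by linarith) (by norm_num)
  have h3 : (4 : ℝ≥0∞) ^ p ≠ ∞ := ENNReal.rpow_ne_top_of_nonneg hp0 (by norm_num)
  have h4 : ENNReal.ofReal (544 * M + 1) ^ p ≠ ∞ :=
    ENNReal.rpow_ne_top_of_nonneg hp0 ENNReal.ofReal_ne_top
  exact ENNReal.mul_ne_top h2 (ENNReal.add_ne_top.2
    ⟨ENNReal.mul_ne_top h3 (ENNReal.mul_ne_top h1 hB), ENNReal.mul_ne_top h4 h1⟩)

/-- **The directional maximal truncated singular integrals are bounded on `L^p(ℝ²)`**, with a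
constant uniform in the kernel and the slope. -/
theorem MKS_Lp (M : ℝ) {p : ℝ} (hp : 1 < p) : ∃ C : ℝ≥0∞, C ≠ ∞ ∧ ∀ K : ℝ → ℝ, HK K M →
    ∀ (s : ℝ) (F : ℝ × ℝ → ℝ), Measurable F →
      ∫⁻ z, MKS K s F z ^ p ≤ C * ∫⁻ z, ‖F z‖ₑ ^ p := by
  obtain ⟨C, hC, h1⟩ := MK_Lp M hp
  exact ⟨C, hC, fun K h s F hF => MKS_Lp_of h hC (h1 K h) s hF⟩

end Vale.Agent.P112.HL
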