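import Vale.Agent.P112.H967.CZ2
import Vale.Agent.P112.H724.Line

/-!
# P112: the maximal truncated sums `Hs` of `H724/Line.lean` are bounded on `L^p`, `1 < p < ∞`
-/

open MeasureTheory Set Filter Metric
open scoped ENNReal NNReal
open Vale.Agent.P112.HL

namespace Vale.Agent.P112.TreeT2

theorem LK.hk {L : ℝ} {K : ℝ → ℝ} (h : LK L K) (ho : ∀ t, K (-t) = - K t) : HK K L :=
  ⟨ho, h.lip, h.zero⟩

theorem sum_cj_eq {L : ℝ} {K : ℝ → ℝ} (h : LK L K) {φ : ℝ → ℝ} (hφ : Measurable φ) {M : ℝ}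
    (hM : ∀ t, |φ t| ≤ M) (a b : ℕ) (x : ℝ) :
    ∑ j ∈ Finset.Ico a b, cj K φ j x = H158.cv (SK K a b) φ x := by
  unfold cj H158.cv SK
  rw [← integral_finsetSum _ fun j _ => integrable_cj h hφ hM j x]
  refine integral_congr_ae (Eventually.of_forall fun ξ => ?_)
  simp only [Finset.sum_mul]
  rfl

theorem Hs_le_MK {L : ℝ} {K : ℝ → ℝ} (h : LK L K) {φ : ℝ → ℝ} (hφ : Measurable φ) {M : ℝ}
    (hM : ∀ t, |φ t| ≤ M) (n : ℕ) (x : ℝ) : Hs K n φ x ≤ MK K φ x := by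
  refine iSup_le fun a => iSup_le fun b => iSup_le fun _ => ?_
  rw [sum_cj_eq h hφ hM]
  exact le_iSup_of_le a (le_iSup_of_le b le_rfl)

/-- **`L^p` bound of the maximal truncated sums**, uniform in the kernel and in `n`. -/
theorem Hs_Lp (L : ℝ) {p : ℝ} (hp : 1 < p) : ∃ C : ℝ≥0∞, C ≠ ∞ ∧ ∀ K : ℝ → ℝ, LK L K →
    (∀ t, K (-t) = - K t) → ∀ (n : ℕ) (φ : ℝ → ℝ), Measurable φ → (∃ M : ℝ, ∀ t, |φ t| ≤ M) →
      ∫⁻ x, Hs K n φ x ^ p ≤ C * ∫⁻ x, ‖φ x‖ₑ ^ p := by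
  obtain ⟨C, hC, h1⟩ := MK_Lp L hp
  refine ⟨C, hC, fun K h ho n φ hφ hM => ?_⟩
  obtain ⟨M, hM⟩ := hM
  refine le_trans (lintegral_mono fun x => ?_) (h1 K (h.hk ho) φ hφ)
  exact ENNReal.rpow_le_rpow (Hs_le_MK h hφ hM n x) (by linarith)

end Vale.Agent.P112.TreeT2
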