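import Vale.Agent.P112.H967.HL

/-!
# P112: sums of dilates of an odd Lipschitz kernel with compact support
-/

open MeasureTheory Set Metric
open scoped ENNReal NNReal Topology

namespace Vale.Agent.P112.HL

/-- odd Lipschitz kernels supported in `[-1, 1]` -/
structure HK (K : ℝ → ℝ) (M : ℝ) : Prop where
  odd : ∀ x, K (-x) = - K x
  lip : ∀ x y, |K x - K y| ≤ M * |x - y|
  supp : ∀ x, 1 ≤ |x| → K x = 0

/-- the sum of the dilates `2^j K(2^j t)`, `a ≤ j < b` -/
noncomputable def SK (K : ℝ → ℝ) (a b : ℕ) (t : ℝ) : ℝ :=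
  ∑ j ∈ Finset.Ico a b, (2 : ℝ) ^ j * K (2 ^ j * t)

/-- geometric sums -/
theorem geo4 (X : ℝ) (s : Finset ℕ) :
    ∑ j ∈ s.filter (fun j => (2 : ℝ) ^ j < X), (4 : ℝ) ^ j ≤ 4 / 3 * X ^ 2 := by
  have key : ∀ m : ℕ, ∑ j ∈ (Finset.range m).filter (fun j => (2 : ℝ) ^ j < X), (4 : ℝ) ^ j ≤
      4 / 3 * X ^ 2 := by
    intro m
    induction m with
    | zero => simp; positivity
    | succ m ih =>
      by_cases h : (2 : ℝ) ^ m < X
      · calc ∑ j ∈ (Finset.range (m + 1)).filter (fun j => (2 : ℝ) ^ j < X), (4 : ℝ) ^ j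
            ≤ ∑ j ∈ Finset.range (m + 1), (4 : ℝ) ^ j :=
              Finset.sum_le_sum_of_subset_of_nonneg (Finset.filter_subset _ _)
                fun _ _ _ => by positivity
          _ = ((4 : ℝ) ^ (m + 1) - 1) / 3 := by
              rw [geom_sum_eq (by norm_num)]; norm_num
          _ ≤ 4 / 3 * (2 ^ m) ^ 2 := by
              rw [← pow_mul, mul_comm m 2, pow_mul, pow_succ]
              norm_num
              linarith
          _ ≤ 4 / 3 * X ^ 2 := by gcongr
      · rw [Finset.range_add_one, Finset.filter_insert, if_neg h]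
        exact ih
  obtain ⟨m, hm⟩ := s.exists_nat_subset_range
  exact (Finset.sum_le_sum_of_subset_of_nonneg (Finset.filter_subset_filter _ hm)
    fun _ _ _ => by positivity).trans (key m)

variable {K : ℝ → ℝ} {M : ℝ}

theorem HK.M_nonneg (h : HK K M) : 0 ≤ M := by
  have := (abs_nonneg _).trans (h.lip 1 0)
  simpa using this

theorem HK.zero (h : HK K M) : K 0 = 0 := by
  have := h.odd 0
  rw [neg_zero] at this
  linarith

theorem HK.abs_le_lin (h : HK K M) (x : ℝ) : |K x| ≤ M * |x| := by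
  have := h.lip x 0
  rwa [h.zero, sub_zero, sub_zero] at this

theorem HK.abs_le_M (h : HK K M) (x : ℝ) : |K x| ≤ M := by
  by_cases hx : 1 ≤ |x|
  · rw [h.supp x hx, abs_zero]; exact h.M_nonneg
  · rw [not_le] at hx
    exact (h.abs_le_lin x).trans (by nlinarith [h.M_nonneg])

theorem HK.continuous (h : HK K M) : Continuous K := by
  have : LipschitzWith (Real.toNNReal M) K := by
    refine LipschitzWith.of_dist_le_mul fun x y => ?_
    rw [Real.dist_eq, Real.dist_eq]
    refine (h.lip x y).trans ?_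
    gcongr
    exact Real.le_coe_toNNReal M
  exact this.continuous

theorem continuous_SK (h : HK K M) (a b : ℕ) : Continuous (SK K a b) := by
  unfold SK
  exact continuous_finset_sum _ fun j _ => continuous_const.mul (h.continuous.comp (by fun_prop))

theorem SK_neg (h : HK K M) (a b : ℕ) (t : ℝ) : SK K a b (-t) = - SK K a b t := by
  rw [SK, SK, ← Finset.sum_neg_distrib]
  refine Finset.sum_congr rfl fun j _ => ?_
  rw [mul_neg, h.odd, mul_neg]

theorem SK_supp (h : HK K M) {a b : ℕ} {t : ℝ} (ht : ((2 : ℝ) ^ a)⁻¹ ≤ |t|) : SK K a b t = 0 := by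
  rw [SK]
  refine Finset.sum_eq_zero fun j hj => ?_
  rw [h.supp, mul_zero]
  have h1 : (2 : ℝ) ^ a ≤ 2 ^ j := pow_le_pow_right₀ (by norm_num) (Finset.mem_Ico.1 hj).1
  rw [abs_mul, abs_of_pos (by positivity : (0 : ℝ) < 2 ^ j),
    ← mul_inv_cancel₀ (by positivity : (2 : ℝ) ^ a ≠ 0)]
  exact mul_le_mul h1 ht (by positivity) (by positivity)

theorem SK_supp_one (h : HK K M) {a b : ℕ} {t : ℝ} (ht : 1 ≤ |t|) : SK K a b t = 0 :=
  SK_supp h ((inv_le_one_of_one_le₀ (one_le_pow₀ (by norm_num))).trans ht)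

theorem SK_add {a b c : ℕ} (hab : a ≤ b) (hbc : b ≤ c) (t : ℝ) :
    SK K a b t + SK K b c t = SK K a c t :=
  Finset.sum_Ico_consecutive _ hab hbc

/-- `|S(t)| ≤ (4/3) M / |t|` -/
theorem abs_SK_mul_le (h : HK K M) (a b : ℕ) (t : ℝ) : |SK K a b t| * |t| ≤ 4 / 3 * M := by
  have hM := h.M_nonneg
  rcases eq_or_ne t 0 with rfl | ht
  · simp; positivity
  have ht' : 0 < |t| := abs_pos.2 ht
  have h1 : |SK K a b t| ≤ ∑ j ∈ (Finset.Ico a b).filter (fun j => (2 : ℝ) ^ j < 1 / |t|),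
      M * |t| * 4 ^ j := by
    rw [SK, Finset.sum_filter]
    refine (Finset.abs_sum_le_sum_abs _ _).trans (Finset.sum_le_sum fun j _ => ?_)
    split_ifs with hj
    · rw [abs_mul, abs_of_pos (by positivity : (0 : ℝ) < 2 ^ j)]
      calc (2 : ℝ) ^ j * |K (2 ^ j * t)| ≤ 2 ^ j * (M * |2 ^ j * t|) := by
            gcongr; exact h.abs_le_lin _
        _ = M * |t| * 4 ^ j := by
            rw [abs_mul, abs_of_pos (by positivity : (0 : ℝ) < 2 ^ j),
              show (4 : ℝ) = 2 * 2 by norm_num, mul_pow]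
            ring
    · rw [h.supp, mul_zero, abs_zero]
      rw [not_lt, div_le_iff₀ ht'] at hj
      rwa [abs_mul, abs_of_pos (by positivity : (0 : ℝ) < 2 ^ j)]
  rw [← Finset.mul_sum] at h1
  calc |SK K a b t| * |t| ≤ (M * |t| * (4 / 3 * (1 / |t|) ^ 2)) * |t| := by
        gcongr
        exact h1.trans (by gcongr; exact geo4 _ _)
    _ = 4 / 3 * M := by field_simp

/-- Lipschitz bound away from the origin, with the smallest scale `2^-m` -/
theorem SK_diff (h : HK K M) (a m : ℕ) {s t r : ℝ} (hr : 0 < r) (hs : r ≤ |s| ∨ r ≤ (2 ^ m)⁻¹)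
    (ht : r ≤ |t| ∨ r ≤ (2 ^ m)⁻¹) : |SK K a m t - SK K a m s| ≤ 4 / 3 * M * |t - s| / r ^ 2 := by
  have hM := h.M_nonneg
  have h1 : |SK K a m t - SK K a m s| ≤
      ∑ j ∈ (Finset.Ico a m).filter (fun j => (2 : ℝ) ^ j < 1 / r), M * |t - s| * 4 ^ j := by
    rw [SK, SK, ← Finset.sum_sub_distrib, Finset.sum_filter]
    refine (Finset.abs_sum_le_sum_abs _ _).trans (Finset.sum_le_sum fun j hj' => ?_)
    rw [← mul_sub, abs_mul, abs_of_pos (by positivity : (0 : ℝ) < 2 ^ j)]
    split_ifs with hj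
    · calc (2 : ℝ) ^ j * |K (2 ^ j * t) - K (2 ^ j * s)| ≤ 2 ^ j * (M * |2 ^ j * t - 2 ^ j * s|) := by
            gcongr; exact h.lip _ _
        _ = M * |t - s| * 4 ^ j := by
            rw [← mul_sub, abs_mul, abs_of_pos (by positivity : (0 : ℝ) < 2 ^ j),
              show (4 : ℝ) = 2 * 2 by norm_num, mul_pow]
            ring
    · rw [not_lt, div_le_iff₀ hr] at hj
      have hjm : (2 : ℝ) ^ j < 2 ^ m := pow_lt_pow_right₀ (by norm_num) (Finset.mem_Ico.1 hj').2
      have hno : ¬ r ≤ ((2 : ℝ) ^ m)⁻¹ := by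
        intro hc
        have : (2 : ℝ) ^ j * r < 1 := by
          calc (2 : ℝ) ^ j * r < 2 ^ m * r := by gcongr
            _ ≤ 2 ^ m * (2 ^ m)⁻¹ := by gcongr
            _ = 1 := mul_inv_cancel₀ (by positivity)
        linarith
      have hs' : r ≤ |s| := hs.resolve_right hno
      have ht' : r ≤ |t| := ht.resolve_right hno
      have e : ∀ u : ℝ, r ≤ |u| → K (2 ^ j * u) = 0 := by
        intro u hu
        apply h.supp
        rw [abs_mul, abs_of_pos (by positivity : (0 : ℝ) < 2 ^ j)]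
        exact hj.trans (by gcongr)
      rw [e t ht', e s hs', sub_self, abs_zero, mul_zero]
  rw [← Finset.mul_sum] at h1
  calc |SK K a m t - SK K a m s| ≤ M * |t - s| * (4 / 3 * (1 / r) ^ 2) :=
        h1.trans (by gcongr; exact geo4 _ _)
    _ = 4 / 3 * M * |t - s| / r ^ 2 := by ring

theorem abs_SK_le (h : HK K M) (a b : ℕ) (t : ℝ) : |SK K a b t| ≤ M * 2 ^ b := by
  have hM := h.M_nonneg
  rw [SK]
  calc |∑ j ∈ Finset.Ico a b, (2 : ℝ) ^ j * K (2 ^ j * t)|
      ≤ ∑ j ∈ Finset.Ico a b, |(2 : ℝ) ^ j * K (2 ^ j * t)| := Finset.abs_sum_le_sum_abs _ _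
    _ ≤ ∑ j ∈ Finset.Ico a b, (2 : ℝ) ^ j * M := by
        refine Finset.sum_le_sum fun j _ => ?_
        rw [abs_mul, abs_of_pos (by positivity : (0 : ℝ) < 2 ^ j)]
        gcongr
        exact h.abs_le_M _
    _ ≤ ∑ j ∈ Finset.range b, (2 : ℝ) ^ j * M := by
        refine Finset.sum_le_sum_of_subset_of_nonneg ?_ fun _ _ _ => by positivity
        intro j hj
        rw [Finset.mem_range]
        exact (Finset.mem_Ico.1 hj).2
    _ = (2 ^ b - 1) * M := by
        rw [← Finset.sum_mul, geom_sum_eq (by norm_num)]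
        norm_num
    _ ≤ M * 2 ^ b := by nlinarith

end Vale.Agent.P112.HL
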