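import Mathlib.MeasureTheory.Covering.Vitali
import Mathlib.MeasureTheory.Measure.Lebesgue.VolumeOfBalls
import Mathlib.MeasureTheory.Measure.Regular
import Mathlib.Analysis.SpecialFunctions.Integrals.Basic
import Mathlib.MeasureTheory.Integral.IntegralEqImproper

/-!
# P112: the uncentred Hardy-Littlewood maximal function on the line
-/

open MeasureTheory Set Metric
open scoped ENNReal NNReal Topology

namespace Vale.Agent.P112.HL

/-- the uncentred Hardy-Littlewood maximal function on `ℝ` -/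
noncomputable def MF (f : ℝ → ℝ≥0∞) (x : ℝ) : ℝ≥0∞ :=
  ⨆ (c : ℝ) (r : ℝ) (_ : x ∈ ball c r), (∫⁻ y in ball c r, f y) / ENNReal.ofReal (2 * r)

theorem avg_le_MF (f : ℝ → ℝ≥0∞) {x c r : ℝ} (h : x ∈ ball c r) :
    (∫⁻ y in ball c r, f y) / ENNReal.ofReal (2 * r) ≤ MF f x :=
  le_iSup_of_le c (le_iSup_of_le r (le_iSup_of_le h le_rfl))

theorem MF_mono {f g : ℝ → ℝ≥0∞} (h : ∀ y, f y ≤ g y) (x : ℝ) : MF f x ≤ MF g x := by
  refine iSup_mono fun c => iSup_mono fun r => iSup_mono fun _ => ?_
  exact ENNReal.div_le_div_right (lintegral_mono fun y => h y) _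

theorem setOf_lt_MF (f : ℝ → ℝ≥0∞) (t : ℝ≥0∞) :
    {x | t < MF f x} = ⋃ (c : ℝ) (r : ℝ)
      (_ : t < (∫⁻ y in ball c r, f y) / ENNReal.ofReal (2 * r)), ball c r := by
  ext x
  simp only [mem_ofPred_eq, MF, lt_iSup_iff, mem_iUnion]
  constructor
  · rintro ⟨c, r, hx, h⟩
    exact ⟨c, r, h, hx⟩
  · rintro ⟨c, r, h, hx⟩
    exact ⟨c, r, hx, h⟩

theorem isOpen_lt_MF (f : ℝ → ℝ≥0∞) (t : ℝ≥0∞) : IsOpen {x | t < MF f x} := by
  rw [setOf_lt_MF]
  exact isOpen_iUnion fun c => isOpen_iUnion fun r => isOpen_iUnion fun _ => isOpen_ball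

theorem measurable_MF (f : ℝ → ℝ≥0∞) : Measurable (MF f) :=
  measurable_of_Ioi fun t => (isOpen_lt_MF f t).measurableSet

theorem lowerSemicontinuous_MF (f : ℝ → ℝ≥0∞) : LowerSemicontinuous (MF f) :=
  lowerSemicontinuous_iff_isOpen_preimage.2 fun t => isOpen_lt_MF f t

/-- **Weak type (1,1).** -/
theorem weak_MF (f : ℝ → ℝ≥0∞) (t : ℝ≥0∞) :
    t * volume {x | t < MF f x} ≤ 4 * ∫⁻ y, f y := by
  rw [(isOpen_lt_MF f t).measure_eq_iSup_isCompact, ENNReal.mul_iSup]
  refine iSup_le fun K => ?_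
  rw [ENNReal.mul_iSup]
  refine iSup_le fun hK => ?_
  rw [ENNReal.mul_iSup]
  refine iSup_le fun hKc => ?_
  -- finite subcover
  let S : Set (ℝ × ℝ) := {q | t < (∫⁻ y in ball q.1 q.2, f y) / ENNReal.ofReal (2 * q.2)}
  have hcov : K ⊆ ⋃ q : S, ball q.1.1 q.1.2 := by
    intro x hx
    have := hK hx
    rw [setOf_lt_MF] at this
    simp only [mem_iUnion] at this ⊢
    obtain ⟨c, r, h, hx⟩ := this
    exact ⟨⟨(c, r), h⟩, hx⟩
  obtain ⟨F, hF⟩ := hKc.elim_finite_subcover (fun q : S => ball q.1.1 q.1.2)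
    (fun _ => isOpen_ball) hcov
  obtain ⟨R, hR⟩ : ∃ R : ℝ, ∀ q ∈ F, q.1.2 ≤ R := by
    refine ⟨∑ q ∈ F, |q.1.2|, fun q hq => (le_abs_self _).trans ?_⟩
    exact Finset.single_le_sum (f := fun q : S => |q.1.2|) (fun _ _ => abs_nonneg _) hq
  obtain ⟨u, huF, hdis, hcov'⟩ := Vitali.exists_disjoint_subfamily_covering_enlargement_ball
    (F : Set S) (fun q : S => q.1.1) (fun q : S => q.1.2) R (fun q hq => hR q hq) 4 (by norm_num)
  have hufin : u.Finite := F.finite_toSet.subset huF
  have hKu : K ⊆ ⋃ q ∈ hufin.toFinset, ball q.1.1 (4 * q.1.2) := by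
    intro x hx
    obtain ⟨q, hq⟩ := mem_iUnion.1 (hF hx)
    obtain ⟨hqF, hxq⟩ := mem_iUnion.1 hq
    obtain ⟨b, hb, hsub⟩ := hcov' q hqF
    simp only [mem_iUnion]
    exact ⟨b, by simpa using hb, hsub hxq⟩
  have hball : ∀ q : S, t * volume (ball q.1.1 (4 * q.1.2)) ≤ 4 * ∫⁻ y in ball q.1.1 q.1.2, f y := by
    intro q
    rcases le_or_gt q.1.2 0 with h0 | h0
    · rw [ball_eq_empty.2 (by linarith : 4 * q.1.2 ≤ 0)]
      simp
    · have h1 : t < (∫⁻ y in ball q.1.1 q.1.2, f y) / ENNReal.ofReal (2 * q.1.2) := q.2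
      have h2 : ENNReal.ofReal (2 * q.1.2) ≠ 0 := by
        rw [Ne, ENNReal.ofReal_eq_zero]; linarith
      have h3 : t * ENNReal.ofReal (2 * q.1.2) ≤ ∫⁻ y in ball q.1.1 q.1.2, f y :=
        (ENNReal.le_div_iff_mul_le (Or.inl h2) (Or.inl ENNReal.ofReal_ne_top)).1 h1.le
      rw [Real.volume_ball, show 2 * (4 * q.1.2) = 4 * (2 * q.1.2) by ring,
        ENNReal.ofReal_mul (by norm_num : (0 : ℝ) ≤ 4), ← mul_assoc, mul_comm t, mul_assoc]
      have h4 : ENNReal.ofReal 4 = 4 := by norm_num
      rw [h4]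
      gcongr
  calc t * volume K ≤ t * ∑ q ∈ hufin.toFinset, volume (ball q.1.1 (4 * q.1.2)) := by
        gcongr
        exact (measure_mono hKu).trans (measure_biUnion_finset_le _ _)
    _ = ∑ q ∈ hufin.toFinset, t * volume (ball q.1.1 (4 * q.1.2)) := Finset.mul_sum _ _ _
    _ ≤ ∑ q ∈ hufin.toFinset, 4 * ∫⁻ y in ball q.1.1 q.1.2, f y :=
        Finset.sum_le_sum fun q _ => hball q
    _ = 4 * ∫⁻ y in ⋃ q ∈ hufin.toFinset, ball q.1.1 q.1.2, f y := by
        rw [← Finset.mul_sum, lintegral_biUnion_finset]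
        · intro a ha b hb hab
          exact hdis (by simpa using ha) (by simpa using hb) hab
        · exact fun _ _ => measurableSet_ball
    _ ≤ 4 * ∫⁻ y, f y := by
        gcongr
        exact Measure.restrict_le_self

/-- truncation: `{MF f > 2t} ⊆ {MF (f 1_{f > t}) > t}` -/
theorem MF_le_trunc (f : ℝ → ℝ≥0∞) (t : ℝ≥0∞) (x : ℝ) :
    MF f x ≤ t + MF ({y | t < f y}.indicator f) x := by
  refine iSup_le fun c => iSup_le fun r => iSup_le fun hx => ?_
  have hr : 0 < r := by
    rw [mem_ball] at hx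
    exact lt_of_le_of_lt dist_nonneg hx
  have h2 : ENNReal.ofReal (2 * r) ≠ 0 := by
    rw [Ne, ENNReal.ofReal_eq_zero]; linarith
  have h1 : ∫⁻ y in ball c r, f y ≤ t * ENNReal.ofReal (2 * r) +
      ∫⁻ y in ball c r, {y | t < f y}.indicator f y := by
    calc ∫⁻ y in ball c r, f y ≤ ∫⁻ y in ball c r, (t + {y | t < f y}.indicator f y) := by
          refine lintegral_mono fun y => ?_
          by_cases h : t < f y
          · rw [indicator_of_mem (by exact h)]
            exact le_add_self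
          · rw [indicator_of_notMem (by exact h), add_zero]
            exact not_lt.1 h
      _ = _ := by
          rw [lintegral_add_left measurable_const, lintegral_const, Measure.restrict_apply_univ,
            Real.volume_ball]
  calc (∫⁻ y in ball c r, f y) / ENNReal.ofReal (2 * r)
      ≤ (t * ENNReal.ofReal (2 * r) + ∫⁻ y in ball c r, {y | t < f y}.indicator f y) /
          ENNReal.ofReal (2 * r) := ENNReal.div_le_div_right h1 _
    _ = t + (∫⁻ y in ball c r, {y | t < f y}.indicator f y) / ENNReal.ofReal (2 * r) := by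
        rw [ENNReal.add_div, ENNReal.mul_div_cancel_right h2 ENNReal.ofReal_ne_top]
    _ ≤ _ := by
        gcongr
        exact avg_le_MF _ hx

/-- `∫_0^a p t^(p-1) dt = a^p` in `[0, ∞]` -/
theorem lin_pow (a : ℝ≥0∞) {p : ℝ} (hp : 0 < p) :
    ∫⁻ t in Ioi (0 : ℝ), (if ENNReal.ofReal t < a then ENNReal.ofReal (p * t ^ (p - 1)) else 0)
      = a ^ p := by
  have key : ∀ b : ℝ, 0 ≤ b →
      ∫⁻ t in Ioo (0 : ℝ) b, ENNReal.ofReal (p * t ^ (p - 1)) = ENNReal.ofReal (b ^ p) := by
    intro b hb
    have hint : IntervalIntegrable (fun t : ℝ => p * t ^ (p - 1)) volume 0 b :=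
      (intervalIntegral.intervalIntegrable_rpow' (by linarith)).const_mul p
    rw [← ofReal_integral_eq_lintegral_ofReal]
    · rw [← integral_Ioc_eq_integral_Ioo, ← intervalIntegral.integral_of_le hb,
        intervalIntegral.integral_const_mul, integral_rpow (Or.inl (by linarith))]
      congr 1
      rw [sub_add_cancel, Real.zero_rpow hp.ne', sub_zero]
      field_simp
    · exact (intervalIntegrable_iff_integrableOn_Ioo_of_le hb).1 hint
    · refine (ae_restrict_iff' measurableSet_Ioo).2 (Filter.Eventually.of_forall fun t ht => ?_)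
      exact mul_nonneg hp.le (Real.rpow_nonneg ht.1.le _)
  rcases eq_or_ne a ∞ with rfl | ha
  · rw [ENNReal.top_rpow_of_pos hp]
    simp only [ENNReal.ofReal_lt_top, if_true]
    refine top_le_iff.1 (le_of_tendsto' (x := Filter.atTop) (f := fun n : ℕ => ENNReal.ofReal ((n : ℝ) ^ p)) ?_ ?_)
    · exact ENNReal.tendsto_ofReal_atTop.comp
        ((tendsto_rpow_atTop hp).comp tendsto_natCast_atTop_atTop)
    · intro n
      rw [← key n n.cast_nonneg]
      exact lintegral_mono_set Ioo_subset_Ioi_self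
  · obtain ⟨b, hb, rfl⟩ : ∃ b : ℝ, 0 ≤ b ∧ a = ENNReal.ofReal b :=
      ⟨a.toReal, ENNReal.toReal_nonneg, (ENNReal.ofReal_toReal ha).symm⟩
    rw [ENNReal.ofReal_rpow_of_nonneg hb hp.le, ← key b hb,
      ← lintegral_indicator measurableSet_Ioi, ← lintegral_indicator measurableSet_Ioo]
    refine lintegral_congr fun t => ?_
    by_cases h0 : 0 < t
    · rw [indicator_of_mem (by exact h0)]
      by_cases h1 : t < b
      · rw [indicator_of_mem (by exact ⟨h0, h1⟩), if_pos ((ENNReal.ofReal_lt_ofReal_iff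
          (h0.trans h1)).2 h1)]
      · rw [indicator_of_notMem (by exact fun h => h1 h.2), if_neg]
        rw [not_lt]
        exact ENNReal.ofReal_le_ofReal (not_lt.1 h1)
    · rw [indicator_of_notMem (by exact h0), indicator_of_notMem (by exact fun h => h0 h.1)]

/-- the layer-cake formula in `[0, ∞]` -/
theorem layer {α : Type*} [MeasurableSpace α] (μ : Measure α) [SFinite μ] {g : α → ℝ≥0∞}
    (hg : Measurable g) {p : ℝ} (hp : 0 < p) :
    ∫⁻ x, g x ^ p ∂μ =
      ∫⁻ t in Ioi (0 : ℝ), ENNReal.ofReal (p * t ^ (p - 1)) * μ {x | ENNReal.ofReal t < g x} := by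
  calc ∫⁻ x, g x ^ p ∂μ = ∫⁻ x, (∫⁻ t in Ioi (0 : ℝ),
        (if ENNReal.ofReal t < g x then ENNReal.ofReal (p * t ^ (p - 1)) else 0)) ∂μ := by
        refine lintegral_congr fun x => (lin_pow (g x) hp).symm
    _ = ∫⁻ t in Ioi (0 : ℝ), (∫⁻ x,
        (if ENNReal.ofReal t < g x then ENNReal.ofReal (p * t ^ (p - 1)) else 0) ∂μ) := by
        refine lintegral_lintegral_swap ?_
        refine Measurable.aemeasurable ?_
        refine Measurable.ite ?_ (by fun_prop) measurable_const
        exact measurableSet_lt (by fun_prop) (by fun_prop)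
    _ = _ := by
        refine lintegral_congr fun t => ?_
        rw [← lintegral_indicator_const (measurableSet_lt measurable_const hg)]
        refine lintegral_congr fun x => ?_
        simp only [indicator, mem_ofPred_eq]

/-- **Strong type (p, p)** of the maximal function, `1 < p`. -/
theorem strong_MF {p : ℝ} (hp : 1 < p) {f : ℝ → ℝ≥0∞} (hf : Measurable f) :
    ∫⁻ x, MF f x ^ p ≤ ENNReal.ofReal (8 * p * 2 ^ (p - 1) / (p - 1)) * ∫⁻ x, f x ^ p := by
  have hp0 : 0 < p := by linarith
  have h1 : ∀ t ∈ Ioi (0 : ℝ), ENNReal.ofReal (p * t ^ (p - 1)) *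
      volume {x | ENNReal.ofReal t < MF f x} ≤
      ENNReal.ofReal (8 * p * t ^ (p - 2)) * ∫⁻ y, (if ENNReal.ofReal t < 2 * f y then f y else 0) := by
    intro t ht
    have ht : 0 < t := ht
    have h2 : {x | ENNReal.ofReal t < MF f x} ⊆
        {x | ENNReal.ofReal (t / 2) < MF ({y | ENNReal.ofReal (t / 2) < f y}.indicator f) x} := by
      intro x hx
      simp only [mem_ofPred_eq] at hx ⊢
      have h3 := lt_of_lt_of_le hx (MF_le_trunc f (ENNReal.ofReal (t / 2)) x)
      by_contra h4
      rw [not_lt] at h4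
      have h5 : ENNReal.ofReal (t / 2) + ENNReal.ofReal (t / 2) = ENNReal.ofReal t := by
        rw [← ENNReal.ofReal_add (by positivity) (by positivity)]
        congr 1
        ring
      exact absurd (lt_of_lt_of_le h3 (add_le_add_right h4 _)) (by rw [h5]; exact lt_irrefl _)
    have h3 := weak_MF ({y | ENNReal.ofReal (t / 2) < f y}.indicator f) (ENNReal.ofReal (t / 2))
    have h4 : ENNReal.ofReal (p * t ^ (p - 1)) =
        ENNReal.ofReal (2 * p * t ^ (p - 2)) * ENNReal.ofReal (t / 2) := by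
      rw [← ENNReal.ofReal_mul (by positivity)]
      congr 1
      rw [show p - 1 = (p - 2) + 1 by ring, Real.rpow_add ht, Real.rpow_one]
      ring
    have h5 : ENNReal.ofReal (8 * p * t ^ (p - 2)) = ENNReal.ofReal (2 * p * t ^ (p - 2)) * 4 := by
      rw [show (4 : ℝ≥0∞) = ENNReal.ofReal 4 by norm_num, ← ENNReal.ofReal_mul (by positivity)]
      congr 1
      ring
    have h7 : ENNReal.ofReal (t / 2) * volume {x | ENNReal.ofReal t < MF f x} ≤
        4 * ∫⁻ y, {y | ENNReal.ofReal (t / 2) < f y}.indicator f y :=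
      le_trans (by gcongr) h3
    rw [h4, h5, mul_assoc (ENNReal.ofReal (2 * p * t ^ (p - 2))),
      mul_assoc (ENNReal.ofReal (2 * p * t ^ (p - 2)))]
    refine mul_le_mul_right (h7.trans (mul_le_mul_right (lintegral_mono fun y => ?_) _)) _
    simp only [indicator, mem_ofPred_eq]
    have h6 : ENNReal.ofReal (t / 2) < f y ↔ ENNReal.ofReal t < 2 * f y := by
      rw [show ENNReal.ofReal t = 2 * ENNReal.ofReal (t / 2) by
        rw [show (2 : ℝ≥0∞) = ENNReal.ofReal 2 by norm_num, ← ENNReal.ofReal_mul (by norm_num)]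
        congr 1; ring]
      exact (ENNReal.mul_lt_mul_iff_right (by norm_num) (by norm_num)).symm
    simp only [h6, le_refl]
  calc ∫⁻ x, MF f x ^ p
      = ∫⁻ t in Ioi (0 : ℝ), ENNReal.ofReal (p * t ^ (p - 1)) *
          volume {x | ENNReal.ofReal t < MF f x} := layer volume (measurable_MF f) hp0
    _ ≤ ∫⁻ t in Ioi (0 : ℝ), ENNReal.ofReal (8 * p * t ^ (p - 2)) *
          ∫⁻ y, (if ENNReal.ofReal t < 2 * f y then f y else 0) :=
        setLIntegral_mono' measurableSet_Ioi h1
    _ = ∫⁻ t in Ioi (0 : ℝ), ∫⁻ y, ENNReal.ofReal (8 * p * t ^ (p - 2)) *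
          (if ENNReal.ofReal t < 2 * f y then f y else 0) := by
        refine lintegral_congr fun t => ?_
        rw [lintegral_const_mul']
        exact ENNReal.ofReal_ne_top
    _ = ∫⁻ y, ∫⁻ t in Ioi (0 : ℝ), ENNReal.ofReal (8 * p * t ^ (p - 2)) *
          (if ENNReal.ofReal t < 2 * f y then f y else 0) := by
        refine lintegral_lintegral_swap ?_
        refine Measurable.aemeasurable ?_
        refine Measurable.mul (by fun_prop) ?_
        refine Measurable.ite ?_ (by fun_prop) measurable_const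
        exact measurableSet_lt (by fun_prop) (by fun_prop)
    _ = ∫⁻ y, ENNReal.ofReal (8 * p * 2 ^ (p - 1) / (p - 1)) * f y ^ p := by
        refine lintegral_congr fun y => ?_
        have hq : 0 < p - 1 := by linarith
        have h7 : ∀ t : ℝ, ENNReal.ofReal (8 * p * t ^ (p - 2)) *
            (if ENNReal.ofReal t < 2 * f y then f y else 0) =
            (ENNReal.ofReal (8 * p / (p - 1)) * f y) *
            (if ENNReal.ofReal t < 2 * f y then ENNReal.ofReal ((p - 1) * t ^ (p - 1 - 1)) else 0) := by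
          intro t
          split_ifs with h
          · have h10 : ENNReal.ofReal (8 * p * t ^ (p - 2)) = ENNReal.ofReal (8 * p / (p - 1)) *
                ENNReal.ofReal ((p - 1) * t ^ (p - 1 - 1)) := by
              rw [← ENNReal.ofReal_mul (by positivity)]
              congr 1
              rw [show p - 1 - 1 = p - 2 by ring]
              field_simp
            rw [h10]
            ring
          · simp
        rw [lintegral_congr h7, lintegral_const_mul'' _ ?_, lin_pow _ hq,
          ENNReal.mul_rpow_of_nonneg _ _ hq.le]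
        · have h8 : (2 : ℝ≥0∞) ^ (p - 1) = ENNReal.ofReal (2 ^ (p - 1)) := by
            rw [show (2 : ℝ≥0∞) = ENNReal.ofReal 2 by norm_num,
              ENNReal.ofReal_rpow_of_nonneg (by norm_num) hq.le]
          have h9 : f y * f y ^ (p - 1) = f y ^ p := by
            nth_rewrite 1 [← ENNReal.rpow_one (f y)]
            rw [← ENNReal.rpow_add_of_nonneg _ _ zero_le_one hq.le]
            congr 1
            ring
          rw [h8, mul_mul_mul_comm, ← ENNReal.ofReal_mul (by positivity), h9]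
          congr 2
          ring
        · refine Measurable.aemeasurable ?_
          refine Measurable.ite ?_ (by fun_prop) measurable_const
          exact measurableSet_lt (by fun_prop) (by fun_prop)
    _ = _ := by
        rw [lintegral_const_mul' _ _ ENNReal.ofReal_ne_top]

end Vale.Agent.P112.HL
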