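import Vale.Agent.P112.H967.HL

/-!
# P112: smooth truncations of `1/t` on the line
-/

open MeasureTheory Set Metric
open scoped ENNReal NNReal Topology

namespace Vale.Agent.P112.HL

/-- the tent cut-off, the same function as `Vale.Agent.P112.chi` -/
noncomputable def ch (t : ℝ) : ℝ := max 0 (min 1 (2 - 2 * |t|))

theorem ch_nonneg (t : ℝ) : 0 ≤ ch t := le_max_left _ _
theorem ch_le_one (t : ℝ) : ch t ≤ 1 := max_le zero_le_one (min_le_left _ _)
theorem ch_eq_one {t : ℝ} (h : |t| ≤ 1 / 2) : ch t = 1 := by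
  rw [ch, min_eq_left (by linarith), max_eq_right zero_le_one]
theorem ch_eq_zero {t : ℝ} (h : 1 ≤ |t|) : ch t = 0 := by
  rw [ch]
  exact max_eq_left ((min_le_right _ _).trans (by linarith))
theorem ch_neg (t : ℝ) : ch (-t) = ch t := by rw [ch, ch, abs_neg]
theorem ch_anti {s t : ℝ} (h : |s| ≤ |t|) : ch t ≤ ch s := by
  rw [ch, ch]
  exact max_le_max le_rfl (min_le_min le_rfl (by linarith))
theorem continuous_ch : Continuous ch := by unfold ch; fun_prop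
theorem ch_lip (s t : ℝ) : |ch s - ch t| ≤ 2 * |s - t| := by
  rw [ch, ch]
  refine (abs_max_sub_max_le_max _ _ _ _).trans (max_le (by simp) ?_)
  refine (abs_min_sub_min_le_max _ _ _ _).trans (max_le (by simp) ?_)
  rw [show 2 - 2 * |s| - (2 - 2 * |t|) = 2 * (|t| - |s|) by ring, abs_mul, abs_two,
    abs_sub_comm s t]
  have := abs_abs_sub_abs_le t s
  linarith

/-- the scale invariant Lipschitz bound -/
theorem ch_scale {l s t : ℝ} (hl : 0 ≤ l) (hs : s ≠ 0) (hst : |t| ≤ |s|) :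
    |ch (l * t) - ch (l * s)| ≤ 2 * |t - s| / |s| := by
  have hs' : 0 < |s| := abs_pos.2 hs
  rw [le_div_iff₀ hs']
  by_cases h : l * |s| ≤ 1
  · have h1 := ch_lip (l * t) (l * s)
    rw [← mul_sub, abs_mul, abs_of_nonneg hl] at h1
    calc |ch (l * t) - ch (l * s)| * |s| ≤ (2 * (l * |t - s|)) * |s| := by gcongr
      _ = 2 * |t - s| * (l * |s|) := by ring
      _ ≤ 2 * |t - s| * 1 := by gcongr
      _ = _ := by ring
  · rw [not_le] at h
    have h1 : ch (l * s) = 0 := ch_eq_zero (by rw [abs_mul, abs_of_nonneg hl]; exact h.le)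
    rw [h1, sub_zero, abs_of_nonneg (ch_nonneg _)]
    have h2 : |s| - |t| ≤ |t - s| := by
      have := abs_sub_abs_le_abs_sub s t
      rwa [abs_sub_comm] at this
    rcases le_or_gt 1 (l * |t|) with h3 | h3
    · rw [ch_eq_zero (by rw [abs_mul, abs_of_nonneg hl]; exact h3), zero_mul]
      positivity
    · have h4 : ch (l * t) ≤ 2 - 2 * (l * |t|) := by
        rw [ch, abs_mul, abs_of_nonneg hl]
        exact max_le (by linarith) (min_le_right _ _)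
      calc ch (l * t) * |s| ≤ (2 - 2 * (l * |t|)) * |s| := by gcongr
        _ = 2 * (|s| - (l * |s|) * |t|) := by ring
        _ ≤ 2 * (|s| - 1 * |t|) := by gcongr
        _ ≤ 2 * |t - s| := by linarith

/-- `φ_n(t) = ch t - ch (2^n t)` -/
noncomputable def ph (n : ℕ) (t : ℝ) : ℝ := ch t - ch (2 ^ n * t)

/-- `K_n(t) = φ_n(t) / t`, the sum of the first `n` dyadic pieces of `1/t` -/
noncomputable def Kn (n : ℕ) (t : ℝ) : ℝ := ph n t / t

theorem pow_two_ge_one (n : ℕ) : (1 : ℝ) ≤ 2 ^ n := one_le_pow₀ (by norm_num)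

theorem ph_nonneg (n : ℕ) (t : ℝ) : 0 ≤ ph n t := by
  rw [ph, sub_nonneg]
  refine ch_anti ?_
  rw [abs_mul, abs_of_nonneg (by positivity : (0 : ℝ) ≤ 2 ^ n)]
  nlinarith [abs_nonneg t, pow_two_ge_one n]
theorem ph_le_one (n : ℕ) (t : ℝ) : ph n t ≤ 1 := by
  rw [ph]; linarith [ch_le_one t, ch_nonneg (2 ^ n * t)]
theorem abs_ph_le_one (n : ℕ) (t : ℝ) : |ph n t| ≤ 1 := by
  rw [abs_of_nonneg (ph_nonneg n t)]; exact ph_le_one n t
theorem ph_neg (n : ℕ) (t : ℝ) : ph n (-t) = ph n t := by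
  rw [ph, ph, ch_neg, mul_neg, ch_neg]
theorem Kn_neg (n : ℕ) (t : ℝ) : Kn n (-t) = - Kn n t := by
  rw [Kn, Kn, ph_neg, div_neg]
theorem ph_eq_zero_of_le {n : ℕ} {t : ℝ} (h : |t| ≤ (2 ^ n)⁻¹ / 2) : ph n t = 0 := by
  have h2 : (2 : ℝ) ^ n * (2 ^ n)⁻¹ = 1 := mul_inv_cancel₀ (by positivity)
  have h3 : ((2 : ℝ) ^ n)⁻¹ ≤ 1 := inv_le_one_of_one_le₀ (pow_two_ge_one n)
  rw [ph, ch_eq_one (by linarith), ch_eq_one, sub_self]
  rw [abs_mul, abs_of_nonneg (by positivity : (0 : ℝ) ≤ 2 ^ n)]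
  calc (2 : ℝ) ^ n * |t| ≤ 2 ^ n * ((2 ^ n)⁻¹ / 2) := by gcongr
    _ = 1 / 2 := by rw [← mul_div_assoc, h2]
theorem ph_eq_zero_of_ge {n : ℕ} {t : ℝ} (h : 1 ≤ |t|) : ph n t = 0 := by
  rw [ph, ch_eq_zero h, ch_eq_zero, sub_self]
  rw [abs_mul, abs_of_nonneg (by positivity : (0 : ℝ) ≤ 2 ^ n)]
  nlinarith [pow_two_ge_one n]
theorem ph_eq_one {n : ℕ} {t : ℝ} (h : (2 ^ n)⁻¹ ≤ |t|) (h' : |t| ≤ 1 / 2) : ph n t = 1 := by
  have h2 : (2 : ℝ) ^ n * (2 ^ n)⁻¹ = 1 := mul_inv_cancel₀ (by positivity)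
  rw [ph, ch_eq_one h', ch_eq_zero, sub_zero]
  rw [abs_mul, abs_of_nonneg (by positivity : (0 : ℝ) ≤ 2 ^ n), ← h2]
  gcongr
theorem Kn_eq_zero_of_le {n : ℕ} {t : ℝ} (h : |t| ≤ (2 ^ n)⁻¹ / 2) : Kn n t = 0 := by
  rw [Kn, ph_eq_zero_of_le h, zero_div]
theorem Kn_eq_zero_of_ge {n : ℕ} {t : ℝ} (h : 1 ≤ |t|) : Kn n t = 0 := by
  rw [Kn, ph_eq_zero_of_ge h, zero_div]

theorem ph_diff {n : ℕ} {s t : ℝ} (hs : s ≠ 0) (hst : |t| ≤ |s|) :
    |ph n t - ph n s| ≤ 4 * |t - s| / |s| := by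
  have h1 := ch_scale zero_le_one hs hst
  have h2 := ch_scale (l := 2 ^ n) (by positivity) hs hst
  rw [one_mul, one_mul] at h1
  calc |ph n t - ph n s| = |(ch t - ch s) - (ch (2 ^ n * t) - ch (2 ^ n * s))| := by
        rw [ph, ph]; congr 1; ring
    _ ≤ |ch t - ch s| + |ch (2 ^ n * t) - ch (2 ^ n * s)| := abs_sub _ _
    _ ≤ 2 * |t - s| / |s| + 2 * |t - s| / |s| := add_le_add h1 h2
    _ = _ := by ring

/-- the regularised modulus -/
noncomputable def mo (n : ℕ) (t : ℝ) : ℝ := max |t| ((2 ^ n)⁻¹ / 2)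

theorem mo_pos (n : ℕ) (t : ℝ) : 0 < mo n t := lt_max_of_lt_right (by positivity)
theorem abs_le_mo (n : ℕ) (t : ℝ) : |t| ≤ mo n t := le_max_left _ _
theorem le_mo (n : ℕ) (t : ℝ) : (2 ^ n)⁻¹ / 2 ≤ mo n t := le_max_right _ _

theorem abs_Kn_le (n : ℕ) (t : ℝ) : |Kn n t| ≤ 1 / mo n t := by
  by_cases h : |t| ≤ (2 ^ n)⁻¹ / 2
  · rw [Kn_eq_zero_of_le h, abs_zero]
    exact (div_pos one_pos (mo_pos n t)).le
  · rw [not_le] at h
    have h1 : mo n t = |t| := max_eq_left h.le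
    rw [h1, Kn, abs_div]
    exact div_le_div_of_nonneg_right (abs_ph_le_one n t) (abs_nonneg t)

theorem abs_Kn_mul_le (n : ℕ) (t : ℝ) : |Kn n t| * |t| ≤ 1 := by
  rcases eq_or_ne t 0 with rfl | ht
  · simp
  · rw [← abs_mul, Kn, div_mul_cancel₀ _ ht]
    exact abs_ph_le_one n t

theorem abs_Kn_le_inv (n : ℕ) (t : ℝ) : |Kn n t| ≤ 1 / |t| := by
  rcases eq_or_ne t 0 with rfl | ht
  · simp [Kn]
  · rw [le_div_iff₀ (abs_pos.2 ht)]
    exact abs_Kn_mul_le n t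

theorem abs_Kn_le_pow (n : ℕ) (t : ℝ) : |Kn n t| ≤ 2 * 2 ^ n := by
  refine (abs_Kn_le n t).trans ?_
  rw [div_le_iff₀ (mo_pos n t)]
  have h2 : (2 : ℝ) ^ n * (2 ^ n)⁻¹ = 1 := mul_inv_cancel₀ (by positivity)
  calc (1 : ℝ) = 2 * 2 ^ n * ((2 ^ n)⁻¹ / 2) := by rw [← h2]; ring
    _ ≤ _ := by gcongr; exact le_mo n t

/-- the Hoermander-type bound -/
theorem Kn_diff (n : ℕ) (s t : ℝ) : |Kn n t - Kn n s| ≤ 5 * |t - s| / (mo n t * mo n s) := by
  wlog hst : |t| ≤ |s| generalizing s t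
  · rw [abs_sub_comm, abs_sub_comm t s, mul_comm (mo n t)]
    exact this t s (le_of_not_ge hst)
  have hmt := mo_pos n t
  have hms := mo_pos n s
  by_cases h : |s| ≤ (2 ^ n)⁻¹ / 2
  · rw [Kn_eq_zero_of_le h, Kn_eq_zero_of_le (hst.trans h), sub_zero, abs_zero]
    positivity
  rw [not_le] at h
  have hs0 : 0 < |s| := lt_trans (by positivity) h
  have hs : s ≠ 0 := abs_pos.1 hs0
  have h1 : mo n s = |s| := max_eq_left h.le
  have h2 : mo n t ≤ |s| := max_le hst h.le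
  have h3 := ph_diff (n := n) hs hst
  by_cases h' : |t| ≤ (2 ^ n)⁻¹ / 2
  · rw [Kn_eq_zero_of_le h', zero_sub, abs_neg]
    rw [ph_eq_zero_of_le h', zero_sub, abs_neg] at h3
    rw [Kn, abs_div, h1]
    calc |ph n s| / |s| ≤ 4 * |t - s| / |s| / |s| := by gcongr
      _ = 4 * |t - s| / (|s| * |s|) := by rw [div_div]
      _ ≤ 5 * |t - s| / (mo n t * |s|) := by
          gcongr
          norm_num
  · rw [not_le] at h'
    have ht0 : 0 < |t| := lt_trans (by positivity) h'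
    have ht : t ≠ 0 := abs_pos.1 ht0
    have h4 : mo n t = |t| := max_eq_left h'.le
    rw [h1, h4]
    have h5 : Kn n t - Kn n s = ph n t * ((s - t) / (t * s)) + (ph n t - ph n s) / s := by
      rw [Kn, Kn]
      field_simp
      ring
    rw [h5]
    calc |ph n t * ((s - t) / (t * s)) + (ph n t - ph n s) / s|
        ≤ |ph n t * ((s - t) / (t * s))| + |(ph n t - ph n s) / s| := abs_add_le _ _
      _ = |ph n t| * (|t - s| / (|t| * |s|)) + |ph n t - ph n s| / |s| := by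
          rw [abs_mul, abs_div, abs_div, abs_mul, abs_sub_comm s t]
      _ ≤ 1 * (|t - s| / (|t| * |s|)) + (4 * |t - s| / |s|) / |s| := by
          gcongr
          exact abs_ph_le_one n t
      _ ≤ |t - s| / (|t| * |s|) + 4 * |t - s| / (|t| * |s|) := by
          rw [one_mul, div_div]
          gcongr
      _ = _ := by ring

theorem measurable_Kn (n : ℕ) : Measurable (Kn n) := by
  unfold Kn ph
  exact Measurable.div ((continuous_ch.measurable).sub (continuous_ch.measurable.comp (by fun_prop)))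
    measurable_id

/-- pieces: `φ_n - φ_m` for `m ≤ n` -/
theorem Kn_sub_Kn (m n : ℕ) (t : ℝ) : Kn n t - Kn m t = (ch (2 ^ m * t) - ch (2 ^ n * t)) / t := by
  rw [Kn, Kn, ph, ph, ← sub_div]
  congr 1
  ring

theorem abs_Kn_sub_Kn_le {m n : ℕ} (t : ℝ) : |Kn n t - Kn m t| ≤ 1 / |t| := by
  rcases eq_or_ne t 0 with rfl | ht
  · simp [Kn]
  rw [Kn_sub_Kn, abs_div]
  gcongr
  rw [abs_le]
  constructor <;> linarith [ch_le_one (2 ^ m * t), ch_nonneg (2 ^ m * t), ch_le_one (2 ^ n * t),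
    ch_nonneg (2 ^ n * t)]

theorem Kn_sub_Kn_eq_zero {m n : ℕ} (hmn : m ≤ n) {t : ℝ} (h : (2 ^ m)⁻¹ ≤ |t|) :
    Kn n t - Kn m t = 0 := by
  have h1 : ∀ k, m ≤ k → ch (2 ^ k * t) = 0 := by
    intro k hk
    refine ch_eq_zero ?_
    have h2 : (2 : ℝ) ^ m * (2 ^ m)⁻¹ = 1 := mul_inv_cancel₀ (by positivity)
    have h3 : (2 : ℝ) ^ m ≤ 2 ^ k := pow_le_pow_right₀ (by norm_num) hk
    rw [abs_mul, abs_of_nonneg (by positivity : (0 : ℝ) ≤ 2 ^ k), ← h2]
    exact mul_le_mul h3 h (by positivity) (by positivity)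
  rw [Kn_sub_Kn, h1 m le_rfl, h1 n hmn, sub_self, zero_div]

end Vale.Agent.P112.HL
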