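import Vale.Agent.P112.H967.For724
import Vale.Agent.P112.T580.OpC

/-!
# P112: the literal statements `MaxH` (all `1 < p`) and `MaxHU` (constant `c / (p - 1)^2`)
-/

open MeasureTheory Set Filter Metric
open scoped ENNReal NNReal
open Vale.Agent.P112.HL Vale.Agent.P112.TreeT2

namespace Vale.Agent.P112.HL

theorem maxH (L : ℝ) {p : ℝ} (hp : 1 < p) : ∃ C : ℝ≥0∞, C ≠ ∞ ∧ MaxH p L C := by
  obtain ⟨C, hC, h⟩ := Hs_Lp L hp
  exact ⟨C, hC, fun K hK ho n φ hφ hM _ => h K hK ho n φ hφ hM⟩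

/-- the explicit constant -/
noncomputable def cU (L : ℝ) : ℝ := 384 * (6 * CW L + 6144 * L ^ 2) + 24 * (544 * L + 1) ^ 2

theorem cU_nonneg {L : ℝ} (hL : 0 ≤ L) : 0 ≤ cU L := by
  unfold cU CW
  positivity

theorem maxH_explicit {L : ℝ} (hL : 0 ≤ L) {p : ℝ} (hp : 1 < p) (hp2 : p ≤ 3 / 2) :
    MaxH p L (ENNReal.ofReal (cU L / (p - 1) ^ 2)) := by
  intro K hK ho n φ hφ hM _
  have hCW : 0 ≤ CW L := by unfold CW; positivity
  have hp0 : 0 < p - 1 := by linarith
  obtain ⟨M, hM⟩ := hM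
  have h1 := MK_Lp_of (hK.hk ho) hp (B := CP L p)
    (fun n g hg => SK_Lp_lt_two (hK.hk ho) hp (by linarith) n hg) hφ
  refine (lintegral_mono fun x => ENNReal.rpow_le_rpow (Hs_le_MK hK hφ hM n x)
    (by linarith)).trans (h1.trans ?_)
  gcongr ?_ * _
  have c0 : (1 : ℝ) ≤ 1 / 2 / (p - 1) := by
    rw [le_div_iff₀ hp0]; linarith
  have c1 : (2 : ℝ≥0∞) ^ (p - 1) ≤ ENNReal.ofReal 2 := by
    calc (2 : ℝ≥0∞) ^ (p - 1) ≤ 2 ^ (1 : ℝ) :=
          ENNReal.rpow_le_rpow_of_exponent_le (by norm_num) (by linarith)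
      _ = ENNReal.ofReal 2 := by rw [ENNReal.rpow_one]; norm_num
  have c2 : (4 : ℝ≥0∞) ^ p ≤ ENNReal.ofReal 8 := by
    calc (4 : ℝ≥0∞) ^ p ≤ 4 ^ (3 / 2 : ℝ) :=
          ENNReal.rpow_le_rpow_of_exponent_le (by norm_num) hp2
      _ = ENNReal.ofReal 8 := by
          have : (4 : ℝ≥0∞) = 2 ^ (2 : ℝ) := by norm_num
          rw [this, ← ENNReal.rpow_mul]
          norm_num
  have c3 : CM p ≤ ENNReal.ofReal (24 / (p - 1)) := by
    unfold CM
    apply ENNReal.ofReal_le_ofReal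
    gcongr
    have : (2 : ℝ) ^ (p - 1) ≤ 2 := by
      calc (2 : ℝ) ^ (p - 1) ≤ 2 ^ (1 : ℝ) :=
            Real.rpow_le_rpow_of_exponent_le (by norm_num) (by linarith)
        _ = 2 := Real.rpow_one _
    nlinarith
  have c4 : CP L p ≤ ENNReal.ofReal ((6 * CW L + 6144 * L ^ 2) / (p - 1)) := by
    unfold CP
    rw [← ENNReal.ofReal_add (by positivity) (by
      have : 0 < 2 - p := by linarith
      positivity)]
    apply ENNReal.ofReal_le_ofReal
    rw [add_div]
    refine add_le_add ?_ ?_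
    · refine div_le_div_of_nonneg_right ?_ hp0.le
      nlinarith
    · have h2 : 0 < 2 - p := by linarith
      have h3 : p / (2 - p) ≤ 3 := by
        rw [div_le_iff₀ h2]; linarith
      calc 4096 * L ^ 2 * p / (2 - p) = 4096 * L ^ 2 * (p / (2 - p)) := by ring
        _ ≤ 4096 * L ^ 2 * 3 * (1 / 2 / (p - 1)) := by
            have : 0 ≤ 4096 * L ^ 2 := by positivity
            calc 4096 * L ^ 2 * (p / (2 - p)) ≤ 4096 * L ^ 2 * 3 := by gcongr
              _ ≤ 4096 * L ^ 2 * 3 * (1 / 2 / (p - 1)) :=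
                le_mul_of_one_le_right (by positivity) c0
        _ = 6144 * L ^ 2 / (p - 1) := by
            field_simp
            ring
  have c5 : ENNReal.ofReal (544 * L + 1) ^ p ≤ ENNReal.ofReal ((544 * L + 1) ^ 2) := by
    rw [ENNReal.ofReal_pow (by positivity), ← ENNReal.rpow_two]
    refine ENNReal.rpow_le_rpow_of_exponent_le ?_ (by linarith)
    rw [← ENNReal.ofReal_one]
    exact ENNReal.ofReal_le_ofReal (by linarith [mul_nonneg (by norm_num : (0:ℝ) ≤ 544) hL])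
  calc 2 ^ (p - 1) * (4 ^ p * (CM p * CP L p) + ENNReal.ofReal (544 * L + 1) ^ p * CM p)
      ≤ ENNReal.ofReal 2 * (ENNReal.ofReal 8 * (ENNReal.ofReal (24 / (p - 1)) *
          ENNReal.ofReal ((6 * CW L + 6144 * L ^ 2) / (p - 1))) +
          ENNReal.ofReal ((544 * L + 1) ^ 2) * ENNReal.ofReal (24 / (p - 1))) := by
        gcongr
    _ = ENNReal.ofReal (2 * (8 * (24 / (p - 1) * ((6 * CW L + 6144 * L ^ 2) / (p - 1))) +
          (544 * L + 1) ^ 2 * (24 / (p - 1)))) := by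
        rw [← ENNReal.ofReal_mul (by positivity), ← ENNReal.ofReal_mul (by positivity),
          ← ENNReal.ofReal_mul (by positivity), ← ENNReal.ofReal_add (by positivity)
          (by positivity), ← ENNReal.ofReal_mul (by positivity)]
    _ ≤ ENNReal.ofReal (cU L / (p - 1) ^ 2) := by
        apply ENNReal.ofReal_le_ofReal
        calc 2 * (8 * (24 / (p - 1) * ((6 * CW L + 6144 * L ^ 2) / (p - 1))) +
              (544 * L + 1) ^ 2 * (24 / (p - 1)))
            ≤ 2 * (8 * (24 / (p - 1) * ((6 * CW L + 6144 * L ^ 2) / (p - 1))) +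
              (544 * L + 1) ^ 2 * (24 / (p - 1)) * (1 / 2 / (p - 1))) := by
              have h5 : 0 ≤ (544 * L + 1) ^ 2 * (24 / (p - 1)) := by positivity
              have h6 := le_mul_of_one_le_right h5 c0
              linarith
          _ = cU L / (p - 1) ^ 2 := by
              unfold cU
              field_simp
              ring

theorem maxHU {L : ℝ} (hL : 0 ≤ L) : T580.MaxHU L (cU L) 2 :=
  fun _ hp hp2 => maxH_explicit hL hp hp2

/-- the tree function in `L^q` for all `q ≥ 3`, constant `(C q)^(3 q)`, unconditional -/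
theorem tqUN {M : ℕ} {A C0 : ℝ} (hA : 1 ≤ A) (hC0 : 0 ≤ C0) : T580.TqUN 3 M A C0 :=
  T580.tqUN_of_maxHU hA hC0 (cU_nonneg hC0) (by norm_num) (maxHU hC0)

end Vale.Agent.P112.HL
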