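import Vale.Agent.P112.H967.L2

/-!
# P112: maximal truncated singular integrals on the line (Cotlar's inequality)
-/

open MeasureTheory Set Metric
open scoped ENNReal NNReal Topology

namespace Vale.Agent.P112.HL

open Vale.Agent.P112.H158 (cv nsq n1 Kern)

/-- the Poisson-like kernel `r / max(|t|, r)^2` -/
noncomputable def po (r t : ℝ) : ℝ := r / (max |t| r) ^ 2

theorem po_nonneg {r : ℝ} (hr : 0 < r) (t : ℝ) : 0 ≤ po r t := by unfold po; positivity

/-- averages against the Poisson-like kernel are bounded by the maximal function -/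
theorem po_le {r : ℝ} (hr : 0 < r) {f : ℝ → ℝ≥0∞} (hf : Measurable f) (x : ℝ) :
    ∫⁻ y, ENNReal.ofReal (po r (x - y)) * f y ≤ 16 * MF f x := by
  have h1 : ∀ y, ENNReal.ofReal (po r (x - y)) * f y ≤ ∑' j : ℕ,
      (ball x (2 ^ j * r)).indicator (fun y => ENNReal.ofReal (4 / (4 ^ j * r)) * f y) y := by
    intro y
    -- the first ball containing y
    obtain ⟨j, hj1, hj2⟩ : ∃ j : ℕ, |x - y| < 2 ^ j * r ∧ po r (x - y) ≤ 4 / (4 ^ j * r) := by
      by_cases h0 : |x - y| < r
      · refine ⟨0, by simpa using h0, ?_⟩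
        rw [po, max_eq_right h0.le, pow_zero, one_mul, div_le_div_iff₀ (by positivity) hr]
        nlinarith
      · rw [not_lt] at h0
        have hex : ∃ j : ℕ, |x - y| < 2 ^ j * r := by
          obtain ⟨j, hj⟩ := pow_unbounded_of_one_lt (|x - y| / r) (by norm_num : (1 : ℝ) < 2)
          exact ⟨j, (div_lt_iff₀ hr).1 hj⟩
        classical
        let j := Nat.find hex
        have hj : |x - y| < 2 ^ j * r := Nat.find_spec hex
        have hj0 : j ≠ 0 := by
          intro h
          rw [h, pow_zero, one_mul] at hj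
          linarith
        obtain ⟨i, hi⟩ := Nat.exists_eq_succ_of_ne_zero hj0
        have hi' : ¬ |x - y| < 2 ^ i * r := Nat.find_min hex (by omega)
        rw [not_lt] at hi'
        refine ⟨j, hj, ?_⟩
        have e : (4 : ℝ) ^ j = 4 * (2 ^ i) ^ 2 := by
          rw [hi, pow_succ, ← pow_mul, mul_comm i 2, pow_mul]
          norm_num
          ring
        have hxy : 0 < |x - y| := hr.trans_le h0
        rw [po, max_eq_left h0, e, div_le_div_iff₀ (by positivity) (by positivity)]
        have h3 : (2 ^ i * r) ^ 2 ≤ |x - y| ^ 2 := by gcongr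
        nlinarith
    have h2 : y ∈ ball x (2 ^ j * r) := by
      rw [mem_ball, Real.dist_eq, abs_sub_comm]; exact hj1
    refine le_trans ?_ (ENNReal.le_tsum j)
    rw [indicator_of_mem h2]
    gcongr
  calc ∫⁻ y, ENNReal.ofReal (po r (x - y)) * f y
      ≤ ∫⁻ y, ∑' j : ℕ,
          (ball x (2 ^ j * r)).indicator (fun y => ENNReal.ofReal (4 / (4 ^ j * r)) * f y) y :=
        lintegral_mono h1
    _ = ∑' j : ℕ, ∫⁻ y,
          (ball x (2 ^ j * r)).indicator (fun y => ENNReal.ofReal (4 / (4 ^ j * r)) * f y) y :=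
        lintegral_tsum fun j => ((hf.const_mul _).indicator measurableSet_ball).aemeasurable
    _ ≤ ∑' j : ℕ, ENNReal.ofReal (8 * (1 / 2) ^ j) * MF f x := by
        refine ENNReal.tsum_le_tsum fun j => ?_
        have hjr : 0 < 2 ^ j * r := by positivity
        rw [lintegral_indicator measurableSet_ball, lintegral_const_mul' _ _ ENNReal.ofReal_ne_top]
        have h4 := avg_le_MF f (mem_ball_self (x := x) hjr)
        rw [ENNReal.div_le_iff (by rw [Ne, ENNReal.ofReal_eq_zero]; linarith)
          ENNReal.ofReal_ne_top] at h4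
        calc ENNReal.ofReal (4 / (4 ^ j * r)) * ∫⁻ y in ball x (2 ^ j * r), f y
            ≤ ENNReal.ofReal (4 / (4 ^ j * r)) * (MF f x * ENNReal.ofReal (2 * (2 ^ j * r))) := by
              gcongr
          _ = ENNReal.ofReal (4 / (4 ^ j * r)) * ENNReal.ofReal (2 * (2 ^ j * r)) * MF f x := by
              ring
          _ = ENNReal.ofReal (4 / (4 ^ j * r) * (2 * (2 ^ j * r))) * MF f x := by
              rw [← ENNReal.ofReal_mul (by positivity)]
          _ = _ := by
              congr 2
              rw [show (4 : ℝ) ^ j = 2 ^ j * 2 ^ j by rw [← mul_pow]; norm_num, one_div, inv_pow]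
              field_simp
              norm_num
    _ = 16 * MF f x := by
        rw [ENNReal.tsum_mul_right, ← ENNReal.ofReal_tsum_of_nonneg (fun _ => by positivity)
          ((summable_geometric_two).mul_left 8), tsum_mul_left, tsum_geometric_two]
        norm_num

/-- the tent of height `1/r` and half width `r` -/
noncomputable def tn (r t : ℝ) : ℝ := r⁻¹ * max 0 (1 - |t| / r)

theorem tn_nonneg {r : ℝ} (hr : 0 < r) (t : ℝ) : 0 ≤ tn r t := by unfold tn; positivity
theorem tn_le {r : ℝ} (hr : 0 < r) (t : ℝ) : tn r t ≤ r⁻¹ := by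
  unfold tn
  calc r⁻¹ * max 0 (1 - |t| / r) ≤ r⁻¹ * 1 := by
        gcongr
        exact max_le zero_le_one (by linarith [div_nonneg (abs_nonneg t) hr.le])
    _ = _ := mul_one _

theorem tn_kern {r : ℝ} (hr : 0 < r) : Kern (tn r) r (r⁻¹ ^ 2) := by
  constructor
  · intro x y
    unfold tn
    rw [← mul_sub, abs_mul, abs_of_pos (inv_pos.2 hr), sq, mul_assoc]
    gcongr
    refine (abs_max_sub_max_le_max _ _ _ _).trans (max_le (by simp; positivity) ?_)
    rw [show 1 - |x| / r - (1 - |y| / r) = r⁻¹ * (|y| - |x|) by field_simp; ring, abs_mul,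
      abs_of_pos (inv_pos.2 hr)]
    refine mul_le_mul_of_nonneg_left ?_ (inv_pos.2 hr).le
    rw [abs_sub_comm x y]
    exact abs_abs_sub_abs_le y x
  · intro x hx
    unfold tn
    rw [max_eq_left, mul_zero]
    rw [sub_nonpos, le_div_iff₀ hr]
    linarith

theorem tn_integrable {r : ℝ} (hr : 0 < r) : Integrable (tn r) := (tn_kern hr).integrable

theorem integral_tn {r : ℝ} (hr : 0 < r) : ∫ t, tn r t = 1 := by
  have h0 : ∀ t, tn r t = (Icc (-r) r).indicator (fun t => r⁻¹ * (1 - |t| / r)) t := by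
    intro t
    by_cases ht : t ∈ Icc (-r) r
    · rw [indicator_of_mem ht, tn, max_eq_right]
      rw [sub_nonneg, div_le_one hr]
      exact abs_le.2 ht
    · rw [indicator_of_notMem ht]
      apply (tn_kern hr).supp
      by_contra hc
      rw [not_le] at hc
      exact ht (abs_le.1 hc.le)
  simp only [h0]
  rw [integral_indicator measurableSet_Icc, integral_Icc_eq_integral_Ioc,
    ← intervalIntegral.integral_of_le (by linarith)]
  have h1 : ∫ t in (-r)..0, r⁻¹ * (1 - |t| / r) = 1 / 2 := by
    have : ∫ t in (-r)..0, r⁻¹ * (1 - |t| / r) = ∫ t in (-r)..0, (r⁻¹ + (r⁻¹ ^ 2) * t) := by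
      refine intervalIntegral.integral_congr fun t ht => ?_
      rw [uIcc_of_le (by linarith)] at ht
      rw [abs_of_nonpos ht.2]
      field_simp
      ring
    rw [this, intervalIntegral.integral_add (by simp) (by
      exact (continuous_const.mul continuous_id).intervalIntegrable _ _),
      intervalIntegral.integral_const, intervalIntegral.integral_const_mul, integral_id]
    simp only [smul_eq_mul]
    field_simp
    ring
  have h2 : ∫ t in (0 : ℝ)..r, r⁻¹ * (1 - |t| / r) = 1 / 2 := by
    have : ∫ t in (0 : ℝ)..r, r⁻¹ * (1 - |t| / r) = ∫ t in (0 : ℝ)..r, (r⁻¹ - (r⁻¹ ^ 2) * t) := by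
      refine intervalIntegral.integral_congr fun t ht => ?_
      rw [uIcc_of_le hr.le] at ht
      rw [abs_of_nonneg ht.1]
      field_simp
    rw [this, intervalIntegral.integral_sub (by simp) (by
      exact (continuous_const.mul continuous_id).intervalIntegrable _ _),
      intervalIntegral.integral_const, intervalIntegral.integral_const_mul, integral_id]
    simp only [smul_eq_mul]
    field_simp
    ring
  have hc : ∀ a b : ℝ, IntervalIntegrable (fun t => r⁻¹ * (1 - |t| / r)) volume a b := by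
    intro a b
    apply Continuous.intervalIntegrable
    fun_prop
  rw [← intervalIntegral.integral_add_adjacent_intervals (hc _ 0) (hc 0 _), h1, h2]
  norm_num

variable {K : ℝ → ℝ} {M : ℝ}

theorem SK_integrable (h : HK K M) (a b : ℕ) : Integrable (SK K a b) := by
  refine (continuous_SK h a b).integrable_of_hasCompactSupport
    (HasCompactSupport.intro (isCompact_Icc (a := -1) (b := 1)) fun x hx => ?_)
  apply SK_supp_one h
  by_contra hc
  rw [not_le] at hc
  exact hx (abs_le.1 hc.le)

theorem SK_memLp (h : HK K M) (a b : ℕ) (p : ℝ≥0∞) : MemLp (SK K a b) p volume := by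
  refine (continuous_SK h a b).memLp_of_hasCompactSupport
    (HasCompactSupport.intro (isCompact_Icc (a := -1) (b := 1)) fun x hx => ?_)
  apply SK_supp_one h
  by_contra hc
  rw [not_le] at hc
  exact hx (abs_le.1 hc.le)

theorem integral_SK (h : HK K M) (a b : ℕ) : ∫ t, SK K a b t = 0 := by
  have h1 : ∫ x, SK K a b (-x) = ∫ x, SK K a b x := integral_neg_eq_self (SK K a b) volume
  simp only [SK_neg h, integral_neg] at h1
  linarith

/-- the coarse part is almost unchanged by smoothing -/
theorem coarse (h : HK K M) (m : ℕ) (t : ℝ) :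
    |SK K 0 m t - cv (tn (2 ^ m)⁻¹) (SK K 0 m) t| ≤ 6 * M * po (2 ^ m)⁻¹ t := by
  have hM := h.M_nonneg
  set r : ℝ := (2 ^ m)⁻¹ with hr
  have hr0 : 0 < r := by positivity
  have hi : ∀ t : ℝ, Integrable fun s => tn r (t - s) * SK K 0 m s := by
    intro t
    have h1 := (tn_integrable hr0).comp_sub_left t
    refine h1.mul_bdd (c := M * 2 ^ m) (continuous_SK h 0 m).aestronglyMeasurable
      (Filter.Eventually.of_forall fun s => ?_)
    rw [Real.norm_eq_abs]
    exact abs_SK_le h 0 m s
  have e1 : SK K 0 m t - cv (tn r) (SK K 0 m) t =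
      ∫ s, tn r (t - s) * (SK K 0 m t - SK K 0 m s) := by
    have e2 : ∫ s, tn r (t - s) * SK K 0 m t = SK K 0 m t := by
      rw [integral_mul_const, integral_sub_left_eq_self, integral_tn hr0, one_mul]
    nth_rewrite 1 [← e2]
    rw [cv, ← integral_sub (((tn_integrable hr0).comp_sub_left t).mul_const _) (hi t)]
    refine integral_congr_ae (Filter.Eventually.of_forall fun s => ?_)
    simp only []
    ring
  rw [e1]
  have hb : ∀ s, ‖tn r (t - s) * (SK K 0 m t - SK K 0 m s)‖ ≤
      tn r (t - s) * (6 * M * po r t) := by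
    intro s
    rw [norm_mul, Real.norm_of_nonneg (tn_nonneg hr0 _), Real.norm_eq_abs]
    by_cases hs : r ≤ |t - s|
    · rw [(tn_kern hr0).supp _ hs, zero_mul, zero_mul]
    rw [not_le] at hs
    refine mul_le_mul_of_nonneg_left ?_ (tn_nonneg hr0 _)
    by_cases ht : 2 * r ≤ |t|
    · have h1 : |t| - |t - s| ≤ |s| := by
        have := abs_sub_abs_le_abs_sub t (t - s)
        rwa [show t - (t - s) = s by ring] at this
      have h2 : |t| / 2 ≤ |s| := by linarith
      have ht0 : 0 < |t| := by linarith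
      have h3 := SK_diff h 0 m (r := |t| / 2) (s := s) (t := t) (by positivity) (Or.inl h2)
        (Or.inl (by linarith))
      refine h3.trans ?_
      rw [po, max_eq_left (by linarith : r ≤ |t|)]
      calc 4 / 3 * M * |t - s| / (|t| / 2) ^ 2 ≤ 4 / 3 * M * r / (|t| / 2) ^ 2 := by gcongr
        _ = 16 / 3 * (M * (r / |t| ^ 2)) := by field_simp; ring
        _ ≤ 6 * (M * (r / |t| ^ 2)) := by
            have : 0 ≤ M * (r / |t| ^ 2) := by positivity
            nlinarith
        _ = _ := by ring
    · rw [not_le] at ht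
      have h3 := SK_diff h 0 m (r := r) (s := s) (t := t) hr0 (Or.inr le_rfl) (Or.inr le_rfl)
      refine h3.trans ?_
      have h4 : (max |t| r) ^ 2 ≤ 4 * r ^ 2 := by
        have h5 : max |t| r ≤ 2 * r := max_le ht.le (by linarith)
        have h6 : 0 ≤ max |t| r := le_max_of_le_right hr0.le
        nlinarith
      rw [po]
      calc 4 / 3 * M * |t - s| / r ^ 2 ≤ 4 / 3 * M * r / r ^ 2 := by gcongr
        _ = 16 / 3 * (M * (r / (4 * r ^ 2))) := by field_simp; ring
        _ ≤ 16 / 3 * (M * (r / (max |t| r) ^ 2)) := by gcongr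
        _ ≤ 6 * (M * (r / (max |t| r) ^ 2)) := by
            have : 0 ≤ M * (r / (max |t| r) ^ 2) := by positivity
            nlinarith
        _ = _ := by ring
  rw [← Real.norm_eq_abs]
  refine (norm_integral_le_of_norm_le (((tn_integrable hr0).comp_sub_left t).mul_const _)
    (Filter.Eventually.of_forall hb)).trans (le_of_eq ?_)
  rw [integral_mul_const, integral_sub_left_eq_self, integral_tn hr0, one_mul]

/-- the fine part is small after smoothing -/
theorem fine (h : HK K M) (m n : ℕ) (t : ℝ) :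
    |cv (tn (2 ^ m)⁻¹) (SK K m n) t| ≤ 11 * M * po (2 ^ m)⁻¹ t := by
  have hM := h.M_nonneg
  set r : ℝ := (2 ^ m)⁻¹ with hr
  have hr0 : 0 < r := by positivity
  by_cases ht : 2 * r ≤ |t|
  · -- disjoint supports
    have : cv (tn r) (SK K m n) t = 0 := by
      rw [cv, integral_eq_zero_of_ae]
      refine Filter.Eventually.of_forall fun s => ?_
      simp only [Pi.zero_apply]
      by_cases hs : r ≤ |s|
      · rw [SK_supp h hs, mul_zero]
      · rw [not_le] at hs
        rw [(tn_kern hr0).supp, zero_mul]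
        have := abs_sub_abs_le_abs_sub t s
        linarith
    rw [this, abs_zero]
    have := po_nonneg hr0 t
    positivity
  rw [not_le] at ht
  have hi : Integrable fun s => tn r (t - s) * SK K m n s := by
    have h1 := (tn_integrable hr0).comp_sub_left t
    refine h1.mul_bdd (c := M * 2 ^ n) (continuous_SK h m n).aestronglyMeasurable
      (Filter.Eventually.of_forall fun s => ?_)
    rw [Real.norm_eq_abs]
    exact abs_SK_le h m n s
  have e1 : cv (tn r) (SK K m n) t = ∫ s, (tn r (t - s) - tn r t) * SK K m n s := by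
    have e2 : ∫ s, tn r t * SK K m n s = 0 := by
      rw [integral_const_mul, integral_SK h, mul_zero]
    rw [cv, ← sub_zero (∫ z, _), ← e2, ← integral_sub hi ((SK_integrable h m n).const_mul _)]
    refine integral_congr_ae (Filter.Eventually.of_forall fun s => ?_)
    simp only []
    ring
  have hb : ∀ s, ‖(tn r (t - s) - tn r t) * SK K m n s‖ ≤
      (Icc (-r) r).indicator (fun _ => 4 / 3 * M * r⁻¹ ^ 2) s := by
    intro s
    rw [norm_mul, Real.norm_eq_abs, Real.norm_eq_abs]
    by_cases hs : s ∈ Icc (-r) r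
    · rw [indicator_of_mem hs]
      have h1 := (tn_kern hr0).lip (t - s) t
      rw [show t - s - t = -s by ring, abs_neg] at h1
      calc |tn r (t - s) - tn r t| * |SK K m n s| ≤ (r⁻¹ ^ 2 * |s|) * |SK K m n s| := by gcongr
        _ = (|SK K m n s| * |s|) * r⁻¹ ^ 2 := by ring
        _ ≤ _ := mul_le_mul_of_nonneg_right (abs_SK_mul_le h m n s) (by positivity)
    · rw [indicator_of_notMem hs, SK_supp h, abs_zero, mul_zero]
      by_contra hc
      rw [not_le] at hc
      exact hs (abs_le.1 hc.le)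
  have h4 : (max |t| r) ^ 2 ≤ 4 * r ^ 2 := by
    have h5 : max |t| r ≤ 2 * r := max_le ht.le (by linarith)
    have h6 : 0 ≤ max |t| r := le_max_of_le_right hr0.le
    nlinarith
  have hmax : 0 < max |t| r := lt_max_of_lt_right hr0
  rw [e1, ← Real.norm_eq_abs]
  refine (norm_integral_le_of_norm_le ((integrable_indicator_iff measurableSet_Icc).2
    (integrableOn_const (by simp))) (Filter.Eventually.of_forall hb)).trans ?_
  rw [integral_indicator measurableSet_Icc, setIntegral_const, po]
  simp only [Real.volume_real_Icc, smul_eq_mul]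
  rw [max_eq_left (by linarith : (0 : ℝ) ≤ r - -r)]
  calc (r - -r) * (4 / 3 * M * r⁻¹ ^ 2) = 32 / 3 * (M * (r / (4 * r ^ 2))) := by
        field_simp; ring
    _ ≤ 32 / 3 * (M * (r / (max |t| r) ^ 2)) := by gcongr
    _ ≤ 11 * (M * (r / (max |t| r) ^ 2)) := by
        have : 0 ≤ M * (r / (max |t| r) ^ 2) := by positivity
        nlinarith
    _ = _ := by ring

theorem integrable_cv {D f : ℝ → ℝ} (hD : MemLp D 2 volume) (hf : MemLp f 2 volume) (x : ℝ) :
    Integrable fun y => D (x - y) * f y := by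
  have h1 : MemLp (fun y => D (x - y)) 2 volume :=
    hD.comp_measurePreserving (Measure.measurePreserving_sub_left volume x)
  exact h1.integrable_mul hf

/-- **Cotlar's inequality.** -/
theorem cotlar (h : HK K M) {m n : ℕ} (hmn : m ≤ n) {f : ℝ → ℝ} (hf : Measurable f)
    (hf2 : MemLp f 2 volume) (x : ℝ) :
    ‖cv (SK K 0 m) f x‖ₑ ≤ 2 * MF (fun y => ‖cv (SK K 0 n) f y‖ₑ) x +
      ENNReal.ofReal (272 * M) * MF (fun y => ‖f y‖ₑ) x := by
  have hM := h.M_nonneg
  set r : ℝ := (2 ^ m)⁻¹ with hr
  have hr0 : 0 < r := by positivity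
  have hρm : Measurable (tn r) := (tn_kern hr0).continuous.measurable
  have hρ2 : MemLp (tn r) 2 volume :=
    (tn_kern hr0).continuous.memLp_of_hasCompactSupport (tn_kern hr0).hasCompactSupport
  have hS : ∀ a b : ℕ, Measurable (SK K a b) := fun a b => (continuous_SK h a b).measurable
  have hn1 : ∀ a b : ℕ, n1 (SK K a b) < ⊤ := fun a b => (SK_integrable h a b).2
  have hρn1 : n1 (tn r) < ⊤ := (tn_integrable hr0).2
  -- smoothing commutes
  have e1 : cv (tn r) (cv (SK K 0 n) f) x = cv (cv (tn r) (SK K 0 n)) f x :=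
    H158.cv_cv hρm (hS 0 n) hf (hn1 0 n) hρ2 hf2 x
  have e2 : ∀ t, cv (tn r) (SK K 0 n) t = cv (tn r) (SK K 0 m) t + cv (tn r) (SK K m n) t := by
    intro t
    have hi : ∀ a b : ℕ, Integrable fun s => tn r (t - s) * SK K a b s := fun a b =>
      integrable_cv hρ2 (SK_memLp h a b 2) t
    rw [cv, cv, cv, ← integral_add (hi 0 m) (hi m n)]
    refine integral_congr_ae (Filter.Eventually.of_forall fun s => ?_)
    simp only []
    rw [← SK_add (Nat.zero_le m) hmn s]
    ring
  have hcm : MemLp (cv (tn r) (SK K 0 n)) 2 volume :=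
    H158.memLp_cv hρm (hS 0 n) hρn1 (SK_memLp h 0 n 2)
  have e3 : cv (SK K 0 m) f x = cv (tn r) (cv (SK K 0 n) f) x +
      ∫ y, (SK K 0 m (x - y) - cv (tn r) (SK K 0 n) (x - y)) * f y := by
    rw [e1]
    have h1 := integrable_cv (SK_memLp h 0 m 2) hf2 x
    have h2 := integrable_cv hcm hf2 x
    have h3 : ∫ y, (SK K 0 m (x - y) - cv (tn r) (SK K 0 n) (x - y)) * f y =
        (∫ y, SK K 0 m (x - y) * f y) - ∫ y, cv (tn r) (SK K 0 n) (x - y) * f y := by
      rw [← integral_sub h1 h2]
      refine integral_congr_ae (Filter.Eventually.of_forall fun s => ?_)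
      simp only []
      ring
    rw [h3, cv, cv]
    ring
  have hE : ∀ t, |SK K 0 m t - cv (tn r) (SK K 0 n) t| ≤ 17 * M * po r t := by
    intro t
    rw [e2]
    have h1 := coarse h m t
    have h2 := fine h m n t
    rw [← hr] at h1 h2
    calc |SK K 0 m t - (cv (tn r) (SK K 0 m) t + cv (tn r) (SK K m n) t)|
        = |(SK K 0 m t - cv (tn r) (SK K 0 m) t) - cv (tn r) (SK K m n) t| := by
          congr 1; ring
      _ ≤ |SK K 0 m t - cv (tn r) (SK K 0 m) t| + |cv (tn r) (SK K m n) t| := abs_sub _ _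
      _ ≤ 6 * M * po r t + 11 * M * po r t := add_le_add h1 h2
      _ = _ := by ring
  rw [e3]
  refine (enorm_add_le _ _).trans (add_le_add ?_ ?_)
  · -- the smoothed full operator
    refine (H158.enorm_cv_le _ _ _).trans ?_
    have h4 : ∀ y, ‖tn r (x - y)‖ₑ * ‖cv (SK K 0 n) f y‖ₑ ≤
        (ball x r).indicator (fun y => ENNReal.ofReal r⁻¹ * ‖cv (SK K 0 n) f y‖ₑ) y := by
      intro y
      by_cases hy : y ∈ ball x r
      · rw [indicator_of_mem hy]
        gcongr
        rw [← ofReal_norm, Real.norm_of_nonneg (tn_nonneg hr0 _)]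
        exact ENNReal.ofReal_le_ofReal (tn_le hr0 _)
      · rw [indicator_of_notMem hy, (tn_kern hr0).supp]
        · simp
        · rw [mem_ball, Real.dist_eq, not_lt, abs_sub_comm] at hy
          exact hy
    refine (lintegral_mono h4).trans ?_
    rw [lintegral_indicator measurableSet_ball, lintegral_const_mul' _ _ ENNReal.ofReal_ne_top]
    have h5 := avg_le_MF (fun y => ‖cv (SK K 0 n) f y‖ₑ) (mem_ball_self (x := x) hr0)
    rw [ENNReal.div_le_iff (by rw [Ne, ENNReal.ofReal_eq_zero]; linarith)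
      ENNReal.ofReal_ne_top] at h5
    calc ENNReal.ofReal r⁻¹ * ∫⁻ y in ball x r, ‖cv (SK K 0 n) f y‖ₑ
        ≤ ENNReal.ofReal r⁻¹ * (MF (fun y => ‖cv (SK K 0 n) f y‖ₑ) x *
            ENNReal.ofReal (2 * r)) := by gcongr
      _ = ENNReal.ofReal r⁻¹ * ENNReal.ofReal (2 * r) *
            MF (fun y => ‖cv (SK K 0 n) f y‖ₑ) x := by ring
      _ = 2 * MF (fun y => ‖cv (SK K 0 n) f y‖ₑ) x := by
          rw [← ENNReal.ofReal_mul (by positivity)]
          rw [show r⁻¹ * (2 * r) = 2 by field_simp]
          norm_num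
  · refine (enorm_integral_le_lintegral_enorm _).trans ?_
    have h6 : ∀ y, ‖(SK K 0 m (x - y) - cv (tn r) (SK K 0 n) (x - y)) * f y‖ₑ ≤
        ENNReal.ofReal (17 * M) * (ENNReal.ofReal (po r (x - y)) * ‖f y‖ₑ) := by
      intro y
      rw [enorm_mul, ← mul_assoc, ← ENNReal.ofReal_mul (by positivity)]
      gcongr
      rw [← ofReal_norm, Real.norm_eq_abs]
      exact ENNReal.ofReal_le_ofReal (hE _)
    refine (lintegral_mono h6).trans ?_
    rw [lintegral_const_mul' _ _ ENNReal.ofReal_ne_top]
    calc ENNReal.ofReal (17 * M) * ∫⁻ y, ENNReal.ofReal (po r (x - y)) * ‖f y‖ₑ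
        ≤ ENNReal.ofReal (17 * M) * (16 * MF (fun y => ‖f y‖ₑ) x) := by
          gcongr
          exact po_le hr0 (by fun_prop) x
      _ = _ := by
          rw [← mul_assoc, show (16 : ℝ≥0∞) = ENNReal.ofReal 16 by norm_num,
            ← ENNReal.ofReal_mul (by positivity)]
          congr 2
          ring

/-- the maximal truncated singular integral: all partial sums `∑_{a ≤ j < b} K_j * f` -/
noncomputable def MK (K : ℝ → ℝ) (f : ℝ → ℝ) (x : ℝ) : ℝ≥0∞ :=
  ⨆ (a : ℕ) (b : ℕ), ‖cv (SK K a b) f x‖ₑ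

/-- the same with at most `n` scales -/
noncomputable def MKn (K : ℝ → ℝ) (n : ℕ) (f : ℝ → ℝ) (x : ℝ) : ℝ≥0∞ :=
  ⨆ (a : ℕ) (b : ℕ) (_ : a ≤ b ∧ b ≤ n), ‖cv (SK K a b) f x‖ₑ

theorem SK_of_le {a b : ℕ} (hab : b ≤ a) (t : ℝ) : SK K a b t = 0 := by
  rw [SK, Finset.Ico_eq_empty (by omega), Finset.sum_empty]

theorem MK_eq (K f : ℝ → ℝ) (x : ℝ) : MK K f x = ⨆ n, MKn K n f x := by
  apply le_antisymm
  · refine iSup_le fun a => iSup_le fun b => ?_
    by_cases hab : a ≤ b
    · exact le_iSup_of_le b (le_iSup_of_le a (le_iSup_of_le b (le_iSup_of_le ⟨hab, le_rfl⟩ le_rfl)))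
    · have : cv (SK K a b) f x = 0 := by
        rw [cv, integral_eq_zero_of_ae]
        refine Filter.Eventually.of_forall fun y => ?_
        simp only [Pi.zero_apply]
        rw [SK_of_le (by omega), zero_mul]
      rw [this]
      simp
  · refine iSup_le fun n => iSup_le fun a => iSup_le fun b => iSup_le fun _ => ?_
    exact le_iSup_of_le a (le_iSup_of_le b le_rfl)

theorem monotone_MKn (K f : ℝ → ℝ) (x : ℝ) : Monotone fun n => MKn K n f x := by
  intro n m hnm
  refine iSup_mono fun a => iSup_mono fun b => ?_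
  refine iSup_mono' fun h => ⟨⟨h.1, h.2.trans hnm⟩, le_rfl⟩

theorem measurable_MKn (h : HK K M) (n : ℕ) {f : ℝ → ℝ} (hf : Measurable f) :
    Measurable (MKn K n f) := by
  refine Measurable.iSup fun a => Measurable.iSup fun b => Measurable.iSup fun _ => ?_
  exact (H158.measurable_cv (continuous_SK h a b).measurable hf).enorm

theorem measurable_MK (h : HK K M) {f : ℝ → ℝ} (hf : Measurable f) : Measurable (MK K f) := by
  refine Measurable.iSup fun a => Measurable.iSup fun b => ?_
  exact (H158.measurable_cv (continuous_SK h a b).measurable hf).enorm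

/-- pointwise control of the maximal operator with `n` scales -/
theorem MKn_le (h : HK K M) (n : ℕ) {f : ℝ → ℝ} (hf : Measurable f)
    (hf2 : MemLp f 2 volume) (x : ℝ) :
    MKn K n f x ≤ 4 * MF (fun y => ‖cv (SK K 0 n) f y‖ₑ) x +
      ENNReal.ofReal (544 * M) * MF (fun y => ‖f y‖ₑ) x := by
  refine iSup_le fun a => iSup_le fun b => iSup_le fun hab => ?_
  have e : cv (SK K a b) f x = cv (SK K 0 b) f x - cv (SK K 0 a) f x := by
    have h1 := integrable_cv (SK_memLp h 0 b 2) hf2 x
    have h2 := integrable_cv (SK_memLp h 0 a 2) hf2 x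
    rw [cv, cv, cv, ← integral_sub h1 h2]
    refine integral_congr_ae (Filter.Eventually.of_forall fun s => ?_)
    simp only []
    rw [← SK_add (Nat.zero_le a) hab.1 (x - s)]
    ring
  have h1 := cotlar h hab.2 hf hf2 x
  have h2 := cotlar h (hab.1.trans hab.2) hf hf2 x
  rw [e]
  refine (enorm_sub_le).trans ((add_le_add h1 h2).trans (le_of_eq ?_))
  rw [show (544 : ℝ) * M = 272 * M + 272 * M by ring,
    ENNReal.ofReal_add (by linarith [mul_nonneg (by norm_num : (0 : ℝ) ≤ 272) h.M_nonneg])
      (by linarith [mul_nonneg (by norm_num : (0 : ℝ) ≤ 272) h.M_nonneg])]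
  ring

end Vale.Agent.P112.HL
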