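import Vale.Agent.P112.H967.MaxHU
import Vale.Agent.P112.T580.Amp5

/-!
# P112, chapter (T): the tree function in `L^q`, constant explicit in the slope tolerance `A`

`tqA`: `∫ |FS|^q ≤ (C A⁴ q³ δ)^(q-1) ∫_Un |g|^q` for all `q ≥ 3`, `A ≥ 1`; `C` depends on `C0` only.
`tqA1`: the same for one kernel `κ`, without density hypothesis.
-/

namespace Vale.Agent.P112.HL

open MeasureTheory Set
open scoped ENNReal NNReal

open Vale.Agent.P112.T (Ker Nice Field Un)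
open T580 (TreeN)

/-- the tree function in `L^q` for all `q ≥ 3`, polynomial in the slope tolerance `A` -/
theorem tqA {C0 : ℝ} (hC0 : 0 ≤ C0) : ∃ C : ℝ, 1 ≤ C ∧ ∀ (M : ℕ) (A : ℝ), 1 ≤ A →
    ∀ q : ℝ, 3 ≤ q → ∀ (N : ℝ) (κ : Ker M), κ.Bd N C0 → ∀ (τ : ℝ) (u : ℝ × ℝ → ℝ), Field u →
    ∀ (n : ℕ) (E : ℕ → Set (ℝ × ℝ)) (s δ : ℝ), TreeN N A δ τ s u n E →
    ∀ g : ℝ × ℝ → ℝ, Nice g →
      ∫⁻ ζ, ‖κ.FS u g E n ζ‖ₑ ^ q ≤
        ENNReal.ofReal ((C * A ^ 4 * q ^ 3 * δ) ^ (q - 1)) * ∫⁻ z in Un E n, ‖g z‖ₑ ^ q := by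
  have hcU := cU_nonneg hC0
  set D : ℝ := 1 + 8 * (C0 + 20 * C0 ^ 2) with hD
  have hD1 : 1 ≤ D := by
    have : 0 ≤ 8 * (C0 + 20 * C0 ^ 2) := by positivity
    linarith
  refine ⟨96 * D ^ 2 * (cU C0 + 24), ?_, ?_⟩
  · have h1 : 1 ≤ D ^ 2 := one_le_pow₀ hD1
    nlinarith
  intro M A hA q hq N κ hκ τ u hu n E s δ hT g hg
  have hδ := hT.pos
  set p : ℝ := q / (q - 1) with hp
  have hq1 : 0 < q - 1 := by linarith
  have hpq : p.HolderConjugate q := by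
    rw [Real.holderConjugate_iff]
    refine ⟨by rw [hp, lt_div_iff₀ hq1]; linarith, ?_⟩
    rw [hp]
    field_simp
    ring
  have hp2 : p ≤ 3 / 2 := by
    rw [hp, div_le_iff₀ hq1]; linarith
  have hpm : p - 1 = 1 / (q - 1) := by
    rw [hp]; field_simp; ring
  refine (T580.tq_explicit hpq hA (maxHU hC0 p hpq.lt hp2) hκ hu hT hg).trans ?_
  gcongr
  have h1 := T580.cT_le (k := 2) hA hC0 hcU (by norm_num) hpq.lt hp2
  rw [hpm] at h1
  set B : ℝ := (C0 * (1 + 8 * C0) + 12 * (C0 * A) * C0) * (2 * (A + 3)) with hB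
  have hB0 : 0 ≤ B := by positivity
  have hBD : 1 + B ≤ D * A ^ 2 := by
    have e1 : C0 * (1 + 8 * C0) + 12 * (C0 * A) * C0 ≤ (C0 + 20 * C0 ^ 2) * A := by
      nlinarith [mul_nonneg hC0 (sub_nonneg.2 hA), mul_nonneg (sq_nonneg C0) (sub_nonneg.2 hA)]
    have e2 : 2 * (A + 3) ≤ 8 * A := by linarith
    have e3 : B ≤ ((C0 + 20 * C0 ^ 2) * A) * (8 * A) := by
      rw [hB]
      apply mul_le_mul e1 e2 (by linarith) (by positivity)
    have e4 : 1 ≤ A ^ 2 := one_le_pow₀ hA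
    have e5 : D * A ^ 2 = A ^ 2 + ((C0 + 20 * C0 ^ 2) * A) * (8 * A) := by
      rw [hD]; ring
    rw [e5]
    linarith
  have hB2 : (1 + B) ^ 2 ≤ D ^ 2 * A ^ 4 := by
    calc (1 + B) ^ 2 ≤ (D * A ^ 2) ^ 2 := by gcongr
      _ = D ^ 2 * A ^ 4 := by ring
  have h2 : 96 * (1 + B) ^ 2 * (cU C0 + 24) / (1 / (q - 1)) ^ (2 + 1) ≤
      96 * D ^ 2 * (cU C0 + 24) * A ^ 4 * q ^ 3 := by
    have e1 : 96 * (1 + B) ^ 2 * (cU C0 + 24) / (1 / (q - 1)) ^ (2 + 1) =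
        96 * (1 + B) ^ 2 * (cU C0 + 24) * (q - 1) ^ 3 := by
      rw [one_div, inv_pow, div_inv_eq_mul]
    rw [e1]
    have e2 : (q - 1) ^ 3 ≤ q ^ 3 := by gcongr; linarith
    calc 96 * (1 + B) ^ 2 * (cU C0 + 24) * (q - 1) ^ 3
        ≤ 96 * (D ^ 2 * A ^ 4) * (cU C0 + 24) * q ^ 3 := by gcongr
      _ = _ := by ring
  calc (T580.cT p A C0 (ENNReal.ofReal (cU C0 / (p - 1) ^ 2)) * ENNReal.ofReal δ) ^ (q - 1)
      ≤ (ENNReal.ofReal (96 * D ^ 2 * (cU C0 + 24) * A ^ 4 * q ^ 3) *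
          ENNReal.ofReal δ) ^ (q - 1) := by
        rw [hpm]
        gcongr
        exact h1.trans (ENNReal.ofReal_le_ofReal h2)
    _ = ENNReal.ofReal ((96 * D ^ 2 * (cU C0 + 24) * A ^ 4 * q ^ 3 * δ) ^ (q - 1)) := by
        rw [← ENNReal.ofReal_mul (by positivity),
          ENNReal.ofReal_rpow_of_nonneg (by positivity) hq1.le]

theorem q_dist' {τ : ℝ} {i : ℕ} {x x' : ℝ} (h : T.q τ i x = T.q τ i x') :
    |x - x'| ≤ 1 / 2 ^ i := by
  unfold T.q at h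
  have h1 := Int.abs_sub_lt_one_of_floor_eq_floor h
  rw [← mul_sub, abs_mul, abs_of_pos (by positivity : (0 : ℝ) < 2 ^ i)] at h1
  rw [le_div_iff₀ (by positivity)]
  have h2 : x - τ - (x' - τ) = x - x' := by ring
  rw [h2] at h1
  linarith

/-- a strip over an interval -/
theorem vol_strip (s a r c w : ℝ) (hr : 0 ≤ r) :
    volume {z : ℝ × ℝ | |z.1 - a| ≤ r ∧ |(z.2 - s * z.1) - c| ≤ w} ≤
      ENNReal.ofReal (4 * r * w) := by
  have hm : MeasurableSet {z : ℝ × ℝ | |z.1 - a| ≤ r ∧ |(z.2 - s * z.1) - c| ≤ w} := by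
    have e1 : Measurable fun z : ℝ × ℝ => |z.1 - a| := by fun_prop
    have e2 : Measurable fun z : ℝ × ℝ => |(z.2 - s * z.1) - c| := by fun_prop
    exact (measurableSet_le e1 measurable_const).inter (measurableSet_le e2 measurable_const)
  rw [Measure.volume_eq_prod, Measure.prod_apply hm]
  have h1 : ∀ x : ℝ, volume (Prod.mk x ⁻¹' {z : ℝ × ℝ | |z.1 - a| ≤ r ∧
      |(z.2 - s * z.1) - c| ≤ w}) ≤
      (Metric.closedBall a r).indicator (fun _ => ENNReal.ofReal (2 * w)) x := by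
    intro x
    by_cases hx : x ∈ Metric.closedBall a r
    · rw [indicator_of_mem hx]
      calc volume (Prod.mk x ⁻¹' {z : ℝ × ℝ | |z.1 - a| ≤ r ∧ |(z.2 - s * z.1) - c| ≤ w})
          ≤ volume (Metric.closedBall (c + s * x) w) := by
            apply measure_mono
            intro y hy
            simp only [mem_preimage, mem_ofPred_eq] at hy
            rw [Metric.mem_closedBall, Real.dist_eq]
            have : y - (c + s * x) = y - s * x - c := by ring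
            rw [this]
            exact hy.2
        _ = ENNReal.ofReal (2 * w) := Real.volume_closedBall _ _
    · rw [indicator_of_notMem hx]
      have : Prod.mk x ⁻¹' {z : ℝ × ℝ | |z.1 - a| ≤ r ∧ |(z.2 - s * z.1) - c| ≤ w} = ∅ := by
        rw [eq_empty_iff_forall_notMem]
        intro y hy
        simp only [mem_preimage, mem_ofPred_eq] at hy
        exact hx (by rw [Metric.mem_closedBall, Real.dist_eq]; exact hy.1)
      rw [this, measure_empty]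
  calc ∫⁻ x, volume (Prod.mk x ⁻¹' {z : ℝ × ℝ | |z.1 - a| ≤ r ∧ |(z.2 - s * z.1) - c| ≤ w})
      ≤ ∫⁻ x, (Metric.closedBall a r).indicator (fun _ => ENNReal.ofReal (2 * w)) x :=
        lintegral_mono h1
    _ = ENNReal.ofReal (2 * w) * volume (Metric.closedBall a r) := by
        rw [lintegral_indicator Metric.isClosed_closedBall.measurableSet, setLIntegral_const]
    _ = ENNReal.ofReal (4 * r * w) := by
        rw [Real.volume_closedBall, mul_comm, ← ENNReal.ofReal_mul (by positivity)]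
        congr 1
        ring

/-- every convex family of pairs below one line is a tree, density `4` -/
theorem treeN_four {N A τ s : ℝ} {u : ℝ × ℝ → ℝ} {n : ℕ} {E : ℕ → Set (ℝ × ℝ)}
    (hE : ∀ j, MeasurableSet (E j)) (hs : ∀ j < n, ∀ z ∈ E j, |u z - s| ≤ A * 2 ^ j / N)
    (hc : ∀ z, ∀ i j k : ℕ, i ≤ j → j ≤ k → k < n → z ∈ E i → z ∈ E k → z ∈ E j) :
    TreeN N A 4 τ s u n E where
  meas := hE
  slope := hs
  conv := hc
  pos := by norm_num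
  dens := by
    intro j1 _ z1 _ i _
    refine (measure_mono ?_).trans ((vol_strip s z1.1 (1 / 2 ^ i) (z1.2 - s * z1.1) 1
      (by positivity)).trans (le_of_eq ?_))
    · rintro z ⟨_, h2, h3, _⟩
      exact ⟨q_dist' h2, h3⟩
    · congr 1
      ring

/-- the tree function in `L^q` for one kernel, no density hypothesis -/
theorem tqA1 {M : ℕ} (κ : Ker M) : ∃ C : ℝ, 1 ≤ C ∧ ∀ A : ℝ, 1 ≤ A → ∀ q : ℝ, 3 ≤ q →
    ∀ u : ℝ × ℝ → ℝ, Field u → ∀ (n : ℕ) (E : ℕ → Set (ℝ × ℝ)) (s : ℝ),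
    (∀ j, MeasurableSet (E j)) → (∀ j < n, ∀ z ∈ E j, |u z - s| ≤ A * 2 ^ j) →
    (∀ z, ∀ i j k : ℕ, i ≤ j → j ≤ k → k < n → z ∈ E i → z ∈ E k → z ∈ E j) →
    ∀ g : ℝ × ℝ → ℝ, Nice g →
      ∫⁻ ζ, ‖κ.FS u g E n ζ‖ₑ ^ q ≤
        ENNReal.ofReal ((C * A ^ 4 * q ^ 3) ^ (q - 1)) * ∫⁻ z in Un E n, ‖g z‖ₑ ^ q := by
  obtain ⟨C0, hC0, hκ⟩ : ∃ C0 : ℝ, 0 ≤ C0 ∧ κ.Bd 1 C0 := by
    obtain ⟨C0, h1, h2, -⟩ := T580.three_bd κ
    exact ⟨C0, h1, h2⟩
  obtain ⟨C, hC, h⟩ := tqA hC0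
  refine ⟨4 * C, by linarith, ?_⟩
  intro A hA q hq u hu n E s hE hs hc g hg
  have h1 := h M A hA q hq 1 κ hκ 0 u hu n E s 4
    (treeN_four hE (fun j hj z hz => by rw [div_one]; exact hs j hj z hz) hc) g hg
  refine h1.trans (le_of_eq ?_)
  congr 2
  ring_nf

end Vale.Agent.P112.HL
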